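import Crest.Agent.R350.Cube

/-!
# Row 350, piece Chain: the hidden distribution fools functions with small order-`K` derivatives

`N = 4^j = |V (2j)|`, `K = Kp + 1`.  `Had u y = 2^{-j} ∑_x chi y x u x`.
Means: `pm lam ω (t, y) = (1/2) * L_t y * R_t y` with `L_0 = lam`, `L_{t+1} y = sin (Had (ω t) y)`, `R_t = ω t` (`t < Kp`), `R_{Kp} = 1`.

PROOF of `chain_step`: `stein` for `G ω = A ω * dcoef f (pm lam ω) S`; along `v ↦ upd ω t x v` only the means of block `t+1` move
(the mean of `(t, x)` moves too, but `(t,x) ∈ S`), with derivative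
`pm' (t+1, y) = (1/2) cos (Had (ω t) y) * (chi y x / 2^j) * R_{t+1} y`; apply `hasDerivAt_dcoef` (no `(t+1,y)` is in `S`).

PROOF of `chain_bound`: iterate `chain_step` for `t = 0, …, Kp-1`, starting from `S = {(0, x_0)}`, `A = 1`, then
`A ← A * ((1 - ω_t(x_t)²)/2 * cos (Had (ω t) x_{t+1}))` (this does not depend on `ω_{t+1}`), `S ← insert (t+1, x_{t+1}) S`.  After `Kp` steps
`|LHS| ≤ (1/2) (1/2)^Kp 2^{-j Kp} ∑_x ∫ (1/2)^Kp |dcoef f (pm lam ω) (pset x)| dγ ≤ 2^{-j Kp} B` since `|pm| ≤ 1/2` a.e.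
PROOF of `hide_cube`: `G lam = ∫ ∑_z f z wt (pm lam ω) z` has derivative `∫ ∑_x (1/2) ω_0(x) dcoef f (pm lam ω) {(0,x)}`
(`hasDerivAt_dcoef` with `S = ∅` and `dcoef_empty`; differentiate under the integral, or expand the polynomial in `lam`), so
`|G 1 - G 0| ≤ sup |G'| ≤ 2^{-j Kp} B`.
-/

set_option autoImplicit false

namespace Crest.Agent.R350

open MeasureTheory

/-- normalised Walsh–Hadamard transform -/
noncomputable def Had {j : ℕ} (u : V (2 * j) → ℝ) (y : V (2 * j)) : ℝ :=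
  (∑ x, (chi y x : ℝ) * u x) / 2 ^ j

/-- left factors -/
noncomputable def Lf {j Kp : ℕ} (lam : ℝ) (ω : Om Kp (2 * j)) : Fin (Kp + 1) → V (2 * j) → ℝ :=
  Fin.cons (fun _ => lam) (fun t y => Real.sin (Had (ω t) y))

/-- right factors -/
noncomputable def Rf {j Kp : ℕ} (ω : Om Kp (2 * j)) : Fin (Kp + 1) → V (2 * j) → ℝ :=
  Fin.snoc (α := fun _ => V (2 * j) → ℝ) ω (fun _ => 1)

/-- the means -/
noncomputable def pm {j Kp : ℕ} (lam : ℝ) (ω : Om Kp (2 * j)) : Fin (Kp + 1) × V (2 * j) → ℝ :=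
  fun i => 1 / 2 * Lf lam ω i.1 i.2 * Rf ω i.1 i.2

/-- the set `{(t, x t)}` -/
def pset {K n : ℕ} (x : Fin K → V n) : Finset (Fin K × V n) := Finset.univ.image (fun t => (t, x t))

theorem continuous_Had {j : ℕ} (y : V (2 * j)) : Continuous (fun u : V (2 * j) → ℝ => Had u y) := by
  unfold Had
  refine Continuous.div_const ?_ _
  exact continuous_finsetSum _ fun x _ => continuous_const.mul (continuous_apply x)

theorem Lf_zero {j Kp : ℕ} (lam : ℝ) (ω : Om Kp (2 * j)) (y : V (2 * j)) : Lf lam ω 0 y = lam := rfl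

theorem Lf_succ {j Kp : ℕ} (lam : ℝ) (ω : Om Kp (2 * j)) (t : Fin Kp) (y : V (2 * j)) :
    Lf lam ω t.succ y = Real.sin (Had (ω t) y) := rfl

theorem Rf_castSucc {j Kp : ℕ} (ω : Om Kp (2 * j)) (t : Fin Kp) (y : V (2 * j)) :
    Rf ω t.castSucc y = ω t y := by
  unfold Rf
  rw [Fin.snoc_castSucc]

theorem Rf_last {j Kp : ℕ} (ω : Om Kp (2 * j)) (y : V (2 * j)) : Rf ω (Fin.last Kp) y = 1 := by
  unfold Rf
  rw [Fin.snoc_last]

theorem continuous_Lf {j Kp : ℕ} (s : Fin (Kp + 1)) (y : V (2 * j)) :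
    Continuous (fun w : ℝ × Om Kp (2 * j) => Lf w.1 w.2 s y) := by
  induction s using Fin.cases with
  | zero => exact continuous_fst
  | succ t =>
    simp only [Lf_succ]
    exact Real.continuous_sin.comp ((continuous_Had y).comp
      ((continuous_apply t).comp continuous_snd))

theorem continuous_Rf {j Kp : ℕ} (s : Fin (Kp + 1)) (y : V (2 * j)) :
    Continuous (fun ω : Om Kp (2 * j) => Rf ω s y) := by
  induction s using Fin.lastCases with
  | last => simp only [Rf_last]; exact continuous_const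
  | cast t =>
    simp only [Rf_castSucc]
    exact (continuous_apply y).comp (continuous_apply t)

theorem continuous_pm {j Kp : ℕ} : Continuous (fun w : ℝ × Om Kp (2 * j) => pm w.1 w.2) := by
  refine continuous_pi fun i => ?_
  unfold pm
  exact (continuous_const.mul (continuous_Lf i.1 i.2)).mul
    ((continuous_Rf i.1 i.2).comp continuous_snd)

theorem abs_pm_le {j Kp : ℕ} {lam : ℝ} (h0 : 0 ≤ lam) (h1 : lam ≤ 1) {ω : Om Kp (2 * j)}
    (hω : ∀ t x, |ω t x| ≤ 1) (i : Fin (Kp + 1) × V (2 * j)) : |pm lam ω i| ≤ 1 / 2 := by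
  obtain ⟨s, y⟩ := i
  have hL : |Lf lam ω s y| ≤ 1 := by
    induction s using Fin.cases with
    | zero => rw [Lf_zero, abs_of_nonneg h0]; exact h1
    | succ t => rw [Lf_succ]; exact Real.abs_sin_le_one _
  have hR : |Rf ω s y| ≤ 1 := by
    induction s using Fin.lastCases with
    | last => rw [Rf_last]; simp
    | cast t => rw [Rf_castSucc]; exact hω t y
  show |1 / 2 * Lf lam ω s y * Rf ω s y| ≤ 1 / 2
  rw [abs_mul, abs_mul, abs_of_pos (by norm_num : (0 : ℝ) < 1 / 2)]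
  nlinarith [abs_nonneg (Lf lam ω s y), abs_nonneg (Rf ω s y),
    mul_le_one₀ hL (abs_nonneg (Rf ω s y)) hR]

/-- derivative of the transform with respect to one coordinate -/
theorem hasDerivAt_Had {j : ℕ} (u : V (2 * j) → ℝ) (x y : V (2 * j)) (v : ℝ) :
    HasDerivAt (fun v => Had (Function.update u x v) y) ((chi y x : ℝ) / 2 ^ j) v := by
  unfold Had
  refine HasDerivAt.div_const ?_ _
  have h : ∀ x' ∈ (Finset.univ : Finset (V (2 * j))),
      HasDerivAt (fun v => (chi y x' : ℝ) * Function.update u x v x')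
        (if x' = x then (chi y x' : ℝ) else 0) v := by
    intro x' _
    by_cases hx : x' = x
    · subst hx
      simp only [Function.update_self, if_true]
      simpa using (hasDerivAt_id v).const_mul (chi y x' : ℝ)
    · simp only [Function.update_of_ne hx, if_neg hx]
      exact hasDerivAt_const _ _
  have h2 := HasDerivAt.fun_sum h
  simpa using h2

/-- derivative of the means along one coordinate -/
noncomputable def pm' {j Kp : ℕ} (t : Fin Kp) (x : V (2 * j)) (ω : Om Kp (2 * j))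
    (i : Fin (Kp + 1) × V (2 * j)) : ℝ :=
  if i.1 = t.succ then 1 / 2 * (Real.cos (Had (ω t) i.2) * ((chi i.2 x : ℝ) / 2 ^ j)) * Rf ω i.1 i.2
  else 0

theorem hasDerivAt_pm {j Kp : ℕ} (lam : ℝ) (t : Fin Kp) (x : V (2 * j)) (ω : Om Kp (2 * j)) (v : ℝ)
    (i : Fin (Kp + 1) × V (2 * j)) (hi : i ≠ (t.castSucc, x)) :
    HasDerivAt (fun v => pm lam (upd ω t x v) i) (pm' t x (upd ω t x v) i) v := by
  obtain ⟨s, y⟩ := i
  have hR : ∀ w, Rf (upd ω t x w) s y = Rf (upd ω t x v) s y := by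
    intro w
    induction s using Fin.lastCases with
    | last => rw [Rf_last, Rf_last]
    | cast s' =>
      rw [Rf_castSucc, Rf_castSucc]
      unfold upd
      by_cases hs : s' = t
      · subst hs
        have hy : y ≠ x := fun h => hi (by rw [h])
        rw [Function.update_self, Function.update_self, Function.update_of_ne hy,
          Function.update_of_ne hy]
      · rw [Function.update_of_ne hs, Function.update_of_ne hs]
  have hL : HasDerivAt (fun w => Lf lam (upd ω t x w) s y)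
      (if s = t.succ then Real.cos (Had (upd ω t x v t) y) * ((chi y x : ℝ) / 2 ^ j) else 0) v := by
    induction s using Fin.cases with
    | zero =>
      rw [if_neg (Fin.succ_ne_zero t).symm]
      exact hasDerivAt_const _ _
    | succ s' =>
      simp only [Lf_succ]
      by_cases hs : s' = t
      · subst hs
        rw [if_pos rfl]
        unfold upd
        simp only [Function.update_self]
        exact (hasDerivAt_Had (ω s') x y v).sin
      · rw [if_neg (fun h => hs (Fin.succ_injective _ h))]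
        unfold upd
        simp only [Function.update_of_ne hs]
        exact hasDerivAt_const _ _
  have h := (hL.const_mul (1 / 2)).mul_const (Rf (upd ω t x v) s y)
  have he : (fun w => pm lam (upd ω t x w) (s, y)) =
      fun w => 1 / 2 * Lf lam (upd ω t x w) s y * Rf (upd ω t x v) s y := by
    funext w
    rw [← hR w]
    rfl
  rw [he]
  have hval : pm' t x (upd ω t x v) (s, y) = 1 / 2 * (if s = t.succ then
      Real.cos (Had (upd ω t x v t) y) * ((chi y x : ℝ) / 2 ^ j) else 0) *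
      Rf (upd ω t x v) s y := by
    unfold pm'
    split_ifs <;> simp
  rw [hval]
  exact h

theorem continuous_pm' {j Kp : ℕ} (t : Fin Kp) (x : V (2 * j)) (i : Fin (Kp + 1) × V (2 * j)) :
    Continuous (fun ω : Om Kp (2 * j) => pm' t x ω i) := by
  unfold pm'
  split_ifs
  · exact (continuous_const.mul ((Real.continuous_cos.comp ((continuous_Had _).comp
      (continuous_apply t))).mul continuous_const)).mul (continuous_Rf i.1 i.2)
  · exact continuous_const

theorem continuous_pm_lam {j Kp : ℕ} (lam : ℝ) : Continuous (fun ω : Om Kp (2 * j) => pm lam ω) :=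
  continuous_pm.comp (Continuous.prodMk_right lam)

theorem continuous_dcoef_pm {j Kp : ℕ} (f : Inst (Kp + 1) (2 * j) → ℝ) (lam : ℝ)
    (S : Finset (Fin (Kp + 1) × V (2 * j))) :
    Continuous (fun ω : Om Kp (2 * j) => dcoef f (pm lam ω) S) :=
  (continuous_dcoef f S).comp (continuous_pm_lam lam)

theorem chain_step {j Kp : ℕ} (f : Inst (Kp + 1) (2 * j) → ℝ) (lam : ℝ) (t : Fin Kp) (x : V (2 * j))
    (S : Finset (Fin (Kp + 1) × V (2 * j))) (hS : (t.castSucc, x) ∈ S)
    (hS' : ∀ y, (t.succ, y) ∉ S) (A : Om Kp (2 * j) → ℝ) (hA : Continuous A)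
    (hA' : ∀ ω v, A (upd ω t x v) = A ω) :
    ∫ ω, A ω * (ω t x * dcoef f (pm lam ω) S) ∂(gam Kp (2 * j))
      = 1 / 2 * (1 / 2 ^ j) * ∑ y : V (2 * j), (chi y x : ℝ) *
        ∫ ω, A ω * ((1 - (ω t x) ^ 2) / 2 * Real.cos (Had (ω t) y)) *
          (Rf ω t.succ y * dcoef f (pm lam ω) (insert (t.succ, y) S)) ∂(gam Kp (2 * j)) := by
  have hsum : ∀ ω : Om Kp (2 * j), ∑ i ∈ Sᶜ, pm' t x ω i * dcoef f (pm lam ω) (insert i S) =
      ∑ y : V (2 * j), pm' t x ω (t.succ, y) * dcoef f (pm lam ω) (insert (t.succ, y) S) := by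
    intro ω
    have himg : (Finset.univ.image fun y : V (2 * j) => ((t.succ, y) : Fin (Kp + 1) × V (2 * j)))
        ⊆ Sᶜ := by
      intro i hi
      obtain ⟨y, _, rfl⟩ := Finset.mem_image.1 hi
      exact Finset.mem_compl.2 (hS' y)
    rw [← Finset.sum_subset himg]
    · rw [Finset.sum_image]
      intro y _ y' _ h
      exact (Prod.mk.inj h).2
    · intro i _ hi
      have hi1 : i.1 ≠ t.succ := fun h => hi (Finset.mem_image.2 ⟨i.2, Finset.mem_univ _, by
        rw [← h]⟩)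
      unfold pm'
      rw [if_neg hi1, zero_mul]
  have hst := stein t x (fun ω => A ω * dcoef f (pm lam ω) S)
    (fun ω => A ω * ∑ i ∈ Sᶜ, pm' t x ω i * dcoef f (pm lam ω) (insert i S))
    (hA.mul (continuous_dcoef_pm f lam S))
    (hA.mul (continuous_finsetSum _ fun i _ =>
      (continuous_pm' t x i).mul (continuous_dcoef_pm f lam _))) (by
      intro ω v
      simp only [hA']
      refine HasDerivAt.const_mul (A ω) ?_
      exact hasDerivAt_dcoef f S (fun v => pm lam (upd ω t x v)) (pm' t x (upd ω t x v)) v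
        fun i hi => hasDerivAt_pm lam t x ω v i fun h => hi (h ▸ hS))
  calc ∫ ω, A ω * (ω t x * dcoef f (pm lam ω) S) ∂(gam Kp (2 * j))
      = ∫ ω, ω t x * (A ω * dcoef f (pm lam ω) S) ∂(gam Kp (2 * j)) := by
        congr 1; funext ω; ring
    _ = ∫ ω, (1 - (ω t x) ^ 2) / 2 * (A ω * ∑ i ∈ Sᶜ, pm' t x ω i *
          dcoef f (pm lam ω) (insert i S)) ∂(gam Kp (2 * j)) := hst
    _ = ∫ ω, ∑ y : V (2 * j), 1 / 2 * (1 / 2 ^ j) * ((chi y x : ℝ) *
          (A ω * ((1 - (ω t x) ^ 2) / 2 * Real.cos (Had (ω t) y)) *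
          (Rf ω t.succ y * dcoef f (pm lam ω) (insert (t.succ, y) S)))) ∂(gam Kp (2 * j)) := by
        congr 1; funext ω
        rw [hsum, Finset.mul_sum, Finset.mul_sum]
        refine Finset.sum_congr rfl fun y _ => ?_
        unfold pm'
        rw [if_pos rfl]
        ring
    _ = ∑ y : V (2 * j), ∫ ω, 1 / 2 * (1 / 2 ^ j) * ((chi y x : ℝ) *
          (A ω * ((1 - (ω t x) ^ 2) / 2 * Real.cos (Had (ω t) y)) *
          (Rf ω t.succ y * dcoef f (pm lam ω) (insert (t.succ, y) S)))) ∂(gam Kp (2 * j)) := by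
        refine integral_finsetSum _ fun y _ => integrable_gam _ ?_
        refine continuous_const.mul (continuous_const.mul (Continuous.mul (hA.mul
          (Continuous.mul ?_ ?_)) ((continuous_Rf _ _).mul (continuous_dcoef_pm f lam _))))
        · have h1 : Continuous (fun ω : Om Kp (2 * j) => ω t x) :=
            (continuous_apply x).comp (continuous_apply t)
          exact (continuous_const.sub (h1.pow 2)).div_const _
        · exact Real.continuous_cos.comp ((continuous_Had _).comp (continuous_apply t))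
    _ = _ := by
        rw [Finset.mul_sum]
        refine Finset.sum_congr rfl fun y _ => ?_
        rw [integral_const_mul, integral_const_mul]

/-! ### iteration of `chain_step` -/

namespace Chainaux

theorem abs_chi {n : ℕ} (x y : V n) : |(chi x y : ℝ)| = 1 := by
  unfold chi
  push_cast
  rw [Finset.abs_prod]
  refine Finset.prod_eq_one fun i _ => ?_
  split_ifs <;> simp

theorem sum_update {n N : ℕ} (s : Fin N) (F : (Fin N → V n) → ℝ) :
    ∑ x : Fin N → V n, ∑ y : V n, F (Function.update x s y) =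
      (Fintype.card (V n) : ℝ) * ∑ x, F x := by
  have h1 : ∑ x : Fin N → V n, ∑ y : V n, F (Function.update x s y) =
      ∑ q : (Fin N → V n) × V n, F (Function.update q.1 s q.2) := by
    rw [Fintype.sum_prod_type]
  have h2 : ∑ q : (Fin N → V n) × V n, F (Function.update q.1 s q.2) =
      ∑ q : (Fin N → V n) × V n, F q.1 := by
    let e : (Fin N → V n) × V n ≃ (Fin N → V n) × V n :=
      { toFun := fun q => (Function.update q.1 s q.2, q.1 s)
        invFun := fun q => (Function.update q.1 s q.2, q.1 s)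
        left_inv := fun q => by simp
        right_inv := fun q => by simp }
    exact Fintype.sum_equiv e _ _ fun q => rfl
  rw [h1, h2, Fintype.sum_prod_type]
  simp [Finset.mul_sum]

theorem sum_zero_coord {n N : ℕ} (F : V n → ℝ) :
    ∑ x : Fin (N + 1) → V n, F (x 0) = (Fintype.card (V n) : ℝ) ^ N * ∑ y, F y := by
  rw [← (Fin.consEquiv (fun _ : Fin (N + 1) => V n)).sum_comp, Fintype.sum_prod_type]
  simp [Fin.consEquiv, Finset.mul_sum]

/-- accumulated factors -/
noncomputable def AA {j Kp : ℕ} (t : ℕ) (x : Fin (Kp + 1) → V (2 * j)) (ω : Om Kp (2 * j)) : ℝ :=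
  ∏ s : Fin Kp, if s.val < t then
    (1 - (ω s (x s.castSucc)) ^ 2) / 2 * Real.cos (Had (ω s) (x s.succ)) else 1

/-- the set of visited points -/
def SS {j Kp : ℕ} (t : ℕ) (x : Fin (Kp + 1) → V (2 * j)) : Finset (Fin (Kp + 1) × V (2 * j)) :=
  (Finset.univ.filter fun s : Fin (Kp + 1) => s.val ≤ t).image fun s => (s, x s)

theorem mem_SS {j Kp : ℕ} {t : ℕ} {x : Fin (Kp + 1) → V (2 * j)} {i : Fin (Kp + 1) × V (2 * j)} :
    i ∈ SS t x ↔ i.1.val ≤ t ∧ i.2 = x i.1 := by
  unfold SS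
  rw [Finset.mem_image]
  constructor
  · rintro ⟨s, hs, rfl⟩
    exact ⟨(Finset.mem_filter.1 hs).2, rfl⟩
  · rintro ⟨h1, h2⟩
    exact ⟨i.1, Finset.mem_filter.2 ⟨Finset.mem_univ _, h1⟩, by rw [← h2]⟩

theorem continuous_AA {j Kp : ℕ} (t : ℕ) (x : Fin (Kp + 1) → V (2 * j)) :
    Continuous (AA (Kp := Kp) t x) := by
  unfold AA
  refine continuous_finsetProd _ fun s _ => ?_
  split_ifs
  · have h1 : Continuous (fun ω : Om Kp (2 * j) => ω s (x s.castSucc)) :=
      (continuous_apply _).comp (continuous_apply s)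
    exact ((continuous_const.sub (h1.pow 2)).div_const _).mul
      (Real.continuous_cos.comp ((continuous_Had _).comp (continuous_apply s)))
  · exact continuous_const

theorem AA_upd {j Kp : ℕ} (t : Fin Kp) (x : Fin (Kp + 1) → V (2 * j)) (ω : Om Kp (2 * j))
    (z : V (2 * j)) (v : ℝ) : AA t.val x (upd ω t z v) = AA t.val x ω := by
  unfold AA
  refine Finset.prod_congr rfl fun s _ => ?_
  split_ifs with h
  · have hs : s ≠ t := fun h' => by rw [h'] at h; exact lt_irrefl _ h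
    unfold upd
    rw [Function.update_of_ne hs]
  · rfl

theorem AA_succ {j Kp : ℕ} (t : Fin Kp) (x : Fin (Kp + 1) → V (2 * j)) (ω : Om Kp (2 * j))
    (y : V (2 * j)) : AA (t.val + 1) (Function.update x t.succ y) ω =
      AA t.val x ω * ((1 - (ω t (x t.castSucc)) ^ 2) / 2 * Real.cos (Had (ω t) y)) := by
  unfold AA
  have h : ((1 - (ω t (x t.castSucc)) ^ 2) / 2 * Real.cos (Had (ω t) y)) = ∏ s : Fin Kp,
      if s = t then ((1 - (ω t (x t.castSucc)) ^ 2) / 2 * Real.cos (Had (ω t) y)) else 1 := by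
    rw [Finset.prod_ite_eq' Finset.univ t, if_pos (Finset.mem_univ _)]
  rw [h, ← Finset.prod_mul_distrib]
  refine Finset.prod_congr rfl fun s _ => ?_
  rcases lt_trichotomy s.val t.val with hs | hs | hs
  · have h1 : s ≠ t := fun h' => by rw [h'] at hs; exact lt_irrefl _ hs
    have h2 : s.castSucc ≠ t.succ := fun h' => by
      have := congrArg Fin.val h'
      simp only [Fin.val_castSucc, Fin.val_succ] at this
      omega
    have h3 : s.succ ≠ t.succ := fun h' => h1 (Fin.succ_injective _ h')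
    rw [if_pos (by omega), if_pos hs, if_neg h1, mul_one, Function.update_of_ne h2,
      Function.update_of_ne h3]
  · have h1 : s = t := Fin.ext hs
    subst h1
    have h2 : s.castSucc ≠ s.succ := fun h' => by
      have := congrArg Fin.val h'
      simp only [Fin.val_castSucc, Fin.val_succ] at this
      omega
    rw [if_pos (by omega), if_neg (by omega), if_pos rfl, one_mul, Function.update_of_ne h2,
      Function.update_self]
  · have h1 : s ≠ t := fun h' => by rw [h'] at hs; exact lt_irrefl _ hs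
    rw [if_neg (by omega), if_neg (by omega), if_neg h1, mul_one]

theorem SS_succ {j Kp : ℕ} (t : Fin Kp) (x : Fin (Kp + 1) → V (2 * j)) (y : V (2 * j)) :
    SS (t.val + 1) (Function.update x t.succ y) = insert (t.succ, y) (SS t.val x) := by
  ext ⟨s, z⟩
  rw [Finset.mem_insert, mem_SS, mem_SS]
  simp only [Prod.mk.injEq]
  by_cases hs : s = t.succ
  · subst hs
    simp only [Function.update_self, Fin.val_succ]
    constructor
    · rintro ⟨_, h⟩
      exact Or.inl ⟨trivial, h⟩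
    · rintro (⟨_, h⟩ | ⟨h, _⟩)
      · exact ⟨le_refl _, h⟩
      · omega
  · have hv : s.val ≠ t.val + 1 := fun h => hs (Fin.ext (by simpa using h))
    rw [Function.update_of_ne hs]
    constructor
    · rintro ⟨h1, h2⟩
      exact Or.inr ⟨by omega, h2⟩
    · rintro (⟨h, _⟩ | ⟨h1, h2⟩)
      · exact absurd h hs
      · exact ⟨by omega, h2⟩

theorem SS_last {j Kp : ℕ} (x : Fin (Kp + 1) → V (2 * j)) : SS Kp x = pset x := by
  ext ⟨s, z⟩
  rw [mem_SS]
  unfold pset
  rw [Finset.mem_image]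
  constructor
  · rintro ⟨_, h⟩
    exact ⟨s, Finset.mem_univ _, by rw [← h]⟩
  · rintro ⟨s', _, h⟩
    obtain ⟨rfl, rfl⟩ := Prod.mk.inj h
    exact ⟨Nat.lt_succ_iff.1 s'.isLt, rfl⟩

theorem SS_zero {j Kp : ℕ} (x : Fin (Kp + 1) → V (2 * j)) : SS 0 x = {(0, x 0)} := by
  ext ⟨s, z⟩
  rw [mem_SS, Finset.mem_singleton, Prod.mk.injEq]
  constructor
  · rintro ⟨h1, h2⟩
    have hs : s = 0 := Fin.ext (Nat.le_zero.1 h1)
    subst hs
    exact ⟨rfl, h2⟩
  · rintro ⟨rfl, h2⟩
    exact ⟨le_refl _, h2⟩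

/-- the iterated integrals -/
noncomputable def II {j Kp : ℕ} (f : Inst (Kp + 1) (2 * j) → ℝ) (lam : ℝ) (t : Fin (Kp + 1))
    (x : Fin (Kp + 1) → V (2 * j)) : ℝ :=
  ∫ ω, AA t.val x ω * (Rf ω t (x t) * dcoef f (pm lam ω) (SS t.val x)) ∂(gam Kp (2 * j))

theorem II_step {j Kp : ℕ} (f : Inst (Kp + 1) (2 * j) → ℝ) (lam : ℝ) (t : Fin Kp)
    (x : Fin (Kp + 1) → V (2 * j)) :
    |II f lam t.castSucc x| ≤ 1 / 2 * (1 / 2 ^ j) *
      ∑ y : V (2 * j), |II f lam t.succ (Function.update x t.succ y)| := by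
  have h := chain_step f lam t (x t.castSucc) (SS t.val x) (mem_SS.2 ⟨le_refl _, rfl⟩)
    (fun y hy => by
      have := (mem_SS.1 hy).1
      simp only [Fin.val_succ] at this
      omega) (AA t.val x) (continuous_AA _ _) (fun ω v => AA_upd t x ω _ v)
  have h1 : II f lam t.castSucc x = 1 / 2 * (1 / 2 ^ j) * ∑ y : V (2 * j), (chi y (x t.castSucc) : ℝ) *
      II f lam t.succ (Function.update x t.succ y) := by
    unfold II
    simp only [Rf_castSucc, Fin.val_castSucc, Fin.val_succ, AA_succ, SS_succ,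
      Function.update_self]
    exact h
  rw [h1, abs_mul, abs_of_pos (by positivity : (0 : ℝ) < 1 / 2 * (1 / 2 ^ j))]
  refine mul_le_mul_of_nonneg_left ?_ (by positivity)
  refine (Finset.abs_sum_le_sum_abs _ _).trans (Finset.sum_le_sum fun y _ => ?_)
  rw [abs_mul, abs_chi, one_mul]

theorem sum_II_step {j Kp : ℕ} (f : Inst (Kp + 1) (2 * j) → ℝ) (lam : ℝ) (t : Fin Kp) :
    ∑ x, |II f lam t.castSucc x| ≤ 1 / 2 * (1 / 2 ^ j) * (Fintype.card (V (2 * j)) : ℝ) *
      ∑ x, |II f lam t.succ x| := by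
  refine (Finset.sum_le_sum fun x _ => II_step f lam t x).trans ?_
  rw [← Finset.mul_sum, sum_update t.succ (fun x => |II f lam t.succ x|)]
  exact le_of_eq (by ring)

theorem sum_II {j Kp : ℕ} (f : Inst (Kp + 1) (2 * j) → ℝ) (lam : ℝ) (t : ℕ) (ht : t ≤ Kp) :
    ∑ x, |II f lam 0 x| ≤ (1 / 2 * (1 / 2 ^ j) * (Fintype.card (V (2 * j)) : ℝ)) ^ t *
      ∑ x, |II f lam ⟨t, Nat.lt_succ_of_le ht⟩ x| := by
  induction t with
  | zero => simp
  | succ t ih =>
    refine (ih (by omega)).trans ?_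
    have hc : (0 : ℝ) ≤ 1 / 2 * (1 / 2 ^ j) * (Fintype.card (V (2 * j)) : ℝ) := by positivity
    have h := mul_le_mul_of_nonneg_left (sum_II_step f lam ⟨t, ht⟩) (pow_nonneg hc t)
    rw [← mul_assoc, ← pow_succ] at h
    exact h

theorem abs_AA_le {j Kp : ℕ} (x : Fin (Kp + 1) → V (2 * j)) {ω : Om Kp (2 * j)}
    (hω : ∀ t x, |ω t x| ≤ 1) : |AA Kp x ω| ≤ (1 / 2) ^ Kp := by
  unfold AA
  rw [Finset.abs_prod]
  calc _ ≤ ∏ s : Fin Kp, (1 / 2 : ℝ) := by
        refine Finset.prod_le_prod (fun s _ => abs_nonneg _) fun s _ => ?_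
        rw [if_pos s.isLt, abs_mul]
        have h1 := hω s (x s.castSucc)
        have h2 : (ω s (x s.castSucc)) ^ 2 ≤ 1 := (sq_le_one_iff_abs_le_one _).2 h1
        have h3 := sq_nonneg (ω s (x s.castSucc))
        have h4 : |(1 - (ω s (x s.castSucc)) ^ 2) / 2| ≤ 1 / 2 := by
          rw [abs_le]; constructor <;> linarith
        have h5 := Real.abs_cos_le_one (Had (ω s) (x s.succ))
        calc _ ≤ 1 / 2 * 1 := mul_le_mul h4 h5 (abs_nonneg _) (by norm_num)
          _ = 1 / 2 := by norm_num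
    _ = _ := by simp

theorem sum_II_last {j Kp : ℕ} (f : Inst (Kp + 1) (2 * j) → ℝ) (B : ℝ)
    (hB : ∀ p : Fin (Kp + 1) × V (2 * j) → ℝ, (∀ i, |p i| ≤ 1 / 2) →
      ∑ x : Fin (Kp + 1) → V (2 * j), |dcoef f p (pset x)| ≤ B)
    {lam : ℝ} (h0 : 0 ≤ lam) (h1 : lam ≤ 1) :
    ∑ x, |II f lam (Fin.last Kp) x| ≤ (1 / 2) ^ Kp * B := by
  have hc : ∀ x : Fin (Kp + 1) → V (2 * j),
      Continuous fun ω : Om Kp (2 * j) => |dcoef f (pm lam ω) (pset x)| := fun x =>
    (continuous_dcoef_pm f lam _).abs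
  have hII : ∀ x, |II f lam (Fin.last Kp) x| ≤
      ∫ ω, (1 / 2) ^ Kp * |dcoef f (pm lam ω) (pset x)| ∂(gam Kp (2 * j)) := by
    intro x
    unfold II
    simp only [Rf_last, one_mul, Fin.val_last, SS_last]
    refine (abs_integral_le_integral_abs).trans ?_
    refine integral_mono_ae ?_ ?_ ?_
    · exact integrable_gam _ (((continuous_AA _ _).mul (continuous_dcoef_pm f lam _)).abs)
    · exact integrable_gam _ (continuous_const.mul (hc x))
    · filter_upwards [gam_ae Kp (2 * j)] with ω hω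
      rw [abs_mul]
      exact mul_le_mul_of_nonneg_right (abs_AA_le x hω) (abs_nonneg _)
  calc ∑ x, |II f lam (Fin.last Kp) x|
      ≤ ∑ x, ∫ ω, (1 / 2) ^ Kp * |dcoef f (pm lam ω) (pset x)| ∂(gam Kp (2 * j)) :=
        Finset.sum_le_sum fun x _ => hII x
    _ = ∫ ω, ∑ x, (1 / 2) ^ Kp * |dcoef f (pm lam ω) (pset x)| ∂(gam Kp (2 * j)) := by
        rw [integral_finsetSum]
        exact fun x _ => integrable_gam _ (continuous_const.mul (hc x))
    _ ≤ ∫ ω, (1 / 2) ^ Kp * B ∂(gam Kp (2 * j)) := by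
        refine integral_mono_ae ?_ (integrable_const _) ?_
        · exact integrable_gam _ (continuous_finsetSum _ fun x _ => continuous_const.mul (hc x))
        · filter_upwards [gam_ae Kp (2 * j)] with ω hω
          rw [← Finset.mul_sum]
          exact mul_le_mul_of_nonneg_left (hB _ fun i => abs_pm_le h0 h1 hω i) (by positivity)
    _ = (1 / 2) ^ Kp * B := by simp

end Chainaux

theorem chain_bound {j Kp : ℕ} (hKp : 0 < Kp) (f : Inst (Kp + 1) (2 * j) → ℝ) (B : ℝ)
    (hB : ∀ p : Fin (Kp + 1) × V (2 * j) → ℝ, (∀ i, |p i| ≤ 1 / 2) →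
      ∑ x : Fin (Kp + 1) → V (2 * j), |dcoef f p (pset x)| ≤ B)
    {lam : ℝ} (h0 : 0 ≤ lam) (h1 : lam ≤ 1) :
    |∫ ω, ∑ x : V (2 * j), 1 / 2 * (ω ⟨0, hKp⟩ x) * dcoef f (pm lam ω) {(0, x)}
      ∂(gam Kp (2 * j))| ≤ B / 2 ^ (j * Kp) := by
  have hB0 : 0 ≤ B := (Finset.sum_nonneg fun _ _ => abs_nonneg _).trans
    (hB (fun _ => 0) fun i => by norm_num)
  have hc : ∀ y : V (2 * j), Continuous fun ω : Om Kp (2 * j) =>
      1 / 2 * (ω ⟨0, hKp⟩ y) * dcoef f (pm lam ω) {(0, y)} := fun y => by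
    have h1 : Continuous (fun ω : Om Kp (2 * j) => ω ⟨0, hKp⟩ y) :=
      (continuous_apply _).comp (continuous_apply _)
    exact (continuous_const.mul h1).mul (continuous_dcoef_pm f lam _)
  let J : V (2 * j) → ℝ := fun y =>
    ∫ ω, ω ⟨0, hKp⟩ y * dcoef f (pm lam ω) {(0, y)} ∂(gam Kp (2 * j))
  have hJ : ∀ x : Fin (Kp + 1) → V (2 * j), Chainaux.II f lam 0 x = J (x 0) := by
    intro x
    have h0' : (0 : Fin (Kp + 1)) = (⟨0, hKp⟩ : Fin Kp).castSucc := rfl
    have hAA : ∀ ω : Om Kp (2 * j), Chainaux.AA 0 x ω = 1 := by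
      intro ω
      unfold Chainaux.AA
      exact Finset.prod_eq_one fun s _ => if_neg (Nat.not_lt_zero _)
    have hR : ∀ (ω : Om Kp (2 * j)) (y : V (2 * j)), Rf ω 0 y = ω ⟨0, hKp⟩ y := by
      intro ω y
      rw [h0', Rf_castSucc]
    unfold Chainaux.II
    simp only [Fin.val_zero, hAA, one_mul, hR, Chainaux.SS_zero]
    rfl
  have hcard : (Fintype.card (V (2 * j)) : ℝ) = 2 ^ (2 * j) := by
    simp [Fintype.card_bool]
  have hsum : (Fintype.card (V (2 * j)) : ℝ) ^ Kp * ∑ y, |J y| = ∑ x, |Chainaux.II f lam 0 x| := by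
    rw [← Chainaux.sum_zero_coord (fun y => |J y|)]
    exact Finset.sum_congr rfl fun x _ => by rw [hJ]
  have h2 := Chainaux.sum_II f lam Kp le_rfl
  have h3 := Chainaux.sum_II_last f B hB h0 h1
  have h4 : ∑ y, |J y| ≤ (1 / 2 * (1 / 2 ^ j)) ^ Kp * ((1 / 2) ^ Kp * B) := by
    have hpos : (0 : ℝ) < (Fintype.card (V (2 * j)) : ℝ) ^ Kp := by
      rw [hcard]; positivity
    rw [← mul_le_mul_iff_right₀ hpos, hsum]
    refine h2.trans ?_
    rw [mul_pow _ (Fintype.card (V (2 * j)) : ℝ), mul_comm ((1 / 2 * (1 / 2 ^ j) : ℝ) ^ Kp) _,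
      mul_assoc]
    refine mul_le_mul_of_nonneg_left ?_ hpos.le
    exact mul_le_mul_of_nonneg_left h3 (by positivity)
  calc |∫ ω, ∑ x : V (2 * j), 1 / 2 * (ω ⟨0, hKp⟩ x) * dcoef f (pm lam ω) {(0, x)}
        ∂(gam Kp (2 * j))|
      = |∑ y, 1 / 2 * J y| := by
        rw [integral_finsetSum _ fun y _ => integrable_gam _ (hc y)]
        congr 1
        refine Finset.sum_congr rfl fun y _ => ?_
        simp only [mul_assoc]
        rw [integral_const_mul]
    _ ≤ ∑ y, 1 / 2 * |J y| := by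
        refine (Finset.abs_sum_le_sum_abs _ _).trans (le_of_eq ?_)
        refine Finset.sum_congr rfl fun y _ => ?_
        rw [abs_mul, abs_of_pos (by norm_num : (0 : ℝ) < 1 / 2)]
    _ = 1 / 2 * ∑ y, |J y| := by rw [Finset.mul_sum]
    _ ≤ 1 / 2 * ((1 / 2 * (1 / 2 ^ j)) ^ Kp * ((1 / 2) ^ Kp * B)) :=
        mul_le_mul_of_nonneg_left h4 (by norm_num)
    _ = (1 / 2 * (1 / 2) ^ Kp * (1 / 2) ^ Kp) * (B / 2 ^ (j * Kp)) := by
        rw [mul_pow, one_div_pow (2 ^ j : ℝ), ← pow_mul]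
        ring
    _ ≤ 1 * (B / 2 ^ (j * Kp)) := by
        refine mul_le_mul_of_nonneg_right ?_ (by positivity)
        have h5 : (1 / 2 : ℝ) ^ Kp ≤ 1 := pow_le_one₀ (by norm_num) (by norm_num)
        have h6 : (0 : ℝ) ≤ (1 / 2 : ℝ) ^ Kp := by positivity
        nlinarith
    _ = B / 2 ^ (j * Kp) := one_mul _

namespace Chainaux

theorem abs_dcoef_le {I : Type} [Fintype I] [DecidableEq I] (f : (I → Bool) → ℝ) {p : I → ℝ}
    (hp : ∀ i, |p i| ≤ 1) (S : Finset I) : |dcoef f p S| ≤ ∑ z, |f z| := by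
  unfold dcoef
  refine (Finset.abs_sum_le_sum_abs _ _).trans (Finset.sum_le_sum fun z _ => ?_)
  rw [abs_mul, Finset.abs_prod]
  have h : ∏ i, |if i ∈ S then (sg (z i) : ℝ) / 2 else (1 + (sg (z i) : ℝ) * p i) / 2| ≤ 1 := by
    refine Finset.prod_le_one (fun i _ => abs_nonneg _) fun i _ => ?_
    have h1 := abs_le.1 (hp i)
    unfold sg
    split_ifs <;> rw [abs_le] <;> push_cast <;> constructor <;> linarith [h1.1, h1.2]
  calc |f z| * _ ≤ |f z| * 1 := mul_le_mul_of_nonneg_left h (abs_nonneg _)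
    _ = |f z| := mul_one _

theorem hasDerivAt_pm_lam {j Kp : ℕ} (ω : Om Kp (2 * j)) (lam : ℝ)
    (i : Fin (Kp + 1) × V (2 * j)) :
    HasDerivAt (fun lam => pm lam ω i) (if i.1 = 0 then 1 / 2 * Rf ω 0 i.2 else 0) lam := by
  obtain ⟨s, y⟩ := i
  induction s using Fin.cases with
  | zero =>
    rw [if_pos rfl]
    have h := ((hasDerivAt_id lam).const_mul (1 / 2 : ℝ)).mul_const (Rf ω 0 y)
    rw [mul_one] at h
    exact h
  | succ s' =>
    rw [if_neg (Fin.succ_ne_zero s')]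
    exact hasDerivAt_const lam (1 / 2 * Lf lam ω s'.succ y * Rf ω s'.succ y)

theorem abs_pm_le_one {j Kp : ℕ} {lam : ℝ} (h0 : |lam| ≤ 2) {ω : Om Kp (2 * j)}
    (hω : ∀ t x, |ω t x| ≤ 1) (i : Fin (Kp + 1) × V (2 * j)) : |pm lam ω i| ≤ 1 := by
  obtain ⟨s, y⟩ := i
  have hL : |Lf lam ω s y| ≤ 2 := by
    induction s using Fin.cases with
    | zero => rw [Lf_zero]; exact h0
    | succ t => rw [Lf_succ]; exact (Real.abs_sin_le_one _).trans (by norm_num)
  have hR : |Rf ω s y| ≤ 1 := by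
    induction s using Fin.lastCases with
    | last => rw [Rf_last]; simp
    | cast t => rw [Rf_castSucc]; exact hω t y
  show |1 / 2 * Lf lam ω s y * Rf ω s y| ≤ 1
  rw [abs_mul, abs_mul, abs_of_pos (by norm_num : (0 : ℝ) < 1 / 2)]
  calc 1 / 2 * |Lf lam ω s y| * |Rf ω s y| ≤ 1 / 2 * 2 * 1 := by gcongr
    _ = 1 := by norm_num

end Chainaux

theorem hide_cube {j Kp : ℕ} (hKp : 0 < Kp) (f : Inst (Kp + 1) (2 * j) → ℝ) (B : ℝ)
    (hB : ∀ p : Fin (Kp + 1) × V (2 * j) → ℝ, (∀ i, |p i| ≤ 1 / 2) →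
      ∑ x : Fin (Kp + 1) → V (2 * j), |dcoef f p (pset x)| ≤ B) :
    |∫ ω, ∑ z, f z * wt (pm 1 ω) z ∂(gam Kp (2 * j)) - ∫ ω, ∑ z, f z * wt (pm 0 ω) z ∂(gam Kp (2 * j))|
      ≤ B / 2 ^ (j * Kp) := by
  simp only [← dcoef_empty]
  let F' : ℝ → Om Kp (2 * j) → ℝ := fun lam ω =>
    ∑ x : V (2 * j), 1 / 2 * (ω ⟨0, hKp⟩ x) * dcoef f (pm lam ω) {(0, x)}
  have hR : ∀ (ω : Om Kp (2 * j)) (y : V (2 * j)), Rf ω 0 y = ω ⟨0, hKp⟩ y := by
    intro ω y
    have h0' : (0 : Fin (Kp + 1)) = (⟨0, hKp⟩ : Fin Kp).castSucc := rfl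
    rw [h0', Rf_castSucc]
  have hderiv : ∀ (ω : Om Kp (2 * j)) (lam : ℝ),
      HasDerivAt (fun lam => dcoef f (pm lam ω) ∅) (F' lam ω) lam := by
    intro ω lam
    have h := hasDerivAt_dcoef f ∅ (fun lam => pm lam ω)
      (fun i => if i.1 = 0 then 1 / 2 * Rf ω 0 i.2 else 0) lam
      fun i _ => Chainaux.hasDerivAt_pm_lam ω lam i
    have he : F' lam ω = ∑ i ∈ (∅ : Finset (Fin (Kp + 1) × V (2 * j)))ᶜ,
        (if i.1 = 0 then 1 / 2 * Rf ω 0 i.2 else 0) * dcoef f (pm lam ω) (insert i ∅) := by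
      rw [Finset.compl_empty, Fintype.sum_prod_type, Finset.sum_eq_single (0 : Fin (Kp + 1))]
      · refine Finset.sum_congr rfl fun y _ => ?_
        rw [if_pos rfl, hR]
        rfl
      · intro s _ hs
        refine Finset.sum_eq_zero fun y _ => ?_
        rw [if_neg hs, zero_mul]
      · intro h
        exact absurd (Finset.mem_univ _) h
    rw [he]
    exact h
  have hF'c : ∀ lam, Continuous (F' lam) := fun lam => by
    refine continuous_finsetSum _ fun y _ => ?_
    have h1 : Continuous (fun ω : Om Kp (2 * j) => ω ⟨0, hKp⟩ y) :=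
      (continuous_apply _).comp (continuous_apply _)
    exact (continuous_const.mul h1).mul (continuous_dcoef_pm f lam _)
  set C : ℝ := ∑ _x : V (2 * j), 1 / 2 * ∑ z, |f z| with hC
  have hbound : ∀ᵐ ω ∂(gam Kp (2 * j)), ∀ lam ∈ Set.Ioo (-2 : ℝ) 2, ‖F' lam ω‖ ≤ C := by
    filter_upwards [gam_ae Kp (2 * j)] with ω hω
    intro lam hlam
    rw [Real.norm_eq_abs]
    refine (Finset.abs_sum_le_sum_abs _ _).trans (Finset.sum_le_sum fun y _ => ?_)
    rw [abs_mul, abs_mul, abs_of_pos (by norm_num : (0 : ℝ) < 1 / 2)]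
    have h1 := hω ⟨0, hKp⟩ y
    have h2 := Chainaux.abs_dcoef_le f (p := pm lam ω) (fun i =>
      Chainaux.abs_pm_le_one (abs_le.2 ⟨hlam.1.le, hlam.2.le⟩) hω i) {(0, y)}
    calc 1 / 2 * |ω ⟨0, hKp⟩ y| * |dcoef f (pm lam ω) {(0, y)}| ≤ 1 / 2 * 1 * ∑ z, |f z| := by
          gcongr
      _ = 1 / 2 * ∑ z, |f z| := by ring
  have hG : ∀ lam ∈ Set.Icc (0 : ℝ) 1,
      HasDerivWithinAt (fun lam => ∫ ω, dcoef f (pm lam ω) ∅ ∂(gam Kp (2 * j)))
        (∫ ω, F' lam ω ∂(gam Kp (2 * j))) (Set.Icc 0 1) lam := by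
    intro lam hlam
    refine HasDerivAt.hasDerivWithinAt ?_
    refine (hasDerivAt_integral_of_dominated_loc_of_deriv_le (s := Set.Ioo (-2 : ℝ) 2)
      (F := fun lam ω => dcoef f (pm lam ω) ∅) (F' := F') (bound := fun _ => C)
      ?_ ?_ ?_ ?_ hbound ?_ ?_).2
    · exact Ioo_mem_nhds (by linarith [hlam.1]) (by linarith [hlam.2])
    · exact Filter.Eventually.of_forall fun lam => (integrable_gam _
        (continuous_dcoef_pm f lam _)).aestronglyMeasurable
    · exact integrable_gam _ (continuous_dcoef_pm f lam _)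
    · exact (integrable_gam _ (hF'c lam)).aestronglyMeasurable
    · exact integrable_const _
    · exact Filter.Eventually.of_forall fun ω lam _ => hderiv ω lam
  have h := Convex.norm_image_sub_le_of_norm_hasDerivWithin_le (x := (0 : ℝ)) (y := 1) hG
    (fun lam hlam => (Real.norm_eq_abs _).le.trans (chain_bound hKp f B hB hlam.1 hlam.2))
    (convex_Icc 0 1) (Set.left_mem_Icc.2 zero_le_one) (Set.right_mem_Icc.2 zero_le_one)
  rw [sub_zero, norm_one, mul_one, Real.norm_eq_abs] at h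
  exact h

end Crest.Agent.R350
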