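import Crest.Agent.R350.FDef

/-! # Row 350: auxiliary lemmas for ComposeA (resampling, markers bound) -/

set_option autoImplicit false

namespace Crest.Agent.R350
namespace ComposeAAux

section resample
variable {C U : Type} [Fintype C] [DecidableEq C] [Fintype U]

theorem prod_update (w : U → ℝ) (u : C → U) (c : C) (v : U) :
    (∏ c', w (Function.update u c v c')) * w (u c) = (∏ c', w (u c')) * w v := by
  rw [← Finset.mul_prod_erase Finset.univ (fun c' => w (Function.update u c v c'))
    (Finset.mem_univ c), ← Finset.mul_prod_erase Finset.univ (fun c' => w (u c'))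
    (Finset.mem_univ c)]
  have h : ∏ x ∈ Finset.univ.erase c, w (Function.update u c v x) =
      ∏ x ∈ Finset.univ.erase c, w (u x) := by
    refine Finset.prod_congr rfl fun x hx => ?_
    rw [Function.update_of_ne (Finset.ne_of_mem_erase hx)]
  rw [h, Function.update_self]
  ring

/-- resampling one coordinate of a product measure -/
theorem resample_gen (w : U → ℝ) (hw : ∑ v, w v = 1) (c : C) (g : (C → U) → ℝ) :
    ∑ u : C → U, (∏ c', w (u c')) * g u =
      ∑ u : C → U, (∏ c', w (u c')) * ∑ v, w v * g (Function.update u c v) := by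
  have inv : Function.Involutive (fun p : (C → U) × U => (Function.update p.1 c p.2, p.1 c)) := by
    rintro ⟨u, v⟩
    simp
  have h1 := Equiv.sum_comp (Function.Involutive.toPerm _ inv)
    (fun p : (C → U) × U => (∏ c', w (p.1 c')) * w p.2 * g p.1)
  have h2 : ∀ p : (C → U) × U, Function.Involutive.toPerm _ inv p =
    (Function.update p.1 c p.2, p.1 c) := fun p => rfl
  simp only [h2] at h1
  rw [Fintype.sum_prod_type, Fintype.sum_prod_type] at h1
  simp only [prod_update] at h1
  have e1 : ∀ u : C → U, ∑ v, (∏ c', w (u c')) * w v * g u = (∏ c', w (u c')) * g u := by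
    intro u
    rw [← Finset.sum_mul, ← Finset.mul_sum, hw, mul_one]
  simp only [e1] at h1
  rw [← h1]
  refine Finset.sum_congr rfl fun u _ => ?_
  rw [Finset.mul_sum]
  exact Finset.sum_congr rfl fun v _ => by ring

theorem sum_prod_gen (w : U → ℝ) (hw : ∑ v, w v = 1) :
    ∑ u : C → U, (∏ c', w (u c')) = 1 := by
  rw [← Fintype.prod_sum (fun (_ : C) v => w v)]
  simp [hw]

end resample

section count
variable {I P Ω : Type} [DecidableEq I] [DecidableEq P] [Fintype P]

/-- marker positions read -/
def mset (m : P → I) (s : Finset I) : Finset P := Finset.univ.filter (fun q => m q ∈ s)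

theorem path_node (x : I → Bool) (i : I) (t₀ t₁ : RTree I Ω) :
    (RTree.node i t₀ t₁).path x = insert i (if x i then t₁.path x else t₀.path x) := rfl

theorem mem_mset (m : P → I) (s : Finset I) (q : P) : q ∈ mset m s ↔ m q ∈ s := by
  simp [mset]

theorem mset_insert_ne (m : P → I) (s : Finset I) (i : I) (h : ∀ q, m q ≠ i) :
    mset m (insert i s) = mset m s := by
  ext q
  simp [mem_mset, h q]

theorem mset_insert_eq (m : P → I) (hm : Function.Injective m) (s : Finset I) (q : P) :
    mset m (insert (m q) s) = insert q (mset m s) := by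
  ext q'
  simp [mem_mset, hm.eq_iff]

/-- the set of bad positions -/
def bad (m : P → I) (xp : P → I → Bool) (t0 : ℕ) (t : RTree I Ω) (S : Finset P) : Finset P :=
  Finset.univ.filter (fun p => p ∉ S ∧ m p ∈ t.path (xp p) ∧
    (S ∪ mset m (t.path (xp p))).card ≤ t0)

theorem count_aux (m : P → I) (hm : Function.Injective m) (xs : I → Bool) (xp : P → I → Bool)
    (hxp : ∀ p i, i ≠ m p → xp p i = xs i) (t0 : ℕ) (t : RTree I Ω) :
    ∀ S : Finset P, (bad m xp t0 t S).card ≤ t0 - S.card := by
  induction t with
  | leaf ω =>
    intro S
    have : bad m xp t0 (RTree.leaf ω : RTree I Ω) S = ∅ := by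
      ext p
      simp [bad, RTree.path]
    rw [this]
    simp
  | node i t₀ t₁ ih₀ ih₁ =>
    -- the child taken on `xs`
    obtain ⟨t', ht', ih'⟩ : ∃ t' : RTree I Ω,
        (∀ x : I → Bool, x i = xs i → (RTree.node i t₀ t₁).path x = insert i (t'.path x)) ∧
        ∀ S : Finset P, (bad m xp t0 t' S).card ≤ t0 - S.card := by
      by_cases h : xs i = true
      · refine ⟨t₁, fun x hx => ?_, ih₁⟩
        rw [path_node, hx, h]; simp
      · refine ⟨t₀, fun x hx => ?_, ih₀⟩
        rw [path_node, hx]; simp [h]
    intro S
    by_cases hi : ∃ q, m q = i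
    · obtain ⟨q, rfl⟩ := hi
      have hne : ∀ p, p ≠ q → (RTree.node (m q) t₀ t₁).path (xp p) =
          insert (m q) (t'.path (xp p)) := by
        intro p hp
        exact ht' _ (hxp p (m q) fun h => hp (hm h).symm)
      by_cases hq : q ∈ S
      · -- already seen
        refine le_trans (Finset.card_le_card ?_) (ih' S)
        intro p hp
        simp only [bad, Finset.mem_filter, Finset.mem_univ, true_and] at hp ⊢
        obtain ⟨h1, h2, h3⟩ := hp
        have hpq : p ≠ q := fun h => h1 (h ▸ hq)
        rw [hne p hpq] at h2 h3
        refine ⟨h1, ?_, ?_⟩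
        · rw [Finset.mem_insert] at h2
          rcases h2 with h2 | h2
          · exact absurd (hm h2) hpq
          · exact h2
        · refine le_trans (Finset.card_le_card ?_) h3
          rw [mset_insert_eq m hm]
          exact Finset.union_subset_union_right (Finset.subset_insert _ _)
      · -- new position
        by_cases hc : S.card + 1 ≤ t0
        · have hsub : bad m xp t0 (RTree.node (m q) t₀ t₁) S ⊆
              insert q (bad m xp t0 t' (insert q S)) := by
            intro p hp
            simp only [bad, Finset.mem_filter, Finset.mem_univ, true_and, Finset.mem_insert] at hp ⊢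
            obtain ⟨h1, h2, h3⟩ := hp
            by_cases hpq : p = q
            · exact Or.inl hpq
            · right
              rw [hne p hpq] at h2 h3
              refine ⟨?_, ?_, ?_⟩
              · rintro (h | h)
                · exact hpq h
                · exact h1 h
              · rw [Finset.mem_insert] at h2
                rcases h2 with h2 | h2
                · exact absurd (hm h2) hpq
                · exact h2
              · rw [mset_insert_eq m hm] at h3
                rw [Finset.insert_union, ← Finset.union_insert]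
                exact h3
          refine (Finset.card_le_card hsub).trans ((Finset.card_insert_le _ _).trans ?_)
          have := ih' (insert q S)
          rw [Finset.card_insert_of_notMem hq] at this
          omega
        · have hempty : bad m xp t0 (RTree.node (m q) t₀ t₁) S = ∅ := by
            rw [Finset.eq_empty_iff_forall_notMem]
            intro p hp
            simp only [bad, Finset.mem_filter, Finset.mem_univ, true_and] at hp
            obtain ⟨h1, h2, h3⟩ := hp
            apply hc
            refine le_trans ?_ h3
            rw [← Finset.card_insert_of_notMem hq]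
            refine Finset.card_le_card ?_
            intro y hy
            rw [Finset.mem_insert] at hy
            rw [Finset.mem_union]
            rcases hy with hy | hy
            · right
              rw [mem_mset, hy, path_node]
              exact Finset.mem_insert_self _ _
            · exact Or.inl hy
          rw [hempty]
          simp
    · -- not a marker of this column
      have hi' : ∀ q, m q ≠ i := fun q h => hi ⟨q, h⟩
      have hall : ∀ p, (RTree.node i t₀ t₁).path (xp p) = insert i (t'.path (xp p)) :=
        fun p => ht' _ (hxp p i (hi' p).symm)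
      refine le_trans (Finset.card_le_card ?_) (ih' S)
      intro p hp
      simp only [bad, Finset.mem_filter, Finset.mem_univ, true_and] at hp ⊢
      obtain ⟨h1, h2, h3⟩ := hp
      rw [hall p] at h2 h3
      refine ⟨h1, ?_, ?_⟩
      · rw [Finset.mem_insert] at h2
        rcases h2 with h2 | h2
        · exact absurd h2 (hi' p)
        · exact h2
      · rw [mset_insert_ne m _ i hi'] at h3
        exact h3

end count

section split
variable {C P A Y : Type} [Fintype C] [DecidableEq C] [Fintype P] [Fintype A] [Fintype Y]

/-- triples of functions as functions to triples -/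
def trip (C P A Y : Type) : (C → P × A × Y) ≃ (C → P) × (C → A) × (C → Y) where
  toFun u := (fun c => (u c).1, fun c => (u c).2.1, fun c => (u c).2.2)
  invFun v c := (v.1 c, v.2.1 c, v.2.2 c)
  left_inv _ := rfl
  right_inv _ := rfl

theorem sum_split (F : (C → P) → (C → A) → (C → Y) → ℝ) :
    ∑ z, ∑ r, ∑ y, F z r y =
      ∑ u : C → P × A × Y, F (fun c => (u c).1) (fun c => (u c).2.1) (fun c => (u c).2.2) := by
  have h := Equiv.sum_comp (trip C P A Y) (fun v => F v.1 v.2.1 v.2.2)
  rw [Fintype.sum_prod_type] at h
  simp only [Fintype.sum_prod_type] at h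
  exact h.symm

end split

section main
variable {C P D A B : Type} [Fintype C] [DecidableEq C] [Nonempty C] [Fintype P] [DecidableEq P]
  [Nonempty P] [Fintype D] [DecidableEq D] [Fintype A] [DecidableEq A] [Nonempty A] [Fintype B]
  [DecidableEq B]

/-- one column weight -/
noncomputable def ww (μ : A → (D → Bool) → ℝ) (v : P × A × (D → Bool)) : ℝ :=
  1 / (Fintype.card P : ℝ) * (1 / (Fintype.card A : ℝ)) * μ v.2.1 v.2.2

theorem sum_ww_aux (μ : A → (D → Bool) → ℝ) (h1 : ∀ r, ∑ y, μ r y = 1) :
    ∑ v : P × A × (D → Bool), ww μ v = 1 := by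
  have hP : (Fintype.card P : ℝ) ≠ 0 := by
    exact_mod_cast (Fintype.card_pos (α := P)).ne'
  have hA : (Fintype.card A : ℝ) ≠ 0 := by
    exact_mod_cast (Fintype.card_pos (α := A)).ne'
  simp only [Fintype.sum_prod_type, ww, ← Finset.mul_sum, h1]
  simp only [Finset.sum_const, Finset.card_univ, nsmul_eq_mul, mul_one]
  field_simp

theorem resample' (μ : A → (D → Bool) → ℝ) (h1 : ∀ r, ∑ y, μ r y = 1) (c : C)
    (g : (C → P) → (C → A) → (C → D → Bool) → ℝ) :
    ∑ z, ∑ r, ∑ y, (∏ c, ww μ (z c, r c, y c)) * g z r y
      = ∑ z, ∑ r, ∑ y, (∏ c, ww μ (z c, r c, y c)) * ∑ z' : P, ∑ r' : A, ∑ y' : D → Bool,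
          ww μ (z', r', y') *
            g (Function.update z c z') (Function.update r c r') (Function.update y c y') := by
  rw [sum_split, sum_split]
  have h := resample_gen (ww μ : P × A × (D → Bool) → ℝ) (sum_ww_aux μ h1) c
    (fun u => g (fun c => (u c).1) (fun c => (u c).2.1) (fun c => (u c).2.2))
  rw [h]
  refine Finset.sum_congr rfl fun u _ => ?_
  congr 1
  simp only [Fintype.sum_prod_type]
  refine Finset.sum_congr rfl fun z' _ => Finset.sum_congr rfl fun r' _ =>
    Finset.sum_congr rfl fun y' _ => ?_
  congr 2
  · funext c'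
    by_cases hc : c' = c
    · subst hc; simp
    · simp [hc]
  · funext c'
    by_cases hc : c' = c
    · subst hc; simp
    · simp [hc]
  · funext c'
    by_cases hc : c' = c
    · subst hc; simp
    · simp [hc]

theorem sum_cw' (μ : A → (D → Bool) → ℝ) (h1 : ∀ r, ∑ y, μ r y = 1) :
    ∑ z : C → P, ∑ r : C → A, ∑ y : C → D → Bool, (∏ c, ww μ (z c, r c, y c)) = 1 := by
  rw [sum_split]
  exact sum_prod_gen _ (sum_ww_aux μ h1)

/-- number of columns with many markers read -/
theorem many_markers (t : RTree (GIdx C P D A B) Bool) (R : ℕ) (hR : t.depth ≤ R)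
    (t0 : ℕ) (ht0 : 1 ≤ t0) (x : GIdx C P D A B → Bool) :
    ((Finset.univ.filter (fun c : C =>
      t0 < (mset (fun p : P => (Sum.inl (c, p) : GIdx C P D A B)) (t.path x)).card)).card : ℝ)
      ≤ R / t0 := by
  have ht0' : (0 : ℝ) < t0 := by exact_mod_cast ht0
  rw [le_div_iff₀ ht0']
  have h1 : ∑ c : C, (mset (fun p : P => (Sum.inl (c, p) : GIdx C P D A B)) (t.path x)).card
      ≤ R := by
    refine le_trans ?_ ((t.card_path_le x).trans hR)
    have hinj : ((Finset.univ : Finset C).sigma
        (fun c => mset (fun p : P => (Sum.inl (c, p) : GIdx C P D A B)) (t.path x))).card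
        ≤ (t.path x).card := by
      refine Finset.card_le_card_of_injOn (fun s => Sum.inl (s.1, s.2)) ?_ ?_
      · intro s hs
        rw [Finset.mem_coe, Finset.mem_sigma, mem_mset] at hs
        exact hs.2
      · intro s _ s' _ h
        have h' := Sum.inl_injective h
        rw [Prod.mk.injEq] at h'
        exact Sigma.ext h'.1 (heq_of_eq h'.2)
    rwa [Finset.card_sigma] at hinj
  have h2 : (Finset.univ.filter (fun c : C =>
      t0 < (mset (fun p : P => (Sum.inl (c, p) : GIdx C P D A B)) (t.path x)).card)).card * t0
      ≤ ∑ c : C, (mset (fun p : P => (Sum.inl (c, p) : GIdx C P D A B)) (t.path x)).card := by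
    rw [Finset.card_eq_sum_ones, Finset.sum_mul]
    calc _ ≤ ∑ c ∈ Finset.univ.filter (fun c : C =>
      t0 < (mset (fun p : P => (Sum.inl (c, p) : GIdx C P D A B)) (t.path x)).card),
        (mset (fun p : P => (Sum.inl (c, p) : GIdx C P D A B)) (t.path x)).card := by
          refine Finset.sum_le_sum fun c hc => ?_
          rw [Finset.mem_filter] at hc
          omega
      _ ≤ _ := Finset.sum_le_sum_of_subset (Finset.filter_subset _ _)
  exact_mod_cast h2.trans h1

/-- the input with no zero marker in column `c` -/
def xbase (z : C → P) (y : C → D → Bool) (c : C) : GIdx C P D A B → Bool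
  | Sum.inl (c', p) => decide (c' = c ∨ p ≠ z c')
  | Sum.inr (Sum.inl (c', d)) => y c' d
  | Sum.inr (Sum.inr _) => false

theorem x0_update (z : C → P) (y : C → D → Bool) (c : C) (z' : P) (y' : D → Bool)
    (i : GIdx C P D A B) (hi : i ≠ Sum.inl (c, z')) :
    x0 (Function.update z c z') (Function.update y c y') i =
      xbase z (Function.update y c y') c i := by
  match i with
  | Sum.inl (c', p) =>
    simp only [x0, xbase]
    by_cases hc : c' = c
    · subst hc
      have : p ≠ z' := fun h => hi (by rw [h])
      simp [this]
    · simp [hc]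
  | Sum.inr (Sum.inl (c', d)) => rfl
  | Sum.inr (Sum.inr _) => rfl

theorem markers_bound' (μ : A → (D → Bool) → ℝ) (h0 : ∀ r y, 0 ≤ μ r y)
    (h1 : ∀ r, ∑ y, μ r y = 1) (t : RTree (GIdx C P D A B) Bool) (R : ℕ) (hR : t.depth ≤ R)
    (t0 : ℕ) (ht0 : 1 ≤ t0) :
    ∑ z : C → P, ∑ r : C → A, ∑ y : C → D → Bool, (∏ c, ww μ (z c, r c, y c)) *
      ((Finset.univ.filter (fun c : C => Sum.inl (c, z c) ∈ t.path (x0 z y))).card : ℝ)
      ≤ R / t0 + t0 * Fintype.card C / Fintype.card P := by
  have hP : (0 : ℝ) < (Fintype.card P : ℝ) := by
    exact_mod_cast (Fintype.card_pos (α := P))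
  have hA : (0 : ℝ) < (Fintype.card A : ℝ) := by
    exact_mod_cast (Fintype.card_pos (α := A))
  have hw0 : ∀ v : P × A × (D → Bool), 0 ≤ ww μ v := fun v =>
    mul_nonneg (by positivity) (h0 _ _)
  have hprod : ∀ (z : C → P) (r : C → A) (y : C → D → Bool),
      0 ≤ ∏ c, ww μ (z c, r c, y c) := fun z r y => Finset.prod_nonneg fun c _ => hw0 _
  -- split the count
  let N : C → (C → P) → (C → D → Bool) → ℕ := fun c z y =>
    (mset (fun p : P => (Sum.inl (c, p) : GIdx C P D A B)) (t.path (x0 z y))).card
  have hsplit : ∀ (z : C → P) (y : C → D → Bool),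
      ((Finset.univ.filter (fun c : C => Sum.inl (c, z c) ∈ t.path (x0 z y))).card : ℝ) ≤
        R / t0 + ∑ c : C, if (Sum.inl (c, z c) ∈ t.path (x0 z y) ∧ N c z y ≤ t0) then (1 : ℝ)
          else 0 := by
    intro z y
    have h2 := many_markers t R hR t0 ht0 (x0 z y)
    have h3 : (Finset.univ.filter (fun c : C => Sum.inl (c, z c) ∈ t.path (x0 z y))) ⊆
        (Finset.univ.filter (fun c : C => t0 < N c z y)) ∪
        (Finset.univ.filter (fun c : C => Sum.inl (c, z c) ∈ t.path (x0 z y) ∧ N c z y ≤ t0)) := by
      intro c hc
      simp only [Finset.mem_filter, Finset.mem_univ, true_and, Finset.mem_union] at hc ⊢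
      by_cases h : t0 < N c z y
      · exact Or.inl h
      · exact Or.inr ⟨hc, not_lt.1 h⟩
    have h4 : ((Finset.univ.filter
        (fun c : C => Sum.inl (c, z c) ∈ t.path (x0 z y))).card : ℝ) ≤
        ((Finset.univ.filter (fun c : C => t0 < N c z y)).card : ℝ) +
        ((Finset.univ.filter (fun c : C =>
          Sum.inl (c, z c) ∈ t.path (x0 z y) ∧ N c z y ≤ t0)).card : ℝ) := by
      exact_mod_cast (Finset.card_le_card h3).trans (Finset.card_union_le _ _)
    have h5 : ((Finset.univ.filter (fun c : C =>
          Sum.inl (c, z c) ∈ t.path (x0 z y) ∧ N c z y ≤ t0)).card : ℝ) =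
        ∑ c : C, if (Sum.inl (c, z c) ∈ t.path (x0 z y) ∧ N c z y ≤ t0) then (1 : ℝ) else 0 := by
      rw [Finset.card_filter]; push_cast; rfl
    rw [h5] at h4
    linarith
  -- one column
  have hcol : ∀ c : C, ∑ z : C → P, ∑ r : C → A, ∑ y : C → D → Bool,
      (∏ c, ww μ (z c, r c, y c)) *
      (if (Sum.inl (c, z c) ∈ t.path (x0 z y) ∧ N c z y ≤ t0) then (1 : ℝ) else 0)
        ≤ t0 / Fintype.card P := by
    intro c
    rw [resample' μ h1 c (fun z _ y =>
      (if (Sum.inl (c, z c) ∈ t.path (x0 z y) ∧ N c z y ≤ t0) then (1 : ℝ) else 0))]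
    have hin : ∀ (z : C → P) (r : C → A) (y : C → D → Bool),
        (∑ z' : P, ∑ r' : A, ∑ y' : D → Bool, ww μ (z', r', y') *
          (if (Sum.inl (c, Function.update z c z' c) ∈
              t.path (x0 (Function.update z c z') (Function.update y c y')) ∧
              N c (Function.update z c z') (Function.update y c y') ≤ t0) then (1 : ℝ) else 0))
          ≤ t0 / Fintype.card P := by
      intro z r y
      have hbad : ∀ y' : D → Bool, ∑ z' : P,
          (if (Sum.inl (c, Function.update z c z' c) ∈
              t.path (x0 (Function.update z c z') (Function.update y c y')) ∧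
              N c (Function.update z c z') (Function.update y c y') ≤ t0) then (1 : ℝ) else 0)
            ≤ t0 := by
        intro y'
        have hb := count_aux (fun p : P => (Sum.inl (c, p) : GIdx C P D A B))
          (fun p p' h => by simpa using h)
          (xbase z (Function.update y c y') c)
          (fun z' => x0 (Function.update z c z') (Function.update y c y'))
          (fun z' i hi => x0_update z y c z' y' i hi) t0 t ∅
        rw [Finset.card_empty, Nat.sub_zero] at hb
        have e : ∑ z' : P,
          (if (Sum.inl (c, Function.update z c z' c) ∈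
              t.path (x0 (Function.update z c z') (Function.update y c y')) ∧
              N c (Function.update z c z') (Function.update y c y') ≤ t0) then (1 : ℝ) else 0) =
          ((bad (fun p : P => (Sum.inl (c, p) : GIdx C P D A B))
            (fun z' => x0 (Function.update z c z') (Function.update y c y')) t0 t ∅).card : ℝ) := by
          unfold bad
          rw [Finset.card_filter]
          push_cast
          refine Finset.sum_congr rfl fun z' _ => ?_
          simp only [Function.update_self, Finset.notMem_empty, not_false_eq_true, true_and,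
            Finset.empty_union, N]
        rw [e]
        exact_mod_cast hb
      calc (∑ z' : P, ∑ r' : A, ∑ y' : D → Bool, ww μ (z', r', y') *
          (if (Sum.inl (c, Function.update z c z' c) ∈
              t.path (x0 (Function.update z c z') (Function.update y c y')) ∧
              N c (Function.update z c z') (Function.update y c y') ≤ t0) then (1 : ℝ) else 0))
          = ∑ r' : A, ∑ y' : D → Bool, 1 / (Fintype.card P : ℝ) * (1 / (Fintype.card A : ℝ)) *
              μ r' y' * ∑ z' : P,
          (if (Sum.inl (c, Function.update z c z' c) ∈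
              t.path (x0 (Function.update z c z') (Function.update y c y')) ∧
              N c (Function.update z c z') (Function.update y c y') ≤ t0) then (1 : ℝ) else 0) := by
            rw [Finset.sum_comm]
            refine Finset.sum_congr rfl fun r' _ => ?_
            rw [Finset.sum_comm]
            refine Finset.sum_congr rfl fun y' _ => ?_
            rw [Finset.mul_sum]
            rfl
        _ ≤ ∑ r' : A, ∑ y' : D → Bool, 1 / (Fintype.card P : ℝ) * (1 / (Fintype.card A : ℝ)) *
              μ r' y' * t0 := by
            refine Finset.sum_le_sum fun r' _ => Finset.sum_le_sum fun y' _ => ?_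
            exact mul_le_mul_of_nonneg_left (hbad y') (mul_nonneg (by positivity) (h0 _ _))
        _ = t0 / Fintype.card P := by
            simp only [← Finset.sum_mul, ← Finset.mul_sum, h1]
            simp only [Finset.sum_const, Finset.card_univ, nsmul_eq_mul, mul_one]
            field_simp
    calc _ ≤ ∑ z : C → P, ∑ r : C → A, ∑ y : C → D → Bool,
          (∏ c, ww μ (z c, r c, y c)) * (t0 / Fintype.card P) := by
          refine Finset.sum_le_sum fun z _ => Finset.sum_le_sum fun r _ =>
            Finset.sum_le_sum fun y _ => ?_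
          exact mul_le_mul_of_nonneg_left (hin z r y) (hprod z r y)
      _ = t0 / Fintype.card P := by
          simp only [← Finset.sum_mul, sum_cw' μ h1, one_mul]
  calc _ ≤ ∑ z : C → P, ∑ r : C → A, ∑ y : C → D → Bool, (∏ c, ww μ (z c, r c, y c)) *
        (R / t0 + ∑ c : C, if (Sum.inl (c, z c) ∈ t.path (x0 z y) ∧ N c z y ≤ t0) then (1 : ℝ)
          else 0) := by
        refine Finset.sum_le_sum fun z _ => Finset.sum_le_sum fun r _ =>
            Finset.sum_le_sum fun y _ => ?_
        exact mul_le_mul_of_nonneg_left (hsplit z y) (hprod z r y)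
    _ = R / t0 + ∑ c : C, ∑ z : C → P, ∑ r : C → A, ∑ y : C → D → Bool,
      (∏ c, ww μ (z c, r c, y c)) *
      (if (Sum.inl (c, z c) ∈ t.path (x0 z y) ∧ N c z y ≤ t0) then (1 : ℝ) else 0) := by
        simp only [mul_add, Finset.sum_add_distrib, ← Finset.sum_mul, sum_cw' μ h1, one_mul]
        congr 1
        symm
        rw [Finset.sum_comm]
        refine Finset.sum_congr rfl fun z _ => ?_
        rw [Finset.sum_comm]
        refine Finset.sum_congr rfl fun r _ => ?_
        rw [Finset.sum_comm]
        refine Finset.sum_congr rfl fun y _ => ?_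
        rw [Finset.mul_sum]
    _ ≤ R / t0 + ∑ c : C, (t0 / Fintype.card P : ℝ) := by
        gcongr with c _
        exact hcol c
    _ = R / t0 + t0 * Fintype.card C / Fintype.card P := by
        rw [Finset.sum_const, Finset.card_univ, nsmul_eq_mul]
        ring

end main

end ComposeAAux
end Crest.Agent.R350
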