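import Crest.Agent.R350.ComposeB
import Crest.Agent.R350.ComposeAAux

/-!
# Row 350, piece Compose: the composition lower bound

Setting: columns `C`, marker positions `P`, data bits `D`, addresses `A`, cell bits `B`; input `x0 z y` / `x1 z y b r w` (file FDef).
`cw z r y = ∏_c (1/|P|) (1/|A|) μ (r c) (y c)` is the weight of the hard distribution (`z c` uniform, `r c` uniform,
`y c ~ μ (r c)`), the `C` columns independent; `b : C` uniform and independent.

PIECES.
(a) `resample`: `∑ cw z r y g z r y = ∑ cw z r y (∑_{z',r',y'} (1/|P|)(1/|A|) μ r' y' g (update z c z') (update r c r') (update y c y'))`.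
(b) `markers_bound`: `∑ cw * #{c : (c, z c) is read by t on x0 z y} ≤ R / t0 + t0 |C| / |P|`.
   For fixed `c` let `t' = truncM c t0 t` (stop when the `(t0+1)`-st marker of column `c` would be read).  If `t` reads at most `t0` markers of
   column `c` on `x0 z y` then the two paths are equal; the number of `c` with more than `t0` markers read is `≤ R / t0`.  `t'` reads `(c, z c)` on
   `x0 z y` iff it reads it on the input where this bit is set to `true` (`path_disjoint_congr`), which does not depend on `z c`; so at most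
   `t0` of the `|P|` values of `z c` are hit (use `resample`).
(c) `cells_bound`: `∑ cw * #{c : some cell bit of address r c is read by t on x0 z y} ≤ R / T0 + |C| (R / |A| + ε)`.
   For fixed `c`: at most `R / T0` columns have more than `T0` data bits read.  Otherwise use the tree truncated before the
   `(T0+1)`-st data bit of column `c`; fixing `z` and `y c'`, `c' ≠ c`, it becomes a tree of depth `≤ T0` in the bits `y c` whose leaves are
   labelled by the set of addresses of the cells read (at most `R` of them); for every `r` the event `r ∈ label` is decided by a tree of depth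
   `≤ T0`, so `P_{μ_r}(r ∈ label) ≤ ε + P_ν(r ∈ label)`, and the average over `r` of the last term is `≤ R / |A|`.
   The cell bits are all `false` in `x0`.
(d) `one_tree`: for a tree `t` of depth `≤ R` : `E_{x1} t - E_{x0} t ≤ P(t on x0 reads (b, z b) or a cell of address r b)`
   `= (1/|C|) (markers + cells)`.
(e) `composition`: average over the trees of the algorithm: `E_{x1} [alg answers true] ≥ 2/3 (1 - δ)`, `E_{x0} ≤ 1/3`.
-/

set_option autoImplicit false

namespace Crest.Agent.R350

section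
variable {C P D A B : Type} [Fintype C] [DecidableEq C] [Nonempty C] [Fintype P] [DecidableEq P]
  [Nonempty P] [Fintype D] [DecidableEq D] [Fintype A] [DecidableEq A] [Nonempty A] [Fintype B]
  [DecidableEq B]

/-- weight of the hard distribution -/
noncomputable def cw (μ : A → (D → Bool) → ℝ) (z : C → P) (r : C → A) (y : C → D → Bool) : ℝ :=
  ∏ c, (1 / (Fintype.card P : ℝ) * (1 / (Fintype.card A : ℝ)) * μ (r c) (y c))

theorem cw_nonneg (μ : A → (D → Bool) → ℝ) (h0 : ∀ r y, 0 ≤ μ r y) (z : C → P) (r : C → A)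
    (y : C → D → Bool) : 0 ≤ cw μ z r y :=
  Finset.prod_nonneg fun _ _ => mul_nonneg (by positivity) (h0 _ _)

theorem resample (μ : A → (D → Bool) → ℝ) (h1 : ∀ r, ∑ y, μ r y = 1) (c : C)
    (g : (C → P) → (C → A) → (C → D → Bool) → ℝ) :
    ∑ z, ∑ r, ∑ y, cw μ z r y * g z r y
      = ∑ z, ∑ r, ∑ y, cw μ z r y * ∑ z' : P, ∑ r' : A, ∑ y' : D → Bool,
          1 / (Fintype.card P : ℝ) * (1 / (Fintype.card A : ℝ)) * μ r' y' *
            g (Function.update z c z') (Function.update r c r') (Function.update y c y') :=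
  ComposeAAux.resample' μ h1 c g

theorem sum_cw (μ : A → (D → Bool) → ℝ) (h1 : ∀ r, ∑ y, μ r y = 1) :
    ∑ z : C → P, ∑ r : C → A, ∑ y : C → D → Bool, cw μ z r y = 1 :=
  ComposeAAux.sum_cw' μ h1

theorem markers_bound (μ : A → (D → Bool) → ℝ) (h0 : ∀ r y, 0 ≤ μ r y)
    (h1 : ∀ r, ∑ y, μ r y = 1) (t : RTree (GIdx C P D A B) Bool) (R : ℕ) (hR : t.depth ≤ R)
    (t0 : ℕ) (ht0 : 1 ≤ t0) :
    ∑ z, ∑ r, ∑ y, cw μ z r y *
      ((Finset.univ.filter (fun c : C => Sum.inl (c, z c) ∈ t.path (x0 z y))).card : ℝ)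
      ≤ R / t0 + t0 * Fintype.card C / Fintype.card P :=
  ComposeAAux.markers_bound' μ h0 h1 t R hR t0 ht0

theorem cells_bound (μ : A → (D → Bool) → ℝ) (ν : (D → Bool) → ℝ) (h0 : ∀ r y, 0 ≤ μ r y)
    (h1 : ∀ r, ∑ y, μ r y = 1) (hν0 : ∀ y, 0 ≤ ν y) (hν1 : ∑ y, ν y = 1) (T0 : ℕ) (hT0 : 1 ≤ T0)
    (ε : ℝ) (hide : ∀ (t : RTree D Bool), t.depth ≤ T0 → ∀ r,
      ∑ y, μ r y * (if t.eval y then 1 else 0) ≤ ∑ y, ν y * (if t.eval y then 1 else 0) + ε)
    (t : RTree (GIdx C P D A B) Bool) (R : ℕ) (hR : t.depth ≤ R) :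
    ∑ z : C → P, ∑ r : C → A, ∑ y, cw μ z r y *
      ((Finset.univ.filter (fun c : C => ∃ q : B,
        Sum.inr (Sum.inr (r c, q)) ∈ t.path (x0 z y))).card : ℝ)
      ≤ R / T0 + Fintype.card C * (R / Fintype.card A + ε) := by
  classical
  have hpt : ∀ (z : C → P) (r : C → A) (y : C → D → Bool),
      ((Finset.univ.filter (fun c : C => ∃ q : B,
        Sum.inr (Sum.inr (r c, q)) ∈ t.path (x0 z y))).card : ℝ)
      ≤ R / T0 + ∑ c : C, ComposeBAux.ev t T0 c z (r c) y := by
    intro z r y
    have h2 := ComposeBAux.many_bound (x0 z y) t R hR T0 hT0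
    have h3 : (Finset.univ.filter (fun c : C => ∃ q : B,
        Sum.inr (Sum.inr (r c, q)) ∈ t.path (x0 z y))) ⊆
        Finset.univ.filter (fun c : C => T0 < ComposeBAux.cnt (x0 z y) c t) ∪
        Finset.univ.filter (fun c : C => (∃ q : B,
          Sum.inr (Sum.inr (r c, q)) ∈ t.path (x0 z y)) ∧ ComposeBAux.cnt (x0 z y) c t ≤ T0) := by
      intro c hc
      rw [Finset.mem_filter] at hc
      rw [Finset.mem_union, Finset.mem_filter, Finset.mem_filter]
      rcases lt_or_ge T0 (ComposeBAux.cnt (x0 z y) c t) with h | h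
      · exact Or.inl ⟨Finset.mem_univ _, h⟩
      · exact Or.inr ⟨Finset.mem_univ _, hc.2, h⟩
    have h4 := (Finset.card_le_card h3).trans (Finset.card_union_le _ _)
    have h5 : ((Finset.univ.filter (fun c : C => (∃ q : B,
          Sum.inr (Sum.inr (r c, q)) ∈ t.path (x0 z y)) ∧
          ComposeBAux.cnt (x0 z y) c t ≤ T0)).card : ℝ) =
        ∑ c : C, ComposeBAux.ev t T0 c z (r c) y := by
      unfold ComposeBAux.ev
      rw [Finset.sum_boole]
    have h6 : ((Finset.univ.filter (fun c : C => ∃ q : B,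
        Sum.inr (Sum.inr (r c, q)) ∈ t.path (x0 z y))).card : ℝ) ≤
        ((Finset.univ.filter (fun c : C => T0 < ComposeBAux.cnt (x0 z y) c t)).card : ℝ) +
        ((Finset.univ.filter (fun c : C => (∃ q : B,
          Sum.inr (Sum.inr (r c, q)) ∈ t.path (x0 z y)) ∧
          ComposeBAux.cnt (x0 z y) c t ≤ T0)).card : ℝ) := by
      exact_mod_cast h4
    rw [← h5]
    refine h6.trans (add_le_add_left ?_ _)
    convert h2 using 2
  have hc : ∀ c : C, ∑ z : C → P, ∑ r : C → A, ∑ y, cw μ z r y *
      ComposeBAux.ev t T0 c z (r c) y ≤ R / Fintype.card A + ε := by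
    intro c
    rw [resample μ h1 c (fun z r y => ComposeBAux.ev t T0 c z (r c) y)]
    simp only [Function.update_self]
    calc _ ≤ ∑ z : C → P, ∑ r : C → A, ∑ y, cw μ z r y * (R / Fintype.card A + ε) := by
          refine Finset.sum_le_sum fun z _ => Finset.sum_le_sum fun r _ =>
            Finset.sum_le_sum fun y _ => ?_
          exact mul_le_mul_of_nonneg_left
            (ComposeBAux.inner_bound μ ν h0 hν0 hν1 T0 ε hide t R hR c z y) (cw_nonneg μ h0 z r y)
      _ = R / Fintype.card A + ε := by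
          simp only [← Finset.sum_mul]
          rw [sum_cw μ h1, one_mul]
  calc _ ≤ ∑ z : C → P, ∑ r : C → A, ∑ y, cw μ z r y *
        (R / T0 + ∑ c : C, ComposeBAux.ev t T0 c z (r c) y) := by
        refine Finset.sum_le_sum fun z _ => Finset.sum_le_sum fun r _ =>
            Finset.sum_le_sum fun y _ => ?_
        exact mul_le_mul_of_nonneg_left (hpt z r y) (cw_nonneg μ h0 z r y)
    _ = R / T0 + ∑ c : C, ∑ z : C → P, ∑ r : C → A, ∑ y, cw μ z r y *
        ComposeBAux.ev t T0 c z (r c) y := by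
        have e : ∑ z : C → P, ∑ r : C → A, ∑ y, ∑ c : C, cw μ z r y *
              ComposeBAux.ev t T0 c z (r c) y =
            ∑ c : C, ∑ z : C → P, ∑ r : C → A, ∑ y, cw μ z r y *
              ComposeBAux.ev t T0 c z (r c) y := by
          calc _ = ∑ z : C → P, ∑ r : C → A, ∑ c : C, ∑ y, cw μ z r y *
                ComposeBAux.ev t T0 c z (r c) y :=
                Finset.sum_congr rfl fun z _ => Finset.sum_congr rfl fun r _ => Finset.sum_comm
            _ = ∑ z : C → P, ∑ c : C, ∑ r : C → A, ∑ y, cw μ z r y *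
                ComposeBAux.ev t T0 c z (r c) y :=
                Finset.sum_congr rfl fun z _ => Finset.sum_comm
            _ = _ := Finset.sum_comm
        simp only [mul_add, Finset.sum_add_distrib, ← Finset.sum_mul, sum_cw μ h1, one_mul]
        rw [← e]
        simp only [Finset.mul_sum]
    _ ≤ R / T0 + ∑ _c : C, (R / Fintype.card A + ε) := by
        gcongr with c _
        exact hc c
    _ = R / T0 + Fintype.card C * (R / Fintype.card A + ε) := by
        rw [Finset.sum_const, Finset.card_univ, nsmul_eq_mul]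

/-- expectation with respect to the hard distribution -/
noncomputable def ComposeCAux.Ex (μ : A → (D → Bool) → ℝ)
    (g : (C → P) → (C → A) → (C → D → Bool) → ℝ) : ℝ :=
  ∑ z, ∑ r, ∑ y, cw μ z r y * g z r y

theorem ComposeCAux.Ex_mono (μ : A → (D → Bool) → ℝ) (h0 : ∀ r y, 0 ≤ μ r y)
    {g g' : (C → P) → (C → A) → (C → D → Bool) → ℝ} (h : ∀ z r y, g z r y ≤ g' z r y) :
    ComposeCAux.Ex μ g ≤ ComposeCAux.Ex μ g' :=
  Finset.sum_le_sum fun z _ => Finset.sum_le_sum fun r _ => Finset.sum_le_sum fun y _ =>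
    mul_le_mul_of_nonneg_left (h z r y) (cw_nonneg μ h0 z r y)

theorem ComposeCAux.Ex_add (μ : A → (D → Bool) → ℝ)
    (g g' : (C → P) → (C → A) → (C → D → Bool) → ℝ) :
    ComposeCAux.Ex μ (fun z r y => g z r y + g' z r y) =
      ComposeCAux.Ex μ g + ComposeCAux.Ex μ g' := by
  simp only [ComposeCAux.Ex, mul_add, Finset.sum_add_distrib]

theorem ComposeCAux.Ex_mul (μ : A → (D → Bool) → ℝ) (a : ℝ)
    (g : (C → P) → (C → A) → (C → D → Bool) → ℝ) :
    ComposeCAux.Ex μ (fun z r y => a * g z r y) = a * ComposeCAux.Ex μ g := by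
  simp only [ComposeCAux.Ex, Finset.mul_sum]
  refine Finset.sum_congr rfl fun z _ => Finset.sum_congr rfl fun r _ =>
    Finset.sum_congr rfl fun y _ => by ring

theorem ComposeCAux.Ex_sum (μ : A → (D → Bool) → ℝ) {κ : Type} (S : Finset κ)
    (g : κ → (C → P) → (C → A) → (C → D → Bool) → ℝ) :
    ComposeCAux.Ex μ (fun z r y => ∑ k ∈ S, g k z r y) = ∑ k ∈ S, ComposeCAux.Ex μ (g k) := by
  classical
  induction S using Finset.induction_on with
  | empty => simp [ComposeCAux.Ex]
  | insert k S hk ih =>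
    simp only [Finset.sum_insert hk]
    rw [ComposeCAux.Ex_add μ (fun z r y => g k z r y) (fun z r y => ∑ k ∈ S, g k z r y), ih]

theorem ComposeCAux.Ex_const (μ : A → (D → Bool) → ℝ) (h1 : ∀ r, ∑ y, μ r y = 1) (a : ℝ) :
    ComposeCAux.Ex (C := C) (P := P) μ (fun _ _ _ => a) = a := by
  simp only [ComposeCAux.Ex, ← Finset.sum_mul]
  rw [sum_cw μ h1, one_mul]

/-- if the path on the blank input avoids the special bits, the tree does not see the difference -/
theorem ComposeCAux.eval_eq (z : C → P) (r : A) (y : C → D → Bool) (b : C) (w : B → Bool)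
    (t : RTree (GIdx C P D A B) Bool) (hm : Sum.inl (b, z b) ∉ t.path (x0 z y))
    (hc : ¬ ∃ q : B, Sum.inr (Sum.inr (r, q)) ∈ t.path (x0 z y)) :
    t.eval (x1 z y b r w) = t.eval (x0 z y) := by
  refine (RTree.path_congr t ?_).2
  intro i hi
  rcases i with ⟨c, p⟩ | ⟨c, d⟩ | ⟨a, q⟩
  · by_cases hcb : c = b
    · subst hcb
      by_cases hp : p = z c
      · subst hp; exact absurd hi hm
      · simp [x0, x1, hp]
    · simp [x0, x1, hcb]
  · rfl
  · by_cases ha : a = r
    · subst ha; exact absurd ⟨q, hi⟩ hc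
    · simp [x0, x1, ha]

theorem one_tree (μ : A → (D → Bool) → ℝ) (h0 : ∀ r y, 0 ≤ μ r y)
    (cell : C → (C → P) → (D → Bool) → B → Bool)
    (t : RTree (GIdx C P D A B) Bool) :
    ∑ z, ∑ r, ∑ y, cw μ z r y * ((1 / (Fintype.card C : ℝ)) *
        ∑ b : C, (if t.eval (x1 z y b (r b) (cell b z (y b))) then (1 : ℝ) else 0))
      ≤ ∑ z, ∑ r, ∑ y, cw μ z r y * (if t.eval (x0 z y) then (1 : ℝ) else 0)
        + 1 / (Fintype.card C : ℝ) * (∑ z, ∑ r, ∑ y, cw μ z r y *
            ((Finset.univ.filter (fun c : C => Sum.inl (c, z c) ∈ t.path (x0 z y))).card : ℝ))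
        + 1 / (Fintype.card C : ℝ) * (∑ z, ∑ r, ∑ y, cw μ z r y *
            ((Finset.univ.filter (fun c : C => ∃ q : B,
              Sum.inr (Sum.inr (r c, q)) ∈ t.path (x0 z y))).card : ℝ)) := by
  classical
  have hC : (0 : ℝ) < Fintype.card C := by exact_mod_cast Fintype.card_pos
  have hpt : ∀ (z : C → P) (r : C → A) (y : C → D → Bool),
      (1 / (Fintype.card C : ℝ)) *
        ∑ b : C, (if t.eval (x1 z y b (r b) (cell b z (y b))) then (1 : ℝ) else 0) ≤
      (if t.eval (x0 z y) then (1 : ℝ) else 0) + 1 / (Fintype.card C : ℝ) *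
            ((Finset.univ.filter (fun c : C => Sum.inl (c, z c) ∈ t.path (x0 z y))).card : ℝ) +
          1 / (Fintype.card C : ℝ) * ((Finset.univ.filter (fun c : C => ∃ q : B,
              Sum.inr (Sum.inr (r c, q)) ∈ t.path (x0 z y))).card : ℝ) := by
    intro z r y
    have hb : ∀ b : C, (if t.eval (x1 z y b (r b) (cell b z (y b))) then (1 : ℝ) else 0) ≤
        (if t.eval (x0 z y) then (1 : ℝ) else 0) +
          (if Sum.inl (b, z b) ∈ t.path (x0 z y) then (1 : ℝ) else 0) +
          (if ∃ q : B, Sum.inr (Sum.inr (r b, q)) ∈ t.path (x0 z y) then (1 : ℝ) else 0) := by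
      intro b
      by_cases hm : Sum.inl (b, z b) ∈ t.path (x0 z y)
      · rw [if_pos hm]
        split_ifs <;> norm_num
      · by_cases hc : ∃ q : B, Sum.inr (Sum.inr (r b, q)) ∈ t.path (x0 z y)
        · rw [if_pos hc]
          split_ifs <;> norm_num
        · rw [if_neg hm, if_neg hc, ComposeCAux.eval_eq z (r b) y b _ t hm hc]
          simp
    have h := Finset.sum_le_sum fun b (_ : b ∈ Finset.univ) => hb b
    have c1 : ∑ b : C, (if Sum.inl (b, z b) ∈ t.path (x0 z y) then (1 : ℝ) else 0) =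
        ((Finset.univ.filter (fun c : C => Sum.inl (c, z c) ∈ t.path (x0 z y))).card : ℝ) :=
      Finset.sum_boole _ _
    have c2 : ∑ b : C, (if ∃ q : B, Sum.inr (Sum.inr (r b, q)) ∈ t.path (x0 z y)
          then (1 : ℝ) else 0) =
        ((Finset.univ.filter (fun c : C => ∃ q : B,
              Sum.inr (Sum.inr (r c, q)) ∈ t.path (x0 z y))).card : ℝ) :=
      Finset.sum_boole _ _
    rw [Finset.sum_add_distrib, Finset.sum_add_distrib, Finset.sum_const, Finset.card_univ,
      nsmul_eq_mul, c1, c2] at h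
    refine (mul_le_mul_of_nonneg_left h (by positivity :
      (0 : ℝ) ≤ 1 / (Fintype.card C : ℝ))).trans (le_of_eq ?_)
    rw [mul_add, mul_add, ← mul_assoc, one_div_mul_cancel hC.ne', one_mul]
  have h := ComposeCAux.Ex_mono μ h0 hpt
  rw [ComposeCAux.Ex_add μ (fun z r y => (if t.eval (x0 z y) then (1 : ℝ) else 0) +
      1 / (Fintype.card C : ℝ) *
        ((Finset.univ.filter (fun c : C => Sum.inl (c, z c) ∈ t.path (x0 z y))).card : ℝ))
      (fun z r y => 1 / (Fintype.card C : ℝ) * ((Finset.univ.filter (fun c : C => ∃ q : B,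
              Sum.inr (Sum.inr (r c, q)) ∈ t.path (x0 z y))).card : ℝ)),
    ComposeCAux.Ex_add μ (fun z r y => (if t.eval (x0 z y) then (1 : ℝ) else 0))
      (fun z r y => 1 / (Fintype.card C : ℝ) *
        ((Finset.univ.filter (fun c : C => Sum.inl (c, z c) ∈ t.path (x0 z y))).card : ℝ)),
    ComposeCAux.Ex_mul μ (1 / (Fintype.card C : ℝ)) (fun z r y =>
        ((Finset.univ.filter (fun c : C => Sum.inl (c, z c) ∈ t.path (x0 z y))).card : ℝ)),
    ComposeCAux.Ex_mul μ (1 / (Fintype.card C : ℝ)) (fun z r y =>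
        ((Finset.univ.filter (fun c : C => ∃ q : B,
              Sum.inr (Sum.inr (r c, q)) ∈ t.path (x0 z y))).card : ℝ))] at h
  exact h

theorem composition (μ : A → (D → Bool) → ℝ) (ν : (D → Bool) → ℝ) (h0 : ∀ r y, 0 ≤ μ r y)
    (h1 : ∀ r, ∑ y, μ r y = 1) (hν0 : ∀ y, 0 ≤ ν y) (hν1 : ∑ y, ν y = 1) (T0 : ℕ) (hT0 : 1 ≤ T0)
    (ε : ℝ) (hide : ∀ (t : RTree D Bool), t.depth ≤ T0 → ∀ r,
      ∑ y, μ r y * (if t.eval y then 1 else 0) ≤ ∑ y, ν y * (if t.eval y then 1 else 0) + ε)
    (good : A → (D → Bool) → Prop) (δ : ℝ)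
    (hgood : ∀ r, 1 - δ ≤ ∑ y, (open Classical in if good r y then μ r y else 0))
    (cell : C → (C → P) → (D → Bool) → B → Bool)
    (F : (GIdx C P D A B → Bool) → Bool)
    (hF0 : ∀ z y, F (x0 z y) = false)
    (hF1 : ∀ z y b r, good r (y b) → F (x1 z y b r (cell b z (y b))) = true)
    (t0 : ℕ) (ht0 : 1 ≤ t0) (R : ℕ)
    (s : ℕ) (p : Fin s → ℝ) (T : Fin s → RTree (GIdx C P D A B) Bool)
    (hp0 : ∀ i, 0 ≤ p i) (hp1 : ∑ i, p i = 1) (hT : ∀ i, (T i).depth ≤ R)
    (hcorrect : ∀ x, 2 / 3 ≤ ∑ i, if (T i).eval x = F x then p i else 0) :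
    1 / 3 ≤ δ + R / (t0 * Fintype.card C) + t0 / Fintype.card P + R / (T0 * Fintype.card C)
      + R / Fintype.card A + ε := by
  classical
  have hC : (0 : ℝ) < Fintype.card C := by exact_mod_cast Fintype.card_pos
  have hP : (0 : ℝ) < Fintype.card P := by exact_mod_cast Fintype.card_pos
  have hA : (0 : ℝ) < Fintype.card A := by exact_mod_cast Fintype.card_pos
  have ht0' : (0 : ℝ) < t0 := by exact_mod_cast ht0
  have hT0' : (0 : ℝ) < T0 := by exact_mod_cast hT0
  have hδ : 0 ≤ δ := by
    have h := hgood (Classical.arbitrary A)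
    have h2 : ∑ y, (if good (Classical.arbitrary A) y then μ (Classical.arbitrary A) y else 0) ≤
        ∑ y, μ (Classical.arbitrary A) y := by
      refine Finset.sum_le_sum fun y _ => ?_
      split_ifs
      · exact le_rfl
      · exact h0 _ _
    rw [h1] at h2
    linarith
  -- acceptance probability
  let al : (GIdx C P D A B → Bool) → ℝ := fun x => ∑ i, p i * (if (T i).eval x then 1 else 0)
  have hal0 : ∀ x, F x = false → al x ≤ 1 / 3 := by
    intro x hx
    have h := hcorrect x
    have h2 : al x + ∑ i, (if (T i).eval x = F x then p i else 0) = 1 := by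
      rw [← hp1, ← Finset.sum_add_distrib]
      refine Finset.sum_congr rfl fun i _ => ?_
      rw [hx]
      cases (T i).eval x <;> simp
    linarith
  have hal1 : ∀ x, F x = true → 2 / 3 ≤ al x := by
    intro x hx
    have h := hcorrect x
    have h2 : al x = ∑ i, (if (T i).eval x = F x then p i else 0) := by
      refine Finset.sum_congr rfl fun i _ => ?_
      rw [hx]
      cases (T i).eval x <;> simp
    rw [h2]; exact h
  have halnn : ∀ x, 0 ≤ al x := by
    intro x
    refine Finset.sum_nonneg fun i _ => mul_nonneg (hp0 i) ?_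
    split_ifs <;> norm_num
  -- the two expectations
  have hE0 : ComposeCAux.Ex μ (fun (z : C → P) (_ : C → A) y => al (x0 z y)) ≤ 1 / 3 := by
    refine (ComposeCAux.Ex_mono μ h0 (g' := fun _ _ _ => 1 / 3) fun z r y => ?_).trans ?_
    · exact hal0 _ (hF0 z y)
    · rw [ComposeCAux.Ex_const μ h1]
  have hgd : ∀ b : C, 1 - δ ≤ ComposeCAux.Ex (C := C) (P := P) μ
      (fun _ r y => if good (r b) (y b) then 1 else 0) := by
    intro b
    unfold ComposeCAux.Ex
    rw [resample μ h1 b (fun _ r y => if good (r b) (y b) then 1 else 0)]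
    simp only [Function.update_self]
    have hin : 1 - δ ≤ ∑ _z' : P, ∑ r' : A, ∑ y' : D → Bool,
          1 / (Fintype.card P : ℝ) * (1 / (Fintype.card A : ℝ)) * μ r' y' *
            (if good r' y' then 1 else 0) := by
      have e1 : ∀ r' : A, ∑ y' : D → Bool,
          1 / (Fintype.card P : ℝ) * (1 / (Fintype.card A : ℝ)) * μ r' y' *
            (if good r' y' then 1 else 0) =
          1 / (Fintype.card P : ℝ) * (1 / (Fintype.card A : ℝ)) *
            ∑ y', (if good r' y' then μ r' y' else 0) := by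
        intro r'
        rw [Finset.mul_sum]
        refine Finset.sum_congr rfl fun y' _ => ?_
        split_ifs <;> ring
      have e3 : ∑ _z' : P, ∑ r' : A, ∑ y' : D → Bool,
          1 / (Fintype.card P : ℝ) * (1 / (Fintype.card A : ℝ)) * μ r' y' *
            (if good r' y' then 1 else 0) = (Fintype.card P : ℝ) * (1 / (Fintype.card P : ℝ) *
            (1 / (Fintype.card A : ℝ)) * ∑ r' : A, ∑ y', (if good r' y' then μ r' y' else 0)) := by
        rw [Finset.sum_const, Finset.card_univ, nsmul_eq_mul]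
        congr 1
        rw [Finset.mul_sum]
        exact Finset.sum_congr rfl fun r' _ => e1 r'
      rw [e3]
      have e2 : (Fintype.card A : ℝ) * (1 - δ) ≤
          ∑ r' : A, ∑ y', (if good r' y' then μ r' y' else 0) := by
        calc (Fintype.card A : ℝ) * (1 - δ) = ∑ _r' : A, (1 - δ) := by
              rw [Finset.sum_const, Finset.card_univ, nsmul_eq_mul]
          _ ≤ _ := Finset.sum_le_sum fun r' _ => by
              have := hgood r'
              exact this
      calc 1 - δ = (Fintype.card P : ℝ) * (1 / (Fintype.card P : ℝ) *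
            (1 / (Fintype.card A : ℝ)) * ((Fintype.card A : ℝ) * (1 - δ))) := by
            field_simp
        _ ≤ _ := by gcongr
    calc 1 - δ = ∑ z : C → P, ∑ r : C → A, ∑ y, cw μ z r y * (1 - δ) := by
          simp only [← Finset.sum_mul]
          rw [sum_cw μ h1, one_mul]
      _ ≤ _ := by
          refine Finset.sum_le_sum fun z _ => Finset.sum_le_sum fun r _ =>
            Finset.sum_le_sum fun y _ => mul_le_mul_of_nonneg_left hin (cw_nonneg μ h0 z r y)
  have hE1 : 2 / 3 * (1 - δ) ≤ ComposeCAux.Ex μ (fun (z : C → P) (r : C → A) y =>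
      1 / (Fintype.card C : ℝ) * ∑ b : C, al (x1 z y b (r b) (cell b z (y b)))) := by
    calc 2 / 3 * (1 - δ) = 1 / (Fintype.card C : ℝ) * ∑ _b : C, (2 / 3 * (1 - δ)) := by
          rw [Finset.sum_const, Finset.card_univ, nsmul_eq_mul]
          field_simp
      _ ≤ 1 / (Fintype.card C : ℝ) * ∑ b : C, ComposeCAux.Ex (C := C) (P := P) μ
            (fun _ r y => 2 / 3 * if good (r b) (y b) then 1 else 0) := by
          gcongr with b _
          rw [ComposeCAux.Ex_mul]
          gcongr
          exact hgd b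
      _ = ComposeCAux.Ex μ (fun (_ : C → P) (r : C → A) y => 1 / (Fintype.card C : ℝ) *
            ∑ b : C, (2 / 3 * if good (r b) (y b) then (1 : ℝ) else 0)) := by
          rw [ComposeCAux.Ex_mul, ComposeCAux.Ex_sum μ Finset.univ
            (fun b (_ : C → P) (r : C → A) y => (2 / 3 * if good (r b) (y b) then (1 : ℝ) else 0))]
      _ ≤ _ := by
          refine ComposeCAux.Ex_mono μ h0 fun z r y => ?_
          gcongr with b _
          split_ifs with hg
          · rw [mul_one]; exact hal1 _ (hF1 z y b (r b) hg)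
          · rw [mul_zero]; exact halnn _
  -- sum over the trees
  have hsum : ComposeCAux.Ex μ (fun (z : C → P) (r : C → A) y =>
      1 / (Fintype.card C : ℝ) * ∑ b : C, al (x1 z y b (r b) (cell b z (y b)))) ≤
      ComposeCAux.Ex μ (fun (z : C → P) (_ : C → A) y => al (x0 z y)) +
      1 / (Fintype.card C : ℝ) * (R / t0 + t0 * Fintype.card C / Fintype.card P) +
      1 / (Fintype.card C : ℝ) * (R / T0 + Fintype.card C * (R / Fintype.card A + ε)) := by
    have e1 : ComposeCAux.Ex μ (fun (z : C → P) (r : C → A) y =>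
        1 / (Fintype.card C : ℝ) * ∑ b : C, al (x1 z y b (r b) (cell b z (y b)))) =
        ∑ i, p i * ComposeCAux.Ex μ (fun (z : C → P) (r : C → A) y => 1 / (Fintype.card C : ℝ) *
          ∑ b : C, (if (T i).eval (x1 z y b (r b) (cell b z (y b))) then (1 : ℝ) else 0)) := by
      simp only [← ComposeCAux.Ex_mul]
      rw [← ComposeCAux.Ex_sum μ Finset.univ (fun i (z : C → P) (r : C → A) y =>
        p i * (1 / (Fintype.card C : ℝ) *
          ∑ b : C, (if (T i).eval (x1 z y b (r b) (cell b z (y b))) then (1 : ℝ) else 0)))]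
      congr 1
      funext z r y
      simp only [al, Finset.mul_sum]
      rw [Finset.sum_comm]
      refine Finset.sum_congr rfl fun i _ => Finset.sum_congr rfl fun b _ => by ring
    have e2 : ComposeCAux.Ex μ (fun (z : C → P) (_ : C → A) y => al (x0 z y)) =
        ∑ i, p i * ComposeCAux.Ex μ (fun (z : C → P) (_ : C → A) y =>
          (if (T i).eval (x0 z y) then (1 : ℝ) else 0)) := by
      simp only [← ComposeCAux.Ex_mul]
      rw [← ComposeCAux.Ex_sum μ Finset.univ (fun i (z : C → P) (_ : C → A) y =>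
        p i * (if (T i).eval (x0 z y) then (1 : ℝ) else 0))]
    rw [e1, e2]
    have hone : ∀ i, ComposeCAux.Ex μ (fun (z : C → P) (r : C → A) y => 1 / (Fintype.card C : ℝ) *
          ∑ b : C, (if (T i).eval (x1 z y b (r b) (cell b z (y b))) then (1 : ℝ) else 0)) ≤
        ComposeCAux.Ex μ (fun (z : C → P) (_ : C → A) y =>
          (if (T i).eval (x0 z y) then (1 : ℝ) else 0)) +
        1 / (Fintype.card C : ℝ) * (R / t0 + t0 * Fintype.card C / Fintype.card P) +
        1 / (Fintype.card C : ℝ) * (R / T0 + Fintype.card C * (R / Fintype.card A + ε)) := by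
      intro i
      refine (one_tree μ h0 cell (T i)).trans ?_
      have hm := markers_bound μ h0 h1 (T i) R (hT i) t0 ht0
      have hc := cells_bound μ ν h0 h1 hν0 hν1 T0 hT0 ε hide (T i) R (hT i)
      have hC' : 0 ≤ 1 / (Fintype.card C : ℝ) := by positivity
      exact add_le_add (add_le_add le_rfl (mul_le_mul_of_nonneg_left hm hC'))
        (mul_le_mul_of_nonneg_left hc hC')
    calc _ ≤ ∑ i, p i * (ComposeCAux.Ex μ (fun (z : C → P) (_ : C → A) y =>
          (if (T i).eval (x0 z y) then (1 : ℝ) else 0)) +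
        1 / (Fintype.card C : ℝ) * (R / t0 + t0 * Fintype.card C / Fintype.card P) +
        1 / (Fintype.card C : ℝ) * (R / T0 + Fintype.card C * (R / Fintype.card A + ε))) :=
          Finset.sum_le_sum fun i _ => mul_le_mul_of_nonneg_left (hone i) (hp0 i)
      _ = _ := by
          simp only [mul_add, Finset.sum_add_distrib, ← Finset.sum_mul, hp1, one_mul]
  have e3 : 1 / (Fintype.card C : ℝ) * (R / t0 + t0 * Fintype.card C / Fintype.card P) =
      R / (t0 * Fintype.card C) + t0 / Fintype.card P := by field_simp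
  have e4 : 1 / (Fintype.card C : ℝ) * (R / T0 + Fintype.card C * (R / Fintype.card A + ε)) =
      R / (T0 * Fintype.card C) + R / Fintype.card A + ε := by field_simp; ring
  rw [e3, e4] at hsum
  linarith

end

end Crest.Agent.R350
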