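import Crest.Agent.R350.FDef

/-!
# Row 350, piece ComposeB: tree truncation for `cells_bound`

For a column `c` and a base input `x` the tree `cut c x t k L` reads only the data bits of column `c` (at most `k` of them, counted with
multiplicity) and announces the set of the addresses of the cells read (together with `L`).
-/

set_option autoImplicit false
set_option linter.unusedSectionVars false

namespace Crest.Agent.R350

namespace ComposeBAux

section
variable {C P D A B : Type} [DecidableEq C] [DecidableEq A]

/-- the data bit of column `c` -/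
def dataOf (c : C) : GIdx C P D A B → Option D
  | Sum.inl _ => none
  | Sum.inr (Sum.inl (c', d)) => if c' = c then some d else none
  | Sum.inr (Sum.inr _) => none

/-- add the address of a cell bit -/
def addCell : GIdx C P D A B → Finset A → Finset A
  | Sum.inl _, L => L
  | Sum.inr (Sum.inl _), L => L
  | Sum.inr (Sum.inr (a, _)), L => insert a L

/-- number of data bits of column `c` read on input `x`, with multiplicity -/
def cnt (x : GIdx C P D A B → Bool) (c : C) : RTree (GIdx C P D A B) Bool → ℕ
  | RTree.leaf _ => 0
  | RTree.node i t₀ t₁ =>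
      (if (dataOf c i).isSome then 1 else 0) + (if x i then cnt x c t₁ else cnt x c t₀)

/-- the truncated tree -/
def cut (c : C) (x : GIdx C P D A B → Bool) :
    RTree (GIdx C P D A B) Bool → ℕ → Finset A → RTree D (Finset A)
  | RTree.leaf _, _, L => RTree.leaf L
  | RTree.node i t₀ t₁, k, L =>
      match dataOf c i, k with
      | some _, 0 => RTree.leaf ∅
      | some d, k + 1 => RTree.node d (cut c x t₀ k L) (cut c x t₁ k L)
      | none, k => if x i then cut c x t₁ k (addCell i L) else cut c x t₀ k (addCell i L)

theorem cut_none {c : C} {x : GIdx C P D A B → Bool} {i : GIdx C P D A B}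
    (hd : dataOf c i = none) (t₀ t₁ : RTree (GIdx C P D A B) Bool) (k : ℕ) (L : Finset A) :
    cut c x (RTree.node i t₀ t₁) k L =
      if x i then cut c x t₁ k (addCell i L) else cut c x t₀ k (addCell i L) := by
  simp only [cut, hd]

theorem cut_zero {c : C} {x : GIdx C P D A B → Bool} {i : GIdx C P D A B} {d : D}
    (hd : dataOf c i = some d) (t₀ t₁ : RTree (GIdx C P D A B) Bool) (L : Finset A) :
    cut c x (RTree.node i t₀ t₁) 0 L = RTree.leaf ∅ := by
  simp only [cut, hd]

theorem cut_succ {c : C} {x : GIdx C P D A B → Bool} {i : GIdx C P D A B} {d : D}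
    (hd : dataOf c i = some d) (t₀ t₁ : RTree (GIdx C P D A B) Bool) (k : ℕ) (L : Finset A) :
    cut c x (RTree.node i t₀ t₁) (k + 1) L = RTree.node d (cut c x t₀ k L) (cut c x t₁ k L) := by
  simp only [cut, hd]

theorem depth_cut (c : C) (x : GIdx C P D A B → Bool) (t : RTree (GIdx C P D A B) Bool) :
    ∀ (k : ℕ) (L : Finset A), (cut c x t k L).depth ≤ k := by
  induction t with
  | leaf b => intro k L; simp [cut, RTree.depth]
  | node i t₀ t₁ ih₀ ih₁ =>
    intro k L
    cases hd : dataOf c i with
    | none =>
      rw [cut_none hd]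
      split_ifs
      · exact ih₁ _ _
      · exact ih₀ _ _
    | some d =>
      cases k with
      | zero => rw [cut_zero hd]; simp [RTree.depth]
      | succ k' =>
        rw [cut_succ hd, RTree.depth]
        have h0 := ih₀ k' L
        have h1 := ih₁ k' L
        omega

theorem card_addCell (i : GIdx C P D A B) (L : Finset A) : (addCell i L).card ≤ L.card + 1 := by
  rcases i with i | i | i
  · simp [addCell]
  · simp [addCell]
  · exact Finset.card_insert_le _ _

theorem card_cut (c : C) (x : GIdx C P D A B → Bool) (t : RTree (GIdx C P D A B) Bool)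
    (y : D → Bool) :
    ∀ (k : ℕ) (L : Finset A), ((cut c x t k L).eval y).card ≤ L.card + t.depth := by
  induction t with
  | leaf b => intro k L; simp [cut, RTree.eval]
  | node i t₀ t₁ ih₀ ih₁ =>
    intro k L
    rw [RTree.depth]
    cases hd : dataOf c i with
    | none =>
      rw [cut_none hd]
      have hc := card_addCell i L
      have h0 := ih₀ k (addCell i L)
      have h1 := ih₁ k (addCell i L)
      split_ifs <;> omega
    | some d =>
      cases k with
      | zero => rw [cut_zero hd]; simp [RTree.eval]
      | succ k' =>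
        rw [cut_succ hd, RTree.eval]
        have h0 := ih₀ k' L
        have h1 := ih₁ k' L
        split_ifs <;> omega

theorem mem_cut [DecidableEq (GIdx C P D A B)] (c : C) (x : GIdx C P D A B → Bool)
    (X : GIdx C P D A B → Bool) (y : D → Bool)
    (hX : ∀ i d, dataOf c i = some d → X i = y d)
    (hX' : ∀ i, dataOf c i = none → X i = x i) (a : A) (t : RTree (GIdx C P D A B) Bool) :
    ∀ (k : ℕ) (L : Finset A), cnt X c t ≤ k →
      (a ∈ L ∨ ∃ q, Sum.inr (Sum.inr (a, q)) ∈ t.path X) → a ∈ (cut c x t k L).eval y := by
  induction t with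
  | leaf b =>
    intro k L _ h
    rcases h with h | ⟨q, hq⟩
    · exact h
    · simp [RTree.path] at hq
  | node i t₀ t₁ ih₀ ih₁ =>
    intro k L hk h
    rw [cnt] at hk
    -- membership in the rest of the path
    have hpath : a ∈ addCell i L ∨
        ∃ q, (Sum.inr (Sum.inr (a, q)) : GIdx C P D A B) ∈ (if X i then t₁.path X else t₀.path X) := by
      rcases h with h | ⟨q, hq⟩
      · left
        rcases i with i | i | i
        · exact h
        · exact h
        · exact Finset.mem_insert_of_mem h
      · rw [RTree.path, Finset.mem_insert] at hq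
        rcases hq with hq | hq
        · left
          rw [← hq]
          exact Finset.mem_insert_self _ _
        · right
          exact ⟨q, hq⟩
    cases hd : dataOf c i with
    | none =>
      rw [hd] at hk
      simp only [Option.isSome_none, Bool.false_eq_true, if_false, zero_add] at hk
      rw [cut_none hd, ← hX' i hd]
      by_cases hx : X i = true
      · simp only [hx, if_true] at hk hpath ⊢
        exact ih₁ _ _ hk hpath
      · simp only [hx, if_false, Bool.false_eq_true] at hk hpath ⊢
        exact ih₀ _ _ hk hpath
    | some d =>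
      rw [hd] at hk
      simp only [Option.isSome_some, if_true] at hk
      have hadd : addCell i L = L := by
        rcases i with i | i | i
        · rfl
        · rfl
        · simp [dataOf] at hd
      rw [hadd] at hpath
      cases k with
      | zero => omega
      | succ k' =>
        rw [cut_succ hd, RTree.eval, ← hX i d hd]
        by_cases hx : X i = true
        · simp only [hx, if_true] at hk hpath ⊢
          exact ih₁ k' L (by omega) hpath
        · simp only [hx, if_false, Bool.false_eq_true] at hk hpath ⊢
          exact ih₀ k' L (by omega) hpath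

theorem sum_cnt [Fintype C] (x : GIdx C P D A B → Bool) (t : RTree (GIdx C P D A B) Bool) :
    ∑ c, cnt x c t ≤ t.depth := by
  induction t with
  | leaf b => simp [cnt, RTree.depth]
  | node i t₀ t₁ ih₀ ih₁ =>
    simp only [cnt, RTree.depth, Finset.sum_add_distrib]
    have h1 : ∑ c : C, (if (dataOf c i).isSome then 1 else 0) ≤ 1 := by
      rcases i with i | ⟨c', d⟩ | i
      · simp [dataOf]
      · have : ∀ c : C, (if (dataOf c (Sum.inr (Sum.inl (c', d)) : GIdx C P D A B)).isSome
            then 1 else 0) = if c' = c then 1 else 0 := by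
          intro c
          simp only [dataOf]
          by_cases h : c' = c <;> simp [h]
        simp only [this]
        simp
      · simp [dataOf]
    by_cases hx : x i = true
    · simp only [hx, if_true]
      omega
    · simp only [hx, Bool.false_eq_true, if_false]
      omega

open Classical in
theorem many_bound [Fintype C] (x : GIdx C P D A B → Bool) (t : RTree (GIdx C P D A B) Bool) (R : ℕ)
    (hR : t.depth ≤ R) (T0 : ℕ) (hT0 : 1 ≤ T0) :
    ((Finset.univ.filter (fun c : C => T0 < cnt x c t)).card : ℝ) ≤ R / T0 := by
  have h := sum_cnt x t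
  have h1 : (Finset.univ.filter (fun c : C => T0 < cnt x c t)).card * T0 ≤ R := by
    calc (Finset.univ.filter (fun c : C => T0 < cnt x c t)).card * T0
        = ∑ c ∈ Finset.univ.filter (fun c : C => T0 < cnt x c t), T0 := by
          rw [Finset.sum_const, smul_eq_mul]
      _ ≤ ∑ c ∈ Finset.univ.filter (fun c : C => T0 < cnt x c t), cnt x c t := by
          refine Finset.sum_le_sum fun c hc => ?_
          rw [Finset.mem_filter] at hc
          exact hc.2.le
      _ ≤ ∑ c, cnt x c t := Finset.sum_le_univ_sum_of_nonneg fun _ => Nat.zero_le _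
      _ ≤ R := h.trans hR
  rw [le_div_iff₀ (by exact_mod_cast hT0)]
  exact_mod_cast h1

end

section
variable {C P D A B : Type} [Fintype C] [DecidableEq C] [Nonempty C] [Fintype P] [DecidableEq P]
  [Nonempty P] [Fintype D] [DecidableEq D] [Fintype A] [DecidableEq A] [Nonempty A] [Fintype B]
  [DecidableEq B]

open Classical in
/-- the event: a cell of address `r` is read and at most `T0` data bits of column `c` are read -/
noncomputable def ev (t : RTree (GIdx C P D A B) Bool) (T0 : ℕ) (c : C) (z : C → P) (r : A)
    (y : C → D → Bool) : ℝ :=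
  if (∃ q : B, Sum.inr (Sum.inr (r, q)) ∈ t.path (x0 z y)) ∧ cnt (x0 z y) c t ≤ T0 then 1 else 0

theorem col_bound (μ : A → (D → Bool) → ℝ) (ν : (D → Bool) → ℝ) (h0 : ∀ r y, 0 ≤ μ r y)
    (hν0 : ∀ y, 0 ≤ ν y) (hν1 : ∑ y, ν y = 1) (T0 : ℕ)
    (ε : ℝ) (hide : ∀ (t : RTree D Bool), t.depth ≤ T0 → ∀ r,
      ∑ y, μ r y * (if t.eval y then 1 else 0) ≤ ∑ y, ν y * (if t.eval y then 1 else 0) + ε)
    (t : RTree (GIdx C P D A B) Bool) (R : ℕ) (hR : t.depth ≤ R) (c : C) (z : C → P)
    (y : C → D → Bool) :
    ∑ r' : A, ∑ y' : D → Bool, μ r' y' * ev t T0 c z r' (Function.update y c y')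
      ≤ R + Fintype.card A * ε := by
  classical
  let T : RTree D (Finset A) := cut c (x0 z y) t T0 ∅
  have hev : ∀ r' y', ev t T0 c z r' (Function.update y c y') ≤ if r' ∈ T.eval y' then 1 else 0 := by
    intro r' y'
    unfold ev
    split_ifs with h1 h2
    · exact le_rfl
    · exfalso
      apply h2
      refine mem_cut c (x0 z y) (x0 z (Function.update y c y')) y' ?_ ?_ r' t T0 ∅ h1.2
        (Or.inr h1.1)
      · intro i d hd
        rcases i with i | ⟨c', d'⟩ | i
        · simp [dataOf] at hd
        · simp only [dataOf] at hd
          by_cases hc : c' = c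
          · subst hc
            simp only [if_true, Option.some.injEq] at hd
            subst hd
            simp [x0]
          · simp [hc] at hd
        · simp [dataOf] at hd
      · intro i hd
        rcases i with i | ⟨c', d'⟩ | i
        · rfl
        · simp only [dataOf] at hd
          by_cases hc : c' = c
          · simp [hc] at hd
          · simp [x0, hc]
        · rfl
    · exact zero_le_one
    · exact le_rfl
  have hstep : ∀ r' : A, ∑ y' : D → Bool, μ r' y' * ev t T0 c z r' (Function.update y c y')
      ≤ ∑ y' : D → Bool, ν y' * (if r' ∈ T.eval y' then 1 else 0) + ε := by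
    intro r'
    have hT : (T.bind fun L => RTree.leaf (decide (r' ∈ L))).depth ≤ T0 := by
      have := RTree.depth_bind (fun L => RTree.leaf (decide (r' ∈ L))) T (d := 0)
        (fun L => by simp [RTree.depth])
      exact this.trans (by rw [Nat.add_zero]; exact depth_cut c _ t T0 ∅)
    have h := hide _ hT r'
    simp only [RTree.eval_bind, RTree.eval, decide_eq_true_eq] at h
    refine le_trans (Finset.sum_le_sum fun y' _ => ?_) h
    exact mul_le_mul_of_nonneg_left (hev r' y') (h0 r' y')
  calc ∑ r' : A, ∑ y' : D → Bool, μ r' y' * ev t T0 c z r' (Function.update y c y')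
      ≤ ∑ r' : A, (∑ y' : D → Bool, ν y' * (if r' ∈ T.eval y' then 1 else 0) + ε) :=
        Finset.sum_le_sum fun r' _ => hstep r'
    _ = ∑ y' : D → Bool, ν y' * ((T.eval y').card : ℝ) + Fintype.card A * ε := by
        rw [Finset.sum_add_distrib, Finset.sum_const, Finset.card_univ, nsmul_eq_mul,
          Finset.sum_comm]
        congr 1
        refine Finset.sum_congr rfl fun y' _ => ?_
        rw [← Finset.mul_sum]
        congr 1
        simp
    _ ≤ ∑ y' : D → Bool, ν y' * (R : ℝ) + Fintype.card A * ε := by
        gcongr with y' _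
        · exact hν0 y'
        · have := card_cut c (x0 z y) t y' T0 ∅
          simp only [Finset.card_empty, zero_add] at this
          exact this.trans hR
    _ = R + Fintype.card A * ε := by
        rw [← Finset.sum_mul, hν1, one_mul]

theorem inner_bound (μ : A → (D → Bool) → ℝ) (ν : (D → Bool) → ℝ) (h0 : ∀ r y, 0 ≤ μ r y)
    (hν0 : ∀ y, 0 ≤ ν y) (hν1 : ∑ y, ν y = 1) (T0 : ℕ)
    (ε : ℝ) (hide : ∀ (t : RTree D Bool), t.depth ≤ T0 → ∀ r,
      ∑ y, μ r y * (if t.eval y then 1 else 0) ≤ ∑ y, ν y * (if t.eval y then 1 else 0) + ε)
    (t : RTree (GIdx C P D A B) Bool) (R : ℕ) (hR : t.depth ≤ R) (c : C) (z : C → P)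
    (y : C → D → Bool) :
    ∑ z' : P, ∑ r' : A, ∑ y' : D → Bool,
          1 / (Fintype.card P : ℝ) * (1 / (Fintype.card A : ℝ)) * μ r' y' *
            ev t T0 c (Function.update z c z') r' (Function.update y c y')
      ≤ R / Fintype.card A + ε := by
  have hP : (0 : ℝ) < Fintype.card P := by exact_mod_cast Fintype.card_pos
  have hA : (0 : ℝ) < Fintype.card A := by exact_mod_cast Fintype.card_pos
  have h1 : ∀ z' : P, ∑ r' : A, ∑ y' : D → Bool,
          1 / (Fintype.card P : ℝ) * (1 / (Fintype.card A : ℝ)) * μ r' y' *
            ev t T0 c (Function.update z c z') r' (Function.update y c y') ≤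
      1 / (Fintype.card P : ℝ) * (R / Fintype.card A + ε) := by
    intro z'
    have h := col_bound μ ν h0 hν0 hν1 T0 ε hide t R hR c (Function.update z c z') y
    calc ∑ r' : A, ∑ y' : D → Bool,
          1 / (Fintype.card P : ℝ) * (1 / (Fintype.card A : ℝ)) * μ r' y' *
            ev t T0 c (Function.update z c z') r' (Function.update y c y')
        = 1 / (Fintype.card P : ℝ) * (1 / (Fintype.card A : ℝ)) *
            ∑ r' : A, ∑ y' : D → Bool, μ r' y' *
              ev t T0 c (Function.update z c z') r' (Function.update y c y') := by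
          simp only [Finset.mul_sum, mul_assoc]
      _ ≤ 1 / (Fintype.card P : ℝ) * (1 / (Fintype.card A : ℝ)) *
            (R + Fintype.card A * ε) := by
          gcongr
      _ = 1 / (Fintype.card P : ℝ) * (R / Fintype.card A + ε) := by
          field_simp
  calc _ ≤ ∑ z' : P, 1 / (Fintype.card P : ℝ) * (R / Fintype.card A + ε) :=
        Finset.sum_le_sum fun z' _ => h1 z'
    _ = R / Fintype.card A + ε := by
        rw [Finset.sum_const, Finset.card_univ, nsmul_eq_mul]
        field_simp

end

end ComposeBAux

end Crest.Agent.R350
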