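import Crest.Agent.R350.Mle

/-!
# Row 350, piece Cube: integration over the cube `[-1,1]^(Fin Kp × V n)`

`nu` = uniform probability measure on `[-1,1]`, `gam` = product measure on `Om Kp n = Fin Kp → V n → ℝ`.

PROOFS.  All functions are continuous, hence bounded on the compact cube `{ω | ∀ t x, |ω t x| ≤ 1}` of full measure: integrable.
`stein` : by Fubini (resampling one coordinate) it is the one-dimensional identity
`(1/2) ∫_{-1}^{1} v g(v) dv = (1/2) ∫_{-1}^{1} (1 - v²)/2 g'(v) dv`, integration by parts with `-((1-v²)/2)' = v`.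
`integral_update`: `∫ G dγ = ∫ (∫ G (upd ω t x v) dν(v)) dγ(ω)`: the map `(ω, v) ↦ upd ω t x v` sends `gam × nu` to `gam`.
`integral_prod_gam`: `MeasureTheory.integral_fintype_prod_eq_prod`.
-/

set_option autoImplicit false

namespace Crest.Agent.R350

open MeasureTheory

/-- uniform probability measure on `[-1, 1]` -/
noncomputable def nu : Measure ℝ := (ENNReal.ofReal (1 / 2)) • (volume.restrict (Set.Icc (-1) 1))

/-- product of uniform measures on `V n → ℝ` -/
noncomputable def gam1 (n : ℕ) : Measure (V n → ℝ) := Measure.pi (fun _ => nu)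

/-- sample space: `Kp` vectors indexed by `V n` -/
abbrev Om (Kp n : ℕ) : Type := Fin Kp → V n → ℝ

/-- product of uniform measures -/
noncomputable def gam (Kp n : ℕ) : Measure (Om Kp n) := Measure.pi (fun _ => gam1 n)

/-- change one coordinate -/
def upd {Kp n : ℕ} (ω : Om Kp n) (t : Fin Kp) (x : V n) (v : ℝ) : Om Kp n :=
  Function.update ω t (Function.update (ω t) x v)

instance : IsProbabilityMeasure nu := by
  constructor
  simp only [nu, Measure.smul_apply, Measure.restrict_apply MeasurableSet.univ, Set.univ_inter,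
    Real.volume_Icc, smul_eq_mul]
  rw [← ENNReal.ofReal_mul (by norm_num)]
  norm_num

instance (n : ℕ) : IsProbabilityMeasure (gam1 n) := by
  unfold gam1
  infer_instance

instance (Kp n : ℕ) : IsProbabilityMeasure (gam Kp n) := by
  unfold gam
  infer_instance

theorem nu_ae : ∀ᵐ v ∂nu, |v| ≤ 1 := by
  unfold nu
  apply Measure.ae_smul_measure
  filter_upwards [ae_restrict_mem measurableSet_Icc] with v hv
  exact abs_le.2 hv

theorem gam1_ae (n : ℕ) : ∀ᵐ u ∂(gam1 n), ∀ x, |u x| ≤ 1 := by
  rw [ae_all_iff]
  intro x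
  exact (Measure.tendsto_eval_ae_ae (μ := fun _ : V n => nu) (i := x)).eventually nu_ae

theorem gam_ae (Kp n : ℕ) : ∀ᵐ ω ∂(gam Kp n), ∀ t x, |ω t x| ≤ 1 := by
  rw [ae_all_iff]
  intro t
  exact (Measure.tendsto_eval_ae_ae (μ := fun _ : Fin Kp => gam1 n) (i := t)).eventually (gam1_ae n)

theorem integrable_gam {Kp n : ℕ} (G : Om Kp n → ℝ) (hG : Continuous G) :
    Integrable G (gam Kp n) := by
  have hK : IsCompact (Set.pi Set.univ (fun _ : Fin Kp => Set.pi Set.univ
      (fun _ : V n => Set.Icc (-1 : ℝ) 1))) :=
    isCompact_univ_pi fun _ => isCompact_univ_pi fun _ => isCompact_Icc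
  obtain ⟨C, hC⟩ := hK.exists_bound_of_continuousOn hG.continuousOn
  refine Integrable.of_bound hG.aestronglyMeasurable C ?_
  filter_upwards [gam_ae Kp n] with ω hω
  exact hC ω fun t _ x _ => abs_le.1 (hω t x)

theorem integrable_gam1 {n : ℕ} (G : (V n → ℝ) → ℝ) (hG : Continuous G) :
    Integrable G (gam1 n) := by
  have hK : IsCompact (Set.pi Set.univ (fun _ : V n => Set.Icc (-1 : ℝ) 1)) :=
    isCompact_univ_pi fun _ => isCompact_Icc
  obtain ⟨C, hC⟩ := hK.exists_bound_of_continuousOn hG.continuousOn
  refine Integrable.of_bound hG.aestronglyMeasurable C ?_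
  filter_upwards [gam1_ae n] with ω hω
  exact hC ω fun x _ => abs_le.1 (hω x)

/-- independence of the `Kp` vectors -/
theorem integral_prod_gam {Kp n : ℕ} (g : Fin Kp → (V n → ℝ) → ℝ) :
    ∫ ω, ∏ t, g t (ω t) ∂(gam Kp n) = ∏ t, ∫ u, g t u ∂(gam1 n) :=
  integral_fintype_prod_eq_prod (μ := fun _ : Fin Kp => gam1 n) g

namespace Cubeaux

/-- resampling one coordinate of a product measure. -/
theorem mp_update {ι : Type*} [Fintype ι] [DecidableEq ι] {α : Type*} [MeasurableSpace α]
    (μ : Measure α) [IsProbabilityMeasure μ] (i : ι) :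
    MeasurePreserving (fun p : (ι → α) × α => Function.update p.1 i p.2)
      ((Measure.pi fun _ : ι => μ).prod μ) (Measure.pi fun _ : ι => μ) := by
  have hm : Measurable (fun p : (ι → α) × α => Function.update p.1 i p.2) := by
    refine measurable_pi_lambda _ fun j => ?_
    by_cases h : j = i
    · subst h
      simpa using measurable_snd
    · simp only [Function.update_of_ne h]
      exact (measurable_pi_apply j).comp measurable_fst
  refine ⟨hm, (Measure.pi_eq fun s hs => ?_).symm⟩
  rw [Measure.map_apply hm (MeasurableSet.univ_pi hs)]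
  have e : (fun p : (ι → α) × α => Function.update p.1 i p.2) ⁻¹' (Set.univ.pi s) =
      (Set.univ.pi (Function.update s i Set.univ)) ×ˢ (s i) := by
    ext ⟨u, v⟩
    simp only [Set.mem_preimage, Set.mem_pi, Set.mem_univ, forall_true_left, Set.mem_prod]
    constructor
    · intro h
      refine ⟨fun j => ?_, by simpa using h i⟩
      by_cases hj : j = i
      · subst hj; simp
      · have := h j
        rw [Function.update_of_ne hj] at this ⊢
        exact this
    · rintro ⟨h1, h2⟩ j
      by_cases hj : j = i
      · subst hj; simpa using h2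
      · have := h1 j
        rw [Function.update_of_ne hj] at this ⊢
        exact this
  rw [e, Measure.prod_prod, Measure.pi_pi]
  rw [← Finset.mul_prod_erase _ _ (Finset.mem_univ i),
    ← Finset.mul_prod_erase Finset.univ (fun j => μ (s j)) (Finset.mem_univ i)]
  rw [Function.update_self, measure_univ, one_mul, mul_comm]
  congr 1
  refine Finset.prod_congr rfl fun j hj => ?_
  rw [Function.update_of_ne (Finset.ne_of_mem_erase hj)]

theorem integral_update {ι : Type*} [Fintype ι] [DecidableEq ι] {α : Type*} [MeasurableSpace α]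
    (μ : Measure α) [IsProbabilityMeasure μ] (i : ι) (F : (ι → α) → ℝ)
    (hF : Integrable F (Measure.pi fun _ : ι => μ)) :
    ∫ u, F u ∂(Measure.pi fun _ : ι => μ) =
      ∫ u, (∫ v, F (Function.update u i v) ∂μ) ∂(Measure.pi fun _ : ι => μ) := by
  have hp := mp_update μ i
  have h1 : ∫ u, F u ∂(Measure.pi fun _ : ι => μ) =
      ∫ p, F (Function.update p.1 i p.2) ∂((Measure.pi fun _ : ι => μ).prod μ) := by
    have h := integral_map (μ := (Measure.pi fun _ : ι => μ).prod μ) hp.measurable.aemeasurable
      (f := F) (by rw [hp.map_eq]; exact hF.aestronglyMeasurable)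
    rw [hp.map_eq] at h
    exact h
  rw [h1, integral_prod]
  exact hp.integrable_comp_of_integrable hF

theorem integral_nu (g : ℝ → ℝ) : ∫ v, g v ∂nu = (1 / 2) * ∫ v in (-1 : ℝ)..1, g v := by
  rw [nu, integral_smul_measure, intervalIntegral.integral_of_le (by norm_num),
    integral_Icc_eq_integral_Ioc, ENNReal.toReal_ofReal (by norm_num), smul_eq_mul]

theorem stein0 (g g' : ℝ → ℝ) (hg' : Continuous g') (hd : ∀ v, HasDerivAt g (g' v) v) :
    ∫ v, v * g v ∂nu = ∫ v, (1 - v ^ 2) / 2 * g' v ∂nu := by
  rw [integral_nu, integral_nu]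
  congr 1
  have hg : Continuous g := continuous_iff_continuousAt.2 fun v => (hd v).continuousAt
  have h : ∫ v in (-1 : ℝ)..1, ((1 - v ^ 2) / 2 * g' v - v * g v) = 0 := by
    have h1 : ∀ v ∈ Set.uIcc (-1 : ℝ) 1, HasDerivAt (fun v => (1 - v ^ 2) / 2 * g v)
        ((1 - v ^ 2) / 2 * g' v - v * g v) v := by
      intro v _
      have h2 : HasDerivAt (fun v : ℝ => (1 - v ^ 2) / 2) (-v) v := by
        have := ((hasDerivAt_pow 2 v).const_sub 1).div_const 2
        refine this.congr_deriv ?_
        simp; ring
      refine (h2.mul (hd v)).congr_deriv ?_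
      ring
    rw [intervalIntegral.integral_eq_sub_of_hasDerivAt h1]
    · norm_num
    · exact Continuous.intervalIntegrable (by fun_prop) _ _
  rw [intervalIntegral.integral_sub (Continuous.intervalIntegrable (by fun_prop) _ _)
    (Continuous.intervalIntegrable (by fun_prop) _ _)] at h
  linarith

end Cubeaux

theorem stein1 {n : ℕ} (x : V n) (G G' : (V n → ℝ) → ℝ) (hG : Continuous G) (hG' : Continuous G')
    (hd : ∀ u v, HasDerivAt (fun v => G (Function.update u x v)) (G' (Function.update u x v)) v) :
    ∫ u, u x * G u ∂(gam1 n) = ∫ u, (1 - (u x) ^ 2) / 2 * G' u ∂(gam1 n) := by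
  have i1 : Integrable (fun u : V n → ℝ => u x * G u) (gam1 n) :=
    integrable_gam1 _ (by fun_prop)
  have i2 : Integrable (fun u : V n → ℝ => (1 - (u x) ^ 2) / 2 * G' u) (gam1 n) :=
    integrable_gam1 _ (by fun_prop)
  rw [gam1, Cubeaux.integral_update nu x _ i1, Cubeaux.integral_update nu x _ i2]
  congr 1
  funext u
  simp only [Function.update_self]
  refine Cubeaux.stein0 (fun v => G (Function.update u x v)) (fun v => G' (Function.update u x v))
    ?_ (hd u)
  exact hG'.comp (by fun_prop)

theorem stein {Kp n : ℕ} (t : Fin Kp) (x : V n) (G G' : Om Kp n → ℝ) (hG : Continuous G)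
    (hG' : Continuous G')
    (hd : ∀ ω v, HasDerivAt (fun v => G (upd ω t x v)) (G' (upd ω t x v)) v) :
    ∫ ω, ω t x * G ω ∂(gam Kp n) = ∫ ω, (1 - (ω t x) ^ 2) / 2 * G' ω ∂(gam Kp n) := by
  have i1 : Integrable (fun ω : Om Kp n => ω t x * G ω) (gam Kp n) :=
    integrable_gam _ (by fun_prop)
  have i2 : Integrable (fun ω : Om Kp n => (1 - (ω t x) ^ 2) / 2 * G' ω) (gam Kp n) :=
    integrable_gam _ (by fun_prop)
  rw [gam, Cubeaux.integral_update (gam1 n) t _ i1, Cubeaux.integral_update (gam1 n) t _ i2]
  congr 1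
  funext ω
  simp only [Function.update_self]
  refine stein1 x (fun u => G (Function.update ω t u)) (fun u => G' (Function.update ω t u))
    (hG.comp (by fun_prop)) (hG'.comp (by fun_prop)) fun u v => ?_
  have := hd (Function.update ω t u) v
  simpa only [upd, Function.update_self, Function.update_idem] using this

/-- second moments: `E u_x u_y = 1/3` if `x = y`, else `0` -/
theorem integral_mul_gam1 {n : ℕ} (x y : V n) :
    ∫ u, u x * u y ∂(gam1 n) = if x = y then 1 / 3 else 0 := by
  have h := stein1 x (fun u => u y) (fun _ => if x = y then 1 else 0) (by fun_prop) (by fun_prop)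
    (by
      intro u v
      split_ifs with hxy
      · subst hxy
        simpa using hasDerivAt_id' v
      · have : (fun v : ℝ => Function.update u x v y) = fun _ => u y := by
          funext v
          rw [Function.update_of_ne (Ne.symm hxy)]
        rw [this]
        exact hasDerivAt_const v (u y))
  rw [h]
  split_ifs with hxy
  · subst hxy
    have i1 : Integrable (fun u : V n → ℝ => u x * u x) (gam1 n) :=
      integrable_gam1 _ (by fun_prop)
    have e : ∫ u, (1 - (u x) ^ 2) / 2 * (1 : ℝ) ∂(gam1 n) =
        1 / 2 - (∫ u, u x * u x ∂(gam1 n)) / 2 := by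
      have : (fun u : V n → ℝ => (1 - (u x) ^ 2) / 2 * (1 : ℝ)) =
          fun u => 1 / 2 - (u x * u x) / 2 := by funext u; ring
      rw [this, integral_sub (integrable_const _) (i1.div_const 2)]
      simp only [integral_const, probReal_univ, smul_eq_mul, one_mul]
      rw [← integral_div]
    rw [if_pos rfl, e] at h
    rw [e]
    linarith
  · simp

end Crest.Agent.R350
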