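import Crest.Agent.R350.QDefs

/-! # Row 350: common definitions (bit vectors, characters, K-fold Forrelation) -/

set_option autoImplicit false

namespace Crest.Agent.R350

/-- bit vectors -/
abbrev V (n : ℕ) : Type := Fin n → Bool

/-- sign of a bit -/
def sg (b : Bool) : ℤ := if b then -1 else 1

/-- the character `(-1)^{x·y}` -/
def chi {n : ℕ} (x y : V n) : ℤ := ∏ i, (if x i && y i then -1 else 1)

/-- an instance of `K`-fold Forrelation: `K` functions `V n → Bool` -/
abbrev Inst (K n : ℕ) : Type := Fin K × V n → Bool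

/-- block `t` of an instance, `false` beyond the last block -/
def blk {K n : ℕ} (z : Inst K n) (t : ℕ) (y : V n) : Bool :=
  if h : t < K then z (⟨t, h⟩, y) else false

/-- iterated transform: multiply by the signs of block `t`, then (unnormalised) Walsh–Hadamard transform -/
def iter {K n : ℕ} (z : Inst K n) : ℕ → V n → ℤ
  | 0 => fun _ => 1
  | t + 1 => fun x => ∑ y : V n, chi x y * (sg (blk z t y) * iter z t y)

/-- the unnormalised `K`-fold Forrelation sum
`Ψ(z) = ∑_{x_0,…,x_{K-1}} ∏_t sg (z t x_t) ∏_{t<K-1} chi x_{t+1} x_t`. -/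
def Psi {K n : ℕ} (z : Inst K n) : ℤ := iter z K (fun _ => false)

end Crest.Agent.R350
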