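import Crest.Agent.R350.QBasic
import Crest.Agent.R350.Defs

/-!
# Row 350, piece QHad: the Hadamard test for (averages of) K-fold Forrelation, `K` queries

State space `E = V (2j) × (Bool × Fin M)`.  Start column `(1/√(2M)) (δ_{y=0}` on `false`, `2^{-j}` on `true)`;
for each `t < K` the phase oracle of block `t` on the `true` branch followed by the Hadamard transform
on the `true` branch; at the end the `2 × 2` Hadamard matrix on the `Bool` register.
-/

set_option autoImplicit false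

namespace Crest.Agent.R350

open Matrix
open scoped Kronecker

variable {I : Type}

/-- a unitary matrix with a prescribed column -/
theorem exists_unitary_col {E : Type} [Fintype E] [DecidableEq E] (v : E → ℂ)
    (hv : ∑ e, ‖v e‖ ^ 2 = 1) (e₀ : E) :
    ∃ U ∈ Matrix.unitaryGroup E ℂ, ∀ e, U e e₀ = v e := by
  have hon : Orthonormal ℂ (({e₀} : Set E).domRestrict
      (fun _ : E => (WithLp.toLp 2 v : EuclideanSpace ℂ E))) := by
    refine ⟨fun _ => ?_, fun a b hab => absurd (Subsingleton.elim a b) hab⟩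
    change ‖(WithLp.toLp 2 v : EuclideanSpace ℂ E)‖ = 1
    rw [EuclideanSpace.norm_eq]
    simp [hv]
  obtain ⟨b, hb⟩ := hon.exists_orthonormalBasis_extension_of_card_eq (by simp)
  refine ⟨(EuclideanSpace.basisFun E ℂ).toBasis.toMatrix b.toBasis,
    (EuclideanSpace.basisFun E ℂ).toMatrix_orthonormalBasis_mem_unitary b, fun e => ?_⟩
  have h1 : (EuclideanSpace.basisFun E ℂ).toBasis.toMatrix b.toBasis e e₀ = (b e₀) e := rfl
  rw [h1, hb e₀ rfl]

theorem chi_comm {n : ℕ} (x y : V n) : chi x y = chi y x := by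
  unfold chi
  refine Finset.prod_congr rfl fun i _ => ?_
  rw [Bool.and_comm]

theorem chi_orth {n : ℕ} (a b : V n) :
    ∑ y : V n, chi a y * chi b y = if a = b then (2 : ℤ) ^ n else 0 := by
  unfold chi
  simp_rw [← Finset.prod_mul_distrib]
  have h := Finset.prod_univ_sum (t := fun _ : Fin n => (Finset.univ : Finset Bool))
    (f := fun i c => ((if a i && c then (-1 : ℤ) else 1) * (if b i && c then (-1 : ℤ) else 1)))
  rw [Fintype.piFinset_univ] at h
  rw [← h]
  have h2 : ∀ i : Fin n, ∑ c : Bool, ((if a i && c then (-1 : ℤ) else 1) *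
      (if b i && c then (-1 : ℤ) else 1)) = if a i = b i then 2 else 0 := by
    intro i
    rw [Fintype.sum_bool]
    cases a i <;> cases b i <;> simp
  simp_rw [h2]
  split_ifs with hab
  · subst hab
    simp
  · obtain ⟨i, hi⟩ := Function.ne_iff.1 hab
    exact Finset.prod_eq_zero (Finset.mem_univ i) (if_neg hi)

/-- the normalised Hadamard matrix on `2j` bits -/
noncomputable def Hd (j : ℕ) : Matrix (V (2 * j)) (V (2 * j)) ℂ :=
  Matrix.of fun y y' => ((2 : ℂ) ^ j)⁻¹ * (chi y y' : ℂ)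

theorem Hd_unitary (j : ℕ) : Hd j ∈ Matrix.unitaryGroup (V (2 * j)) ℂ := by
  rw [Matrix.mem_unitaryGroup_iff, Matrix.star_eq_conjTranspose]
  ext a b
  rw [Matrix.mul_apply]
  have h : ∀ y, Hd j a y * (Hd j)ᴴ y b = ((2 : ℂ) ^ (2 * j))⁻¹ * ((chi a y * chi b y : ℤ) : ℂ) := by
    intro y
    rw [Matrix.conjTranspose_apply, Hd, Matrix.of_apply, Matrix.of_apply]
    simp only [star_mul', star_inv₀, star_pow, Complex.star_def, Complex.conj_ofNat, map_intCast]
    push_cast
    have e : ((2 : ℂ) ^ (2 * j))⁻¹ = ((2 : ℂ) ^ j)⁻¹ * ((2 : ℂ) ^ j)⁻¹ := by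
      rw [← mul_inv, ← pow_add, two_mul]
    rw [e]
    ring
  simp_rw [h]
  rw [← Finset.mul_sum, ← Int.cast_sum, chi_orth, Matrix.one_apply]
  split_ifs <;> simp

/-- controlled Hadamard transform -/
noncomputable def CH (j M : ℕ) : Matrix (V (2 * j) × (Bool × Fin M)) (V (2 * j) × (Bool × Fin M)) ℂ :=
  Matrix.blockDiagonal fun k => if k.1 then Hd j else 1

theorem CH_unitary (j M : ℕ) : CH j M ∈ Matrix.unitaryGroup _ ℂ := by
  rw [Matrix.mem_unitaryGroup_iff, Matrix.star_eq_conjTranspose, CH,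
    Matrix.blockDiagonal_conjTranspose, ← Matrix.blockDiagonal_mul, ← Matrix.blockDiagonal_one]
  congr 1
  funext k
  by_cases hk : k.1
  · simp only [hk, if_true]
    exact Matrix.mem_unitaryGroup_iff.1 (Hd_unitary j)
  · simp [hk]

theorem CH_mul_apply (j M : ℕ) (W : Matrix (V (2 * j) × (Bool × Fin M)) (V (2 * j) × (Bool × Fin M)) ℂ)
    (y : V (2 * j)) (k : Bool × Fin M) (e₀ : V (2 * j) × (Bool × Fin M)) :
    (CH j M * W) (y, k) e₀ = if k.1 then ∑ y', Hd j y y' * W (y', k) e₀ else W (y, k) e₀ := by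
  rw [Matrix.mul_apply, Fintype.sum_prod_type_right, Finset.sum_eq_single k]
  · by_cases hk : k.1
    · rw [if_pos hk]
      refine Finset.sum_congr rfl fun y' _ => ?_
      rw [CH, Matrix.blockDiagonal_apply_eq, if_pos hk]
    · rw [if_neg hk, Finset.sum_eq_single y]
      · rw [CH, Matrix.blockDiagonal_apply_eq, if_neg hk, Matrix.one_apply_eq, one_mul]
      · intro y' _ hy'
        rw [CH, Matrix.blockDiagonal_apply_eq, if_neg hk, Matrix.one_apply_ne hy'.symm, zero_mul]
      · intro h; exact absurd (Finset.mem_univ _) h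
  · intro k' _ hk'
    refine Finset.sum_eq_zero fun y' _ => ?_
    rw [CH, Matrix.blockDiagonal_apply_ne _ _ _ hk'.symm, zero_mul]
  · intro h; exact absurd (Finset.mem_univ _) h

/-- the `2 × 2` Hadamard matrix -/
noncomputable def H2 : Matrix Bool Bool ℂ :=
  Matrix.of fun b b' => ((Real.sqrt 2 : ℝ) : ℂ)⁻¹ * (if b && b' then -1 else 1)

theorem H2_unitary : H2 ∈ Matrix.unitaryGroup Bool ℂ := by
  rw [Matrix.mem_unitaryGroup_iff, Matrix.star_eq_conjTranspose]
  have h2 : ((Real.sqrt 2 : ℝ) : ℂ) * ((Real.sqrt 2 : ℝ) : ℂ) = 2 := by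
    rw [← Complex.ofReal_mul, Real.mul_self_sqrt (by norm_num)]; simp
  have h3 : ((Real.sqrt 2 : ℝ) : ℂ)⁻¹ * ((Real.sqrt 2 : ℝ) : ℂ)⁻¹ = 1 / 2 := by
    rw [← mul_inv, h2]; norm_num
  ext a b
  rw [Matrix.mul_apply, Fintype.sum_bool]
  simp only [Matrix.conjTranspose_apply, H2, Matrix.of_apply, star_mul', star_inv₀,
    Complex.star_def, Complex.conj_ofReal]
  cases a <;> cases b <;> simp <;> linear_combination 2 * h3

/-- the final unitary: `H2` on the `Bool` register -/
noncomputable def FH (j M : ℕ) : Matrix (V (2 * j) × (Bool × Fin M)) (V (2 * j) × (Bool × Fin M)) ℂ :=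
  (1 : Matrix (V (2 * j)) (V (2 * j)) ℂ) ⊗ₖ (H2 ⊗ₖ (1 : Matrix (Fin M) (Fin M) ℂ))

theorem FH_unitary (j M : ℕ) : FH j M ∈ Matrix.unitaryGroup _ ℂ :=
  Matrix.kronecker_mem_unitary (one_mem _) (Matrix.kronecker_mem_unitary H2_unitary (one_mem _))

theorem FH_mul_apply (j M : ℕ) (W : Matrix (V (2 * j) × (Bool × Fin M)) (V (2 * j) × (Bool × Fin M)) ℂ)
    (y : V (2 * j)) (b : Bool) (i : Fin M) (e₀ : V (2 * j) × (Bool × Fin M)) :
    (FH j M * W) (y, (b, i)) e₀ = ((Real.sqrt 2 : ℝ) : ℂ)⁻¹ *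
      (W (y, (false, i)) e₀ + (sg b : ℂ) * W (y, (true, i)) e₀) := by
  rw [Matrix.mul_apply, Fintype.sum_prod_type, Finset.sum_eq_single y]
  · rw [Fintype.sum_prod_type_right, Finset.sum_eq_single i]
    · rw [Fintype.sum_bool]
      simp only [FH, Matrix.kronecker_apply, Matrix.one_apply_eq, H2, Matrix.of_apply]
      cases b <;> simp [sg] <;> ring
    · intro i' _ hi'
      refine Finset.sum_eq_zero fun b' _ => ?_
      simp only [FH, Matrix.kronecker_apply, Matrix.one_apply_ne hi'.symm, mul_zero, zero_mul]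
    · intro h; exact absurd (Finset.mem_univ _) h
  · intro y' _ hy'
    refine Finset.sum_eq_zero fun k _ => ?_
    simp only [FH, Matrix.kronecker_apply, Matrix.one_apply_ne hy'.symm, zero_mul]
  · intro h; exact absurd (Finset.mem_univ _) h

/-- the start column -/
noncomputable def startCol (j M : ℕ) : V (2 * j) × (Bool × Fin M) → ℂ := fun e =>
  if e.2.1 then ((Real.sqrt (2 * M) : ℝ) : ℂ)⁻¹ * ((2 : ℂ) ^ j)⁻¹
  else (if e.1 = (fun _ => false) then ((Real.sqrt (2 * M) : ℝ) : ℂ)⁻¹ else 0)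

theorem startCol_norm {j M : ℕ} (hM : 1 ≤ M) : ∑ e, ‖startCol j M e‖ ^ 2 = 1 := by
  have hM' : (0 : ℝ) < M := by exact_mod_cast hM
  have h1 : ‖((Real.sqrt (2 * M) : ℝ) : ℂ)⁻¹‖ ^ 2 = (2 * (M : ℝ))⁻¹ := by
    rw [norm_inv, Complex.norm_real, Real.norm_eq_abs, inv_pow, sq_abs, Real.sq_sqrt (by positivity)]
  rw [Fintype.sum_prod_type_right, Fintype.sum_prod_type]
  rw [Fintype.sum_bool]
  have h2 : ∀ i : Fin M, ∑ y : V (2 * j), ‖startCol j M (y, (true, i))‖ ^ 2 = (2 * (M : ℝ))⁻¹ := by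
    intro i
    have : ∀ y : V (2 * j), ‖startCol j M (y, (true, i))‖ ^ 2 = (2 * (M : ℝ))⁻¹ * ((2 : ℝ) ^ (2 * j))⁻¹ := by
      intro y
      simp only [startCol, if_true]
      rw [norm_mul, mul_pow, h1, norm_inv, norm_pow, Complex.norm_ofNat, inv_pow, ← pow_mul, mul_comm j 2]
    simp_rw [this]
    rw [Finset.sum_const, Finset.card_univ, Fintype.card_fun, Fintype.card_bool, Fintype.card_fin,
      nsmul_eq_mul]
    push_cast
    field_simp
  have h3 : ∀ i : Fin M, ∑ y : V (2 * j), ‖startCol j M (y, (false, i))‖ ^ 2 = (2 * (M : ℝ))⁻¹ := by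
    intro i
    rw [Finset.sum_eq_single (fun _ => false)]
    · have h4 : startCol j M ((fun _ => false), (false, i)) =
          ((Real.sqrt (2 * M) : ℝ) : ℂ)⁻¹ := by simp [startCol]
      rw [h4, h1]
    · intro y _ hy
      simp [startCol, hy]
    · intro h; exact absurd (Finset.mem_univ _) h
  simp_rw [h2, h3]
  rw [Finset.sum_const, Finset.card_univ, Fintype.card_fin, nsmul_eq_mul]
  field_simp
  norm_num

theorem Samp.hadamardTest {j K M : ℕ} (hM : 1 ≤ M) (hK : 1 ≤ K)
    (idx : Fin M → Fin K × V (2 * j) → I) :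
    Samp I K (fun x b =>
      (1 + (sg b : ℝ) * ((∑ i : Fin M, (Psi (fun p => x (idx i p)) : ℝ))
        / (M * 2 ^ (j * (K + 1))))) / 2) := by
  classical
  have hM' : (0 : ℝ) < M := by exact_mod_cast hM
  set e₀ : V (2 * j) × (Bool × Fin M) := (fun _ => false, (false, ⟨0, hM⟩)) with he₀
  obtain ⟨U, hU, hUc⟩ := exists_unitary_col (startCol j M) (startCol_norm hM) e₀
  set s : ℂ := ((Real.sqrt (2 * M) : ℝ) : ℂ)⁻¹ with hs
  -- the iterates
  have hW : ∀ t : ℕ, t ≤ K → ∃ W : (I → Bool) → Matrix _ _ ℂ, QU I _ t W ∧ ∀ x y b i,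
      W x (y, (b, i)) e₀ = if b then s * ((2 : ℂ) ^ j)⁻¹ * ((2 : ℂ) ^ (j * t))⁻¹ *
        (iter (fun p => x (idx i p)) t y : ℂ) else (if y = (fun _ => false) then s else 0) := by
    intro t
    induction t with
    | zero =>
      intro _
      refine ⟨fun _ => U, QU.const U hU, fun x y b i => ?_⟩
      change U (y, (b, i)) e₀ = _
      rw [hUc]
      simp only [startCol]
      by_cases hb : b
      · simp [hb, iter, hs]
      · simp [hb, hs]
    | succ t ih =>
      intro ht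
      obtain ⟨W, hW1, hW2⟩ := ih (by omega)
      have htK : t < K := by omega
      set q : V (2 * j) × (Bool × Fin M) → Option I := fun e =>
        if e.2.1 then some (idx e.2.2 (⟨t, htK⟩, e.1)) else none with hq
      refine ⟨_, QU.step hW1 q (CH j M) (CH_unitary j M), fun x y b i => ?_⟩
      rw [Matrix.mul_assoc, CH_mul_apply]
      have hd : ∀ y', (Matrix.diagonal (fun e => ph x (q e)) * W x) (y', (b, i)) e₀ =
          ph x (q (y', (b, i))) * W x (y', (b, i)) e₀ := fun y' => by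
        rw [Matrix.diagonal_mul]
      simp_rw [hd, hW2]
      by_cases hb : b
      · subst hb
        simp only [if_true, iter, hq, Int.cast_sum, Finset.mul_sum]
        refine Finset.sum_congr rfl fun y' _ => ?_
        have hph : ph x (some (idx i (⟨t, htK⟩, y'))) =
            (sg (blk (fun p => x (idx i p)) t y') : ℂ) := by
          simp only [ph, sg, blk, dif_pos htK]
          split_ifs <;> simp
        rw [hph, Hd, Matrix.of_apply]
        have e : ((2 : ℂ) ^ (j * (t + 1)))⁻¹ = ((2 : ℂ) ^ (j * t))⁻¹ * ((2 : ℂ) ^ j)⁻¹ := by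
          rw [← mul_inv, ← pow_add]; ring_nf
        rw [e]
        push_cast
        ring
      · have hb' : b = false := by simpa using hb
        subst hb'
        simp [hq, ph]
  obtain ⟨W, hW1, hW2⟩ := hW K le_rfl
  have hfin : QU I _ K (fun x => FH j M * W x) := by
    have := (QU.const (I := I) (FH j M) (FH_unitary j M)).mul hW1
    simpa using this
  set out : V (2 * j) × (Bool × Fin M) → Bool := fun e => e.2.1 with hout
  have hamp : ∀ x y b i, ‖(FH j M * W x) (y, (b, i)) e₀‖ ^ 2 = (4 * (M : ℝ))⁻¹ *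
      ((if y = (fun _ => false) then (1 : ℝ) else 0) + (sg b : ℝ) *
        (((2 : ℝ) ^ (j * (K + 1)))⁻¹ * (iter (fun p => x (idx i p)) K y : ℝ))) ^ 2 := by
    intro x y b i
    rw [FH_mul_apply, hW2, hW2]
    simp only [if_true]
    have e1 : ((2 : ℂ) ^ j)⁻¹ * ((2 : ℂ) ^ (j * K))⁻¹ = ((2 : ℂ) ^ (j * (K + 1)))⁻¹ := by
      rw [← mul_inv, ← pow_add]; ring_nf
    have e2 : ((Real.sqrt 2 : ℝ) : ℂ)⁻¹ * ((if (false : Bool) = true then s * ((2 : ℂ) ^ j)⁻¹ *
        ((2 : ℂ) ^ (j * K))⁻¹ * (iter (fun p => x (idx i p)) K y : ℂ) else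
        (if y = (fun _ => false) then s else 0)) + (sg b : ℂ) *
        (s * ((2 : ℂ) ^ j)⁻¹ * ((2 : ℂ) ^ (j * K))⁻¹ * (iter (fun p => x (idx i p)) K y : ℂ))) =
        (((Real.sqrt 2)⁻¹ * (Real.sqrt (2 * M))⁻¹ *
          ((if y = (fun _ => false) then (1 : ℝ) else 0) + (sg b : ℝ) *
        (((2 : ℝ) ^ (j * (K + 1)))⁻¹ * (iter (fun p => x (idx i p)) K y : ℝ))) : ℝ) : ℂ) := by
      rw [hs]
      push_cast
      rw [← e1]
      by_cases hy : y = (fun _ => false)
      · simp only [hy, if_true]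
        simp
        ring
      · simp only [hy, if_false]
        simp
        ring
    rw [e2, Complex.norm_real, Real.norm_eq_abs, sq_abs, mul_pow, mul_pow, inv_pow, inv_pow,
      Real.sq_sqrt (by positivity), Real.sq_sqrt (by positivity)]
    congr 1
    rw [← mul_inv]
    ring_nf
  -- the law
  set Y : (I → Bool) → ℝ := fun x => (∑ i : Fin M, (Psi (fun p => x (idx i p)) : ℝ))
        / (2 ^ (j * (K + 1))) with hY
  set X : (I → Bool) → ℝ := fun x => ∑ i : Fin M, ∑ y : V (2 * j),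
    (((2 : ℝ) ^ (j * (K + 1)))⁻¹ * (iter (fun p => x (idx i p)) K y : ℝ)) ^ 2 with hX
  have hsg : ∀ b : Bool, (sg b : ℝ) ^ 2 = 1 := by intro b; cases b <;> simp [sg]
  have hlaw : ∀ x b, ∑ i : Fin M, ∑ y : V (2 * j), ‖(FH j M * W x) (y, (b, i)) e₀‖ ^ 2 =
      (4 * (M : ℝ))⁻¹ * (M + 2 * (sg b : ℝ) * Y x + X x) := by
    intro x b
    simp_rw [hamp, ← Finset.mul_sum]
    congr 1
    have h1 : ∀ i : Fin M, ∑ y : V (2 * j), ((if y = (fun _ => false) then (1 : ℝ) else 0) +
        (sg b : ℝ) * (((2 : ℝ) ^ (j * (K + 1)))⁻¹ * (iter (fun p => x (idx i p)) K y : ℝ))) ^ 2 =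
        1 + 2 * (sg b : ℝ) * ((Psi (fun p => x (idx i p)) : ℝ) / (2 ^ (j * (K + 1)))) +
        ∑ y : V (2 * j), (((2 : ℝ) ^ (j * (K + 1)))⁻¹ *
          (iter (fun p => x (idx i p)) K y : ℝ)) ^ 2 := by
      intro i
      have h2 : ∀ y : V (2 * j), ((if y = (fun _ => false) then (1 : ℝ) else 0) +
        (sg b : ℝ) * (((2 : ℝ) ^ (j * (K + 1)))⁻¹ * (iter (fun p => x (idx i p)) K y : ℝ))) ^ 2 =
        (if y = (fun _ => false) then (1 : ℝ) + 2 * (sg b : ℝ) * (((2 : ℝ) ^ (j * (K + 1)))⁻¹ *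
          (iter (fun p => x (idx i p)) K y : ℝ)) else 0) +
          (((2 : ℝ) ^ (j * (K + 1)))⁻¹ * (iter (fun p => x (idx i p)) K y : ℝ)) ^ 2 := by
        intro y
        have := hsg b
        split_ifs
        · linear_combination ((((2 : ℝ) ^ (j * (K + 1)))⁻¹ *
            (iter (fun p => x (idx i p)) K y : ℝ)) ^ 2) * this
        · linear_combination ((((2 : ℝ) ^ (j * (K + 1)))⁻¹ *
            (iter (fun p => x (idx i p)) K y : ℝ)) ^ 2) * this
      simp_rw [h2]
      rw [Finset.sum_add_distrib, Finset.sum_ite_eq' Finset.univ (fun _ => false)]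
      simp only [Finset.mem_univ, if_true, Psi]
      ring
    simp_rw [h1]
    have hYx : Y x = ∑ i : Fin M, (Psi (fun p => x (idx i p)) : ℝ) / (2 ^ (j * (K + 1))) := by
      simp only [hY]
      rw [Finset.sum_div]
    rw [Finset.sum_add_distrib, Finset.sum_add_distrib, ← Finset.mul_sum, hYx]
    simp [hX]
  refine ⟨_, inferInstance, inferInstance, _, e₀, out, hfin, fun x b => ?_⟩
  have hP : ∀ b, ∑ e : V (2 * j) × (Bool × Fin M),
      (if out e = b then ‖(FH j M * W x) e e₀‖ ^ 2 else 0) =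
      (4 * (M : ℝ))⁻¹ * (M + 2 * (sg b : ℝ) * Y x + X x) := by
    intro b
    rw [← hlaw, Fintype.sum_prod_type_right, Fintype.sum_prod_type, Finset.sum_eq_single b]
    · simp [hout]
    · intro b' _ hb'
      simp [hout, hb']
    · intro h; exact absurd (Finset.mem_univ _) h
  have htot : (4 * (M : ℝ))⁻¹ * (M + 2 * (sg true : ℝ) * Y x + X x) +
      (4 * (M : ℝ))⁻¹ * (M + 2 * (sg false : ℝ) * Y x + X x) = 1 := by
    have h1 := Samp.sum_eq_one (I := I) (T := K) (P := fun x b => ∑ e : V (2 * j) × (Bool × Fin M),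
      (open Classical in if out e = b then ‖(FH j M * W x) e e₀‖ ^ 2 else 0))
      ⟨_, inferInstance, inferInstance, _, e₀, out, hfin, fun x b =>
        Finset.sum_congr rfl fun e _ => by congr⟩ x
    rw [Fintype.sum_bool] at h1
    rw [← hP true, ← hP false]
    convert h1
  have hXM : X x = M := by
    simp only [sg] at htot
    field_simp at htot
    push_cast at htot
    simp at htot
    linarith
  have hP' := hP b
  rw [hXM] at hP'
  have hgoal : (1 + (sg b : ℝ) * ((∑ i : Fin M, (Psi (fun p => x (idx i p)) : ℝ))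
        / (M * 2 ^ (j * (K + 1))))) / 2 = (4 * (M : ℝ))⁻¹ * (M + 2 * (sg b : ℝ) * Y x + M) := by
    rw [hY]
    field_simp
    ring
  simp only
  rw [hgoal, ← hP']
  exact Finset.sum_congr rfl fun e _ => by congr

end Crest.Agent.R350
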