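import Crest.Agent.R350.QBind
import Crest.Agent.R350.QHad

/-!
# Row 350, piece EAddr: computing the address of a column

For `l : Fin L` the `l`-th bit is decided by the majority of `t₀` independent Hadamard tests (`Samp.hadamardTest` for
`idx l : Fin M → Fin K × V (2j) → I`, cost `K` each): answer `false` if at least half of the outcomes are `false`
(outcome `false` = sign `+`), `true` otherwise.  Cost `L * (t₀ * K)`.
-/

set_option autoImplicit false

namespace Crest.Agent.R350

variable {I : Type}

namespace EAddrAux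

/-- real sign of a bit -/
noncomputable def sr (b : Bool) : ℝ := (sg b : ℝ)

theorem sr_false : sr false = 1 := by simp [sr, sg]
theorem sr_true : sr true = -1 := by simp [sr, sg]

theorem sum_cons {n : ℕ} (g : (Fin (n + 1) → Bool) → ℝ) :
    ∑ w, g w = ∑ b : Bool, ∑ w : Fin n → Bool, g (Fin.cons b w) := by
  rw [← Fintype.sum_prod_type']
  exact (Fintype.sum_equiv (Fin.consEquiv (fun _ => Bool)) _ _ (fun _ => rfl)).symm

/-- total mass, first and second moments of a sum of independent signs -/
theorem moments (p : Bool → ℝ) (hp : p false + p true = 1) (f : Bool → ℝ)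
    (hf : p false * f false + p true * f true = 0) (n : ℕ) :
    (∑ w : Fin n → Bool, ∏ a, p (w a)) = 1 ∧
    (∑ w : Fin n → Bool, (∏ a, p (w a)) * ∑ a, f (w a)) = 0 ∧
    (∑ w : Fin n → Bool, (∏ a, p (w a)) * (∑ a, f (w a)) ^ 2) =
      n * (p false * f false ^ 2 + p true * f true ^ 2) := by
  induction n with
  | zero => simp
  | succ n ih =>
    obtain ⟨h1, h2, h3⟩ := ih
    refine ⟨?_, ?_, ?_⟩
    · rw [sum_cons]
      simp only [Fin.prod_univ_succ, Fin.cons_zero, Fin.cons_succ, ← Finset.mul_sum, h1,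
        Fintype.sum_bool]
      linarith
    · rw [sum_cons]
      simp only [Fin.prod_univ_succ, Fin.sum_univ_succ, Fin.cons_zero, Fin.cons_succ]
      have e : ∀ b, ∑ w : Fin n → Bool, p b * (∏ a, p (w a)) * (f b + ∑ a, f (w a)) =
          p b * f b := by
        intro b
        have : ∀ w : Fin n → Bool, p b * (∏ a, p (w a)) * (f b + ∑ a, f (w a)) =
            p b * f b * (∏ a, p (w a)) + p b * ((∏ a, p (w a)) * ∑ a, f (w a)) := by
          intro w; ring
        simp only [this, Finset.sum_add_distrib, ← Finset.mul_sum, h1, h2]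
        ring
      simp only [e, Fintype.sum_bool]
      linarith
    · rw [sum_cons]
      simp only [Fin.prod_univ_succ, Fin.sum_univ_succ, Fin.cons_zero, Fin.cons_succ]
      have e : ∀ b, ∑ w : Fin n → Bool, p b * (∏ a, p (w a)) * (f b + ∑ a, f (w a)) ^ 2 =
          p b * f b ^ 2 + p b * (n * (p false * f false ^ 2 + p true * f true ^ 2)) := by
        intro b
        have : ∀ w : Fin n → Bool, p b * (∏ a, p (w a)) * (f b + ∑ a, f (w a)) ^ 2 =
            p b * f b ^ 2 * (∏ a, p (w a)) + 2 * (p b * f b) * ((∏ a, p (w a)) * ∑ a, f (w a)) +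
              p b * ((∏ a, p (w a)) * (∑ a, f (w a)) ^ 2) := by
          intro w; ring
        simp only [this, Finset.sum_add_distrib, ← Finset.mul_sum, h1, h2, h3]
        ring
      simp only [e, Fintype.sum_bool]
      push_cast
      have hp' : p true = 1 - p false := by linarith
      rw [hp']
      ring

/-- the majority, ties answered `false` -/
noncomputable def maj {n : ℕ} (w : Fin n → Bool) : Bool :=
  if 0 ≤ ∑ a, sr (w a) then false else true

/-- Chebyshev -/
theorem maj_wrong (p : Bool → ℝ) (hp0 : ∀ b, 0 ≤ p b) (hp : p false + p true = 1) (r : Bool)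
    (θ : ℝ) (hθ : 0 < θ) (hm : θ ≤ sr r * (p false - p true)) (n : ℕ) (hn : 0 < n) :
    (∑ w : Fin n → Bool, if maj w = r then 0 else ∏ a, p (w a)) ≤ 1 / (n * θ ^ 2) := by
  set m := p false - p true with hmdef
  have hn' : (0 : ℝ) < n := by exact_mod_cast hn
  have hmom := (moments p hp (fun b => sr b - m) (by
    simp only [sr_false, sr_true]
    have hp' : p true = 1 - p false := by linarith
    rw [hmdef, hp']; ring) n).2.2
  have hvar : p false * (sr false - m) ^ 2 + p true * (sr true - m) ^ 2 ≤ 1 := by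
    simp only [sr_false, sr_true]
    have hp' : p true = 1 - p false := by linarith
    rw [hmdef, hp']
    nlinarith [sq_nonneg (2 * p false - 1)]
  have hkey : ∀ w : Fin n → Bool, (n * θ) ^ 2 * (if maj w = r then 0 else ∏ a, p (w a)) ≤
      (∏ a, p (w a)) * (∑ a, (sr (w a) - m)) ^ 2 := by
    intro w
    have hprod : 0 ≤ ∏ a, p (w a) := Finset.prod_nonneg fun a _ => hp0 _
    split_ifs with h
    · rw [mul_zero]; positivity
    · rw [mul_comm]
      refine mul_le_mul_of_nonneg_left ?_ hprod
      rw [Finset.sum_sub_distrib, Finset.sum_const, Finset.card_univ, Fintype.card_fin,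
        nsmul_eq_mul]
      have hsq : ∀ y : ℝ, n * θ ≤ -(sr r) * (y - n * m) → (n * θ) ^ 2 ≤ (y - n * m) ^ 2 := by
        intro y hy
        have h1 : (-(sr r) * (y - n * m)) ^ 2 = (y - n * m) ^ 2 := by
          cases r
          · rw [sr_false]; ring
          · rw [sr_true]; ring
        rw [← h1]
        exact pow_le_pow_left₀ (by positivity) hy 2
      apply hsq
      have h2 : sr r * ∑ a, sr (w a) ≤ 0 := by
        unfold maj at h
        cases r
        · rw [sr_false]
          split_ifs at h with h'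
          · exact absurd rfl h
          · linarith
        · rw [sr_true]
          split_ifs at h with h'
          · linarith
          · exact absurd rfl h
      have h3 : n * θ ≤ n * (sr r * m) := mul_le_mul_of_nonneg_left hm hn'.le
      linarith
  have hsum : (n * θ) ^ 2 * (∑ w : Fin n → Bool, if maj w = r then 0 else ∏ a, p (w a)) ≤ n := by
    rw [Finset.mul_sum]
    refine (Finset.sum_le_sum fun w _ => hkey w).trans ?_
    rw [hmom]
    calc (n : ℝ) * _ ≤ n * 1 := mul_le_mul_of_nonneg_left hvar hn'.le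
      _ = n := mul_one _
  rw [le_div_iff₀ (by positivity)]
  have h4 : (n * θ) ^ 2 = n * (n * θ ^ 2) := by ring
  rw [h4, mul_assoc] at hsum
  have h5 := le_of_mul_le_mul_left (b := (n * θ ^ 2) *
    (∑ w : Fin n → Bool, if maj w = r then 0 else ∏ a, p (w a))) (c := 1) (a := (n : ℝ))
    (by linarith) hn'
  linarith

theorem maj_right (p : Bool → ℝ) (hp0 : ∀ b, 0 ≤ p b) (hp : p false + p true = 1) (r : Bool)
    (θ : ℝ) (hθ : 0 < θ) (hm : θ ≤ sr r * (p false - p true)) (n : ℕ) (hn : 0 < n) :
    1 - 1 / (n * θ ^ 2) ≤ (∑ w : Fin n → Bool, if maj w = r then ∏ a, p (w a) else 0) := by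
  have h1 := maj_wrong p hp0 hp r θ hθ hm n hn
  have h2 := (moments p hp (fun _ => 0) (by ring) n).1
  have h3 : (∑ w : Fin n → Bool, if maj w = r then ∏ a, p (w a) else 0) +
      (∑ w : Fin n → Bool, if maj w = r then 0 else ∏ a, p (w a)) = 1 := by
    rw [← h2, ← Finset.sum_add_distrib]
    refine Finset.sum_congr rfl fun w _ => ?_
    split_ifs <;> ring
  linarith

end EAddrAux

open EAddrAux

theorem Samp.address {j K M L : ℕ} (hM : 1 ≤ M) (hK : 1 ≤ K) (hL : 1 ≤ L) (θ : ℝ) (hθ : 0 < θ)
    (t₀ : ℕ) (ht₀ : 10 * (L : ℝ) / θ ^ 2 ≤ t₀)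
    (idx : Fin L → Fin M → Fin K × V (2 * j) → I) :
    ∃ P : (I → Bool) → (Fin L → Bool) → ℝ, Samp I (L * (t₀ * K)) P ∧
      ∀ x (r : Fin L → Bool),
        (∀ l, θ * (M * 2 ^ (j * (K + 1))) ≤
          (sg (r l) : ℝ) * ∑ i : Fin M, (Psi (fun p => x (idx l i p)) : ℝ)) →
        9 / 10 ≤ P x r := by
  classical
  set D : ℝ := M * 2 ^ (j * (K + 1)) with hD
  have hDpos : 0 < D := by
    have : (1 : ℝ) ≤ M := by exact_mod_cast hM
    positivity
  have hLpos : (0 : ℝ) < L := by exact_mod_cast hL
  have ht₀pos : (0 : ℝ) < t₀ := lt_of_lt_of_le (by positivity) ht₀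
  have ht₀pos' : 0 < t₀ := by exact_mod_cast ht₀pos
  let h : Fin L → (I → Bool) → Bool → ℝ := fun l x b =>
    (1 + (sg b : ℝ) * ((∑ i : Fin M, (Psi (fun p => x (idx l i p)) : ℝ))
        / (M * 2 ^ (j * (K + 1))))) / 2
  have hh : ∀ l, Samp I K (h l) := fun l => Samp.hadamardTest hM hK (idx l)
  have hrep : ∀ l, Samp I (t₀ * K) (fun x (w : Fin t₀ → Bool) => ∏ a, h l x (w a)) :=
    fun l => Samp.repeat (hh l) t₀
  have hmap := fun l => Samp.map (hrep l) (maj : (Fin t₀ → Bool) → Bool)
  have hpi := Samp.pi L hmap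
  refine ⟨_, hpi, ?_⟩
  intro x r hr
  have hbound : ∀ l, 1 - 1 / (10 * (L : ℝ)) ≤
      ∑ w : Fin t₀ → Bool, if maj w = r l then ∏ a, h l x (w a) else 0 := by
    intro l
    have h1 := maj_right (h l x) (fun b => (hh l).nonneg x b)
      (by simp only [h, sg]; push_cast; simp; ring) (r l) θ hθ (by
        have h2 := hr l
        have h3 : h l x false - h l x true =
            (∑ i : Fin M, (Psi (fun p => x (idx l i p)) : ℝ)) / D := by
          simp only [h, sg, hD]; push_cast; simp; ring
        rw [h3, ← mul_div_assoc, le_div_iff₀ hDpos]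
        exact h2) t₀ ht₀pos'
    refine le_trans ?_ h1
    have h4 : 10 * (L : ℝ) ≤ t₀ * θ ^ 2 := by
      rw [div_le_iff₀ (by positivity)] at ht₀
      exact ht₀
    have h5 : 1 / (t₀ * θ ^ 2) ≤ 1 / (10 * (L : ℝ)) :=
      one_div_le_one_div_of_le (by positivity) h4
    linarith
  have key : (9 / 10 : ℝ) ≤
      ∏ l : Fin L, ∑ w : Fin t₀ → Bool, (if maj w = r l then ∏ a, h l x (w a) else 0) := by
   calc (9 / 10 : ℝ) = 1 + (L : ℝ) * (-(1 / (10 * (L : ℝ)))) := by field_simp; norm_num
    _ ≤ (1 + -(1 / (10 * (L : ℝ)))) ^ L := by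
        apply one_add_mul_le_pow
        have : 1 / (10 * (L : ℝ)) ≤ 1 := by
          rw [div_le_one (by positivity)]
          have : (1 : ℝ) ≤ L := by exact_mod_cast hL
          linarith
        linarith
    _ = ∏ _l : Fin L, (1 - 1 / (10 * (L : ℝ))) := by
        rw [Finset.prod_const, Finset.card_univ, Fintype.card_fin]; ring
    _ ≤ ∏ l : Fin L, ∑ w : Fin t₀ → Bool, (if maj w = r l then ∏ a, h l x (w a) else 0) := by
        refine Finset.prod_le_prod (fun l _ => ?_) (fun l _ => hbound l)
        have : 1 / (10 * (L : ℝ)) ≤ 1 := by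
          rw [div_le_one (by positivity)]
          have : (1 : ℝ) ≤ L := by exact_mod_cast hL
          linarith
        linarith
  convert key

end Crest.Agent.R350
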