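import Crest.Agent.R350.ERound

/-!
# Row 350, piece ELoop: the elimination algorithm

Input: `addr c` samplers, `kill r c` decision trees.  Output: the address `r*` of the special column `b` with probability `≥ 1/20`.

PROOF.  For a history `h : List R` let `memT h c : RTree I Bool` be the tree that evaluates `kill r c` for `r ∈ h` one after the
other and answers `true` iff all are `false` (depth `≤ h.length * d`); `U_h = treeSet (memT h) x`.
`final h`: `c ←` `Samp.sampleU (memT h)` with `J = 2^(a+1)`; if `some c`: `r ← addr c`, announce `some r`; else `none`.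
`loop 0 h = final h`;  `loop (i+1) h`: run `Samp.round` with `memT h`; if it announces `some (c, r)` continue with
`loop i (r :: h)`, if `none` continue with `loop i h`.  The algorithm is `loop (2a) []`.
History length `≤ 2a`, so `T ≤ 2 a d` always (pad all samplers to the same cost).

ANALYSIS for an input with `b, r*`: for every history `b ∈ U_h` (nobody kills `b`), and `killFrac (b, r*) = 1` because `r*` kills
every `c' ≠ b` (and `c' = b` is counted).
Claim: if `|U_h| < 4 * 2^i` then `P(loop i h announces r*) ≥ (3/40) (1 - i/(20(a+1)))`.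
 * `i = 0`: `|U_h| ≤ 3`, `4 * 4^a ≤ (2^(a+1))² |U_h|`, so `final` gives `c = b` with probability `≥ (1/4)/3` and then `r*`
   with probability `≥ 9/10`: total `≥ 3/40`.
 * step: if `|U_h| < 4`: every outcome leads to a history with `|U_{h'}| ≤ |U_h| < 4 ≤ 4 * 2^i`.
   If `|U_h| ≥ 4`: with probability `≥ 1 - 1/(20(a+1))` the round announces `(c, r)` with `killFrac > 3/4`; then the number of
   killed elements of `U_h` is `> (3/4)|U_h| - 1 ≥ |U_h|/2`, so `|U_{r::h}| < |U_h|/2 < 4 * 2^i / ...` (`|U_h| < 4 * 2^(i+1)`).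
For `h = []`, `U = C`, `|C| = 4^a < 4 * 2^(2a)`: total `≥ (3/40)(1 - 2a/(20(a+1))) ≥ 1/20`.
-/

set_option autoImplicit false

namespace Crest.Agent.R350

namespace ELoopAux

variable {I : Type} {C R : Type}

/-- evaluate `t`; if it answers `true` answer `false`, otherwise evaluate `s`. -/
def graft (t s : RTree I Bool) : RTree I Bool :=
  match t with
  | .leaf b => if b then .leaf false else s
  | .node i t₀ t₁ => .node i (graft t₀ s) (graft t₁ s)

theorem graft_eval (t s : RTree I Bool) (x : I → Bool) :
    (graft t s).eval x = (!(t.eval x) && s.eval x) := by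
  induction t with
  | leaf b => cases b <;> simp [graft, RTree.eval]
  | node i t₀ t₁ ih₀ ih₁ =>
    simp only [graft, RTree.eval]
    by_cases h : x i = true
    · simp only [h, if_true, ih₁]
    · simp only [h, if_false, ih₀]
      simp

theorem graft_depth (t s : RTree I Bool) : (graft t s).depth ≤ t.depth + s.depth := by
  induction t with
  | leaf b => cases b <;> simp [graft, RTree.depth]
  | node i t₀ t₁ ih₀ ih₁ =>
    simp only [graft, RTree.depth]
    omega

/-- the membership tree of a history -/
def memT (kill : R → C → RTree I Bool) : List R → C → RTree I Bool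
  | [], _ => .leaf true
  | r :: h, c => graft (kill r c) (memT kill h c)

theorem memT_eval (kill : R → C → RTree I Bool) (h : List R) (c : C) (x : I → Bool) :
    (memT kill h c).eval x = true ↔ ∀ r ∈ h, (kill r c).eval x = false := by
  induction h with
  | nil => simp [memT, RTree.eval]
  | cons r h ih =>
    simp only [memT, graft_eval, Bool.and_eq_true, ih, List.mem_cons, forall_eq_or_imp]
    simp

theorem memT_depth (kill : R → C → RTree I Bool) {d : ℕ} (hk : ∀ r c, (kill r c).depth ≤ d)
    (h : List R) (c : C) : (memT kill h c).depth ≤ h.length * d := by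
  induction h with
  | nil => simp [memT, RTree.depth]
  | cons r h ih =>
    simp only [memT, List.length_cons]
    have h1 := graft_depth (kill r c) (memT kill h c)
    have h2 := hk r c
    calc _ ≤ _ := h1
      _ ≤ d + h.length * d := add_le_add h2 ih
      _ = (h.length + 1) * d := by ring

theorem mem_treeSet [Fintype C] (mem : C → RTree I Bool) (x : I → Bool) (c : C) :
    c ∈ treeSet mem x ↔ (mem c).eval x = true := by
  classical
  simp [treeSet]

theorem bindMap {T T' : ℕ} {Ω Ω' : Type} [Fintype Ω] [Fintype Ω'] {P : (I → Bool) → Ω → ℝ}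
    (h : Samp I T P) {Q : Ω → (I → Bool) → Ω' → ℝ} (hQ : ∀ ω, Samp I T' (Q ω)) :
    Samp I (T + T') (fun x ω' => ∑ ω, P x ω * Q ω x ω') := by
  classical
  have hm := Samp.map (Samp.bind h hQ) (fun w => w.2)
  convert hm using 3 with x ω'
  rw [Fintype.sum_prod_type]
  refine Finset.sum_congr rfl fun ω _ => ?_
  simp

theorem loop [Fintype C] [Nonempty C] [Fintype R] (C₁ : ℕ) (a : ℕ) (hC : Fintype.card C = 4 ^ a)
    {Ta d : ℕ} (addr : C → (I → Bool) → R → ℝ) (haddr : ∀ c, Samp I Ta (addr c))
    (kill : R → C → RTree I Bool) (hk : ∀ r c, (kill r c).depth ≤ d)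
    (hround : ∀ (mem : C → RTree I Bool) (_ : ∀ c, (mem c).depth ≤ 2 * a * d),
      ∃ P' : (I → Bool) → Option (C × R) → ℝ,
      Samp I (C₁ * 2 ^ a * (a + 1) ^ 4 * (2 * a * d + Ta + d + 1)) P' ∧
      ∀ x, (∃ b ∈ treeSet mem x, ∃ r, 9 / 10 ≤ addr b x r ∧ killFrac mem kill x b r = 1) →
        1 - 1 / (20 * ((a : ℝ) + 1)) ≤
          ∑ w : C × R, (open Classical in
            if 3 / 4 < killFrac mem kill x w.1 w.2 then P' x (some w) else 0))
    (i : ℕ) : ∀ h : List R, h.length + i ≤ 2 * a →
    ∃ P : (I → Bool) → Option R → ℝ,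
      Samp I (i * (C₁ * 2 ^ a * (a + 1) ^ 4 * (2 * a * d + Ta + d + 1)) +
        (2 * 2 ^ (a + 1) * (2 * a * d) + Ta)) P ∧
      ∀ x (b : C) (r : R), 9 / 10 ≤ addr b x r →
        (∀ c, c ≠ b → (kill r c).eval x = true) →
        (∀ r', (kill r' b).eval x = false) →
        (treeSet (memT kill h) x).card < 4 * 2 ^ i →
        3 / 40 * (1 - i / (20 * ((a : ℝ) + 1))) ≤ P x (some r) := by
  classical
  induction i with
  | zero =>
    intro h hh
    have hdep : ∀ c, (memT kill h c).depth ≤ 2 * a * d := fun c =>
      (memT_depth kill hk h c).trans (Nat.mul_le_mul_right d (by omega))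
    obtain ⟨P', hP', hP⟩ := Samp.sampleU (memT kill h) hdep (2 ^ (a + 1)) (Nat.one_le_two_pow)
    have hQ : ∀ o : Option C, ∃ Q : (I → Bool) → Option R → ℝ, Samp I Ta Q ∧
        ∀ c, o = some c → ∀ x r, Q x (some r) = addr c x r := by
      intro o
      cases o with
      | none =>
        refine ⟨_, (Samp.pure (I := I) (fun o : Option R => if o = none then (1 : ℝ) else 0)
          (fun o => by split_ifs <;> norm_num) (by simp)).mono (Nat.zero_le Ta), ?_⟩
        intro c hc
        cases hc
      | some c =>
        refine ⟨_, Samp.map (haddr c) some, ?_⟩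
        intro c' hc x r
        cases hc
        simp
    choose Q hQ1 hQ2 using hQ
    refine ⟨_, (bindMap hP' hQ1).mono (by omega), ?_⟩
    intro x b r h1 h2 h3 h4
    have hb : b ∈ treeSet (memT kill h) x := by
      rw [mem_treeSet, memT_eval]
      intro r' _
      exact h3 r'
    have hcard : 1 ≤ (treeSet (memT kill h) x).card := Finset.card_pos.2 ⟨b, hb⟩
    obtain ⟨β, hβ0, hβ1, hβ2, hβ3⟩ := hP x
    have hcardR : (1 : ℝ) ≤ (treeSet (memT kill h) x).card := by exact_mod_cast hcard
    have hcard3 : ((treeSet (memT kill h) x).card : ℝ) ≤ 3 := by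
      have : (treeSet (memT kill h) x).card ≤ 3 := by
        have := h4
        simp at this
        omega
      exact_mod_cast this
    have hβ4 : 1 / 4 ≤ β := by
      apply hβ3
      rw [hC]
      push_cast
      have e : ((2 : ℝ) ^ (a + 1)) ^ 2 = 4 * 4 ^ a := by
        rw [← pow_mul, mul_comm (a + 1) 2, pow_mul, pow_succ]
        norm_num
        ring
      rw [e]
      have : (0 : ℝ) ≤ 4 * 4 ^ a := by positivity
      nlinarith
    have hterm : P' x (some b) * Q (some b) x (some r) ≤
        ∑ o, P' x o * Q o x (some r) :=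
      Finset.single_le_sum (f := fun o => P' x o * Q o x (some r))
        (fun o _ => mul_nonneg (hP'.nonneg x o) ((hQ1 o).nonneg x _)) (Finset.mem_univ _)
    refine le_trans ?_ hterm
    rw [hQ2 (some b) b rfl, hβ2, if_pos hb]
    have h5 : 1 / 12 ≤ β / (treeSet (memT kill h) x).card := by
      rw [le_div_iff₀ (by linarith)]
      linarith
    have h6 : (3 : ℝ) / 40 = 1 / 12 * (9 / 10) := by norm_num
    simp only [CharP.cast_eq_zero, zero_div, sub_zero, mul_one]
    rw [h6]
    exact mul_le_mul h5 h1 (by norm_num) (by linarith)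
  | succ i ih =>
    intro h hh
    have hdep : ∀ c, (memT kill h c).depth ≤ 2 * a * d := fun c =>
      (memT_depth kill hk h c).trans (Nat.mul_le_mul_right d (by omega))
    obtain ⟨P', hP', hP⟩ := hround (memT kill h) hdep
    have hQ : ∀ o : Option (C × R), ∃ Q : (I → Bool) → Option R → ℝ,
        Samp I (i * (C₁ * 2 ^ a * (a + 1) ^ 4 * (2 * a * d + Ta + d + 1)) +
          (2 * 2 ^ (a + 1) * (2 * a * d) + Ta)) Q ∧
        ∀ x (b : C) (r : R), 9 / 10 ≤ addr b x r →
        (∀ c, c ≠ b → (kill r c).eval x = true) →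
        (∀ r', (kill r' b).eval x = false) →
        (treeSet (memT kill (o.elim h (fun w => w.2 :: h))) x).card < 4 * 2 ^ i →
        3 / 40 * (1 - i / (20 * ((a : ℝ) + 1))) ≤ Q x (some r) := by
      intro o
      apply ih
      cases o with
      | none => simp only [Option.elim_none]; omega
      | some w => simp only [Option.elim_some, List.length_cons]; omega
    choose Q hQ1 hQ2 using hQ
    refine ⟨_, (bindMap hP' hQ1).mono (le_of_eq (by ring)), ?_⟩
    intro x b r h1 h2 h3 h4
    set U := treeSet (memT kill h) x with hU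
    have hb : b ∈ U := by
      rw [hU, mem_treeSet, memT_eval]
      intro r' _
      exact h3 r'
    set ε : ℝ := 1 / (20 * ((a : ℝ) + 1)) with hε
    have ha : (0 : ℝ) < 20 * ((a : ℝ) + 1) := by positivity
    have hεpos : 0 < ε := by positivity
    have hiε : (i : ℝ) * ε ≤ 1 := by
      rw [hε, mul_one_div, div_le_one ha]
      have : (i : ℝ) ≤ 2 * a := by
        have : i ≤ 2 * a := by omega
        exact_mod_cast this
      have ha0 : (0 : ℝ) ≤ a := Nat.cast_nonneg a
      linarith
    set q : ℝ := 3 / 40 * (1 - i / (20 * ((a : ℝ) + 1))) with hq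
    have hq' : q = 3 / 40 * (1 - i * ε) := by
      rw [hq, hε]; ring
    have hq0 : 0 ≤ q := by rw [hq']; nlinarith
    have hgoal : 3 / 40 * (1 - ((i + 1 : ℕ) : ℝ) / (20 * ((a : ℝ) + 1))) =
        3 / 40 * (1 - i * ε) - 3 / 40 * ε := by
      rw [hε]; push_cast; ring
    rw [hgoal]
    -- good outcomes
    have hsum : ∀ p : Option (C × R) → Prop,
        (∀ o, p o → (treeSet (memT kill (o.elim h (fun w => w.2 :: h))) x).card < 4 * 2 ^ i) →
        q * (∑ o, if p o then P' x o else 0) ≤ ∑ o, P' x o * Q o x (some r) := by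
      intro p hp
      rw [Finset.mul_sum]
      refine Finset.sum_le_sum fun o _ => ?_
      split_ifs with hpo
      · rw [mul_comm]
        exact mul_le_mul_of_nonneg_left (hQ2 o x b r h1 h2 h3 (hp o hpo)) (hP'.nonneg x o)
      · rw [mul_zero]
        exact mul_nonneg (hP'.nonneg x o) ((hQ1 o).nonneg x _)
    by_cases hc4 : U.card < 4
    · have h5 := hsum (fun _ => True) (fun o _ => by
        have hsub : treeSet (memT kill (o.elim h (fun w => w.2 :: h))) x ⊆ U := by
          intro c hc
          rw [mem_treeSet, memT_eval] at hc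
          rw [hU, mem_treeSet, memT_eval]
          intro r' hr'
          apply hc
          cases o with
          | none => exact hr'
          | some w => exact List.mem_cons_of_mem _ hr'
        have h6 := Finset.card_le_card hsub
        have h7 : 1 ≤ 2 ^ i := Nat.one_le_two_pow
        omega)
      simp only [if_true] at h5
      rw [hP'.sum_eq_one x, mul_one] at h5
      linarith [mul_pos (show (0 : ℝ) < 3 / 40 by norm_num) hεpos]
    · have hUpos : (0 : ℝ) < U.card := by
        have : 0 < U.card := by omega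
        exact_mod_cast this
      have hkf : killFrac (memT kill h) kill x b r = 1 := by
        unfold killFrac
        rw [← hU]
        rw [Finset.filter_true_of_mem (s := U), div_self hUpos.ne']
        intro c _
        by_cases hcb : c = b
        · exact Or.inl hcb
        · exact Or.inr (h2 c hcb)
      have h5 := hP x ⟨b, hb, r, h1, hkf⟩
      have h6 := hsum (fun o => ∃ w, o = some w ∧ 3 / 4 < killFrac (memT kill h) kill x w.1 w.2) (by
        rintro o ⟨w, rfl, hw⟩
        simp only [Option.elim_some]
        unfold killFrac at hw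
        rw [← hU, lt_div_iff₀ hUpos] at hw
        -- killed elements
        set K := U.filter (fun c' => (kill w.2 c').eval x = true) with hK
        have hle : (U.filter (fun c' => c' = w.1 ∨ (kill w.2 c').eval x = true)).card ≤
            K.card + 1 := by
          have hsub : U.filter (fun c' => c' = w.1 ∨ (kill w.2 c').eval x = true) ⊆
              insert w.1 K := by
            intro c' hc'
            rw [Finset.mem_filter] at hc'
            rw [Finset.mem_insert, hK, Finset.mem_filter]
            rcases hc'.2 with h7 | h7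
            · exact Or.inl h7
            · exact Or.inr ⟨hc'.1, h7⟩
          exact (Finset.card_le_card hsub).trans (Finset.card_insert_le _ _)
        have hnew : treeSet (memT kill (w.2 :: h)) x ⊆ U \ K := by
          intro c hc
          rw [mem_treeSet, memT_eval] at hc
          rw [Finset.mem_sdiff, hK, Finset.mem_filter, hU, mem_treeSet, memT_eval]
          refine ⟨fun r' hr' => hc r' (List.mem_cons_of_mem _ hr'), ?_⟩
          rintro ⟨_, h8⟩
          rw [hc w.2 List.mem_cons_self] at h8
          cases h8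
        have hcn := Finset.card_le_card hnew
        have hKU : K ⊆ U := Finset.filter_subset _ _
        rw [Finset.card_sdiff_of_subset hKU] at hcn
        have h9 : (3 / 4 : ℝ) * U.card < K.card + 1 := by
          refine hw.trans_le ?_
          exact_mod_cast hle
        have h10 : 3 * U.card < 4 * (K.card + 1) := by
          have : (3 : ℝ) * U.card < 4 * (K.card + 1) := by linarith
          exact_mod_cast this
        rw [pow_succ] at h4
        omega)
      have h7 : (∑ w : C × R, (if 3 / 4 < killFrac (memT kill h) kill x w.1 w.2 then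
          P' x (some w) else 0)) =
          ∑ o, (if ∃ w, o = some w ∧ 3 / 4 < killFrac (memT kill h) kill x w.1 w.2 then
            P' x o else 0) := by
        rw [Fintype.sum_option]
        simp
      replace h6 : q * (∑ w : C × R, (if 3 / 4 < killFrac (memT kill h) kill x w.1 w.2 then
          P' x (some w) else 0)) ≤ ∑ o, P' x o * Q o x (some r) := by
        rw [h7]
        convert h6
      have h8 : q * (1 - ε) ≤ q * (∑ w : C × R,
          (if 3 / 4 < killFrac (memT kill h) kill x w.1 w.2 then P' x (some w) else 0)) :=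
        mul_le_mul_of_nonneg_left h5 hq0
      refine le_trans ?_ (h8.trans h6)
      rw [hq']
      have hi0 : (0 : ℝ) ≤ i := Nat.cast_nonneg i
      nlinarith [mul_nonneg hi0 (mul_pos hεpos hεpos).le]

end ELoopAux

open ELoopAux

theorem Samp.eliminate : ∃ C₀ : ℕ, ∀ {I : Type} {C R : Type} [Fintype C] [Nonempty C] [Fintype R]
    (a : ℕ) (_ : Fintype.card C = 4 ^ a) {Ta d : ℕ}
    (addr : C → (I → Bool) → R → ℝ) (_ : ∀ c, Samp I Ta (addr c))
    (kill : R → C → RTree I Bool) (_ : ∀ r c, (kill r c).depth ≤ d),
    ∃ P : (I → Bool) → Option R → ℝ,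
      Samp I (C₀ * 2 ^ a * (a + 1) ^ 6 * (Ta + d + 1)) P ∧
      ∀ x (b : C) (r : R), 9 / 10 ≤ addr b x r →
        (∀ c, c ≠ b → (kill r c).eval x = true) →
        (∀ r', (kill r' b).eval x = false) →
        1 / 20 ≤ P x (some r) := by
  classical
  obtain ⟨C₁, hC₁⟩ := Samp.round
  refine ⟨4 * C₁ + 9, ?_⟩
  intro I C R _ _ _ a hC Ta d addr haddr kill hk
  obtain ⟨P, hP1, hP2⟩ := loop C₁ a hC addr haddr kill hk
    (fun mem hmem => hC₁ a hC mem hmem addr haddr kill hk) (2 * a) [] (by simp)
  refine ⟨P, hP1.mono ?_, ?_⟩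
  · have h1 : 2 * a * d + Ta + d + 1 ≤ 2 * (a + 1) * (Ta + d + 1) := by nlinarith
    have h2 : 2 * a * (C₁ * 2 ^ a * (a + 1) ^ 4 * (2 * a * d + Ta + d + 1)) ≤
        4 * C₁ * 2 ^ a * (a + 1) ^ 6 * (Ta + d + 1) := by
      calc 2 * a * (C₁ * 2 ^ a * (a + 1) ^ 4 * (2 * a * d + Ta + d + 1))
          ≤ 2 * (a + 1) * (C₁ * 2 ^ a * (a + 1) ^ 4 * (2 * (a + 1) * (Ta + d + 1))) := by
            gcongr
            omega
        _ = 4 * C₁ * 2 ^ a * (a + 1) ^ 6 * (Ta + d + 1) := by ring
    have h3 : 2 * 2 ^ (a + 1) * (2 * a * d) + Ta ≤ 9 * 2 ^ a * (a + 1) ^ 6 * (Ta + d + 1) := by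
      have h4 : 2 * 2 ^ (a + 1) * (2 * a * d) = 8 * (2 ^ a * (a * d)) := by ring
      have h5 : a * d ≤ (a + 1) ^ 6 * (Ta + d + 1) := by
        calc a * d ≤ (a + 1) * (Ta + d + 1) := Nat.mul_le_mul (by omega) (by omega)
          _ ≤ (a + 1) ^ 6 * (Ta + d + 1) := by
            refine Nat.mul_le_mul_right _ ?_
            exact Nat.le_self_pow (by norm_num) _
      have h6 : 2 ^ a * (a * d) ≤ 2 ^ a * ((a + 1) ^ 6 * (Ta + d + 1)) := Nat.mul_le_mul_left _ h5
      have h7 : Ta ≤ 2 ^ a * ((a + 1) ^ 6 * (Ta + d + 1)) := by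
        calc Ta ≤ 1 * (1 * (Ta + d + 1)) := by omega
          _ ≤ 2 ^ a * ((a + 1) ^ 6 * (Ta + d + 1)) := by
            refine Nat.mul_le_mul Nat.one_le_two_pow (Nat.mul_le_mul_right _ ?_)
            exact Nat.one_le_pow _ _ (by omega)
      rw [h4]
      calc 8 * (2 ^ a * (a * d)) + Ta ≤ 8 * (2 ^ a * ((a + 1) ^ 6 * (Ta + d + 1))) +
            2 ^ a * ((a + 1) ^ 6 * (Ta + d + 1)) := by omega
        _ = 9 * 2 ^ a * (a + 1) ^ 6 * (Ta + d + 1) := by ring
    calc _ ≤ 4 * C₁ * 2 ^ a * (a + 1) ^ 6 * (Ta + d + 1) +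
          9 * 2 ^ a * (a + 1) ^ 6 * (Ta + d + 1) := add_le_add h2 h3
      _ = (4 * C₁ + 9) * 2 ^ a * (a + 1) ^ 6 * (Ta + d + 1) := by ring
  · intro x b r h1 h2 h3
    have h4 := hP2 x b r h1 h2 h3 (by
      have h5 : (treeSet (memT kill []) x).card ≤ Fintype.card C := Finset.card_le_univ _
      rw [hC] at h5
      have h6 : 2 ^ (2 * a) = 4 ^ a := by rw [pow_mul]; norm_num
      rw [h6]
      have : 0 < 4 ^ a := by positivity
      omega)
    refine le_trans ?_ h4
    have ha : (0 : ℝ) < 20 * ((a : ℝ) + 1) := by positivity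
    have h5 : ((2 * a : ℕ) : ℝ) / (20 * ((a : ℝ) + 1)) ≤ 1 / 10 := by
      rw [div_le_iff₀ ha]
      push_cast
      linarith
    linarith

end Crest.Agent.R350
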