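import Crest.Agent.R350.EStep

/-!
# Row 350, piece ERound: one elimination round (all scales)

PROOF.  For `g ∈ {0, …, a+1}` run `Samp.step` with `J = 2^g`, `J' = 9 * 2^(a+1-g)`, `s = t = 40 (a+1)`, each one
`t'' = 20 (a+1)` times independently; announce the first result that is not `none` (or `none`).
(`hst`: `40 (a+1) (3/4)^{40(a+1)} ≤ 1/10`.)

Cost: `(a+2) * t'' * max_g cost_g`, `cost_g = 2 J' ((1+st)(2JT) + Ta + s d)`; since `J' J = 9 * 2^(a+1)` and `J' ≤ 9*2^(a+1)` it is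
`≤ C₁ 2^a (a+1)^2 * (T + Ta + d)` for each step and the total is `≤ C₀ 2^a (a+1)^4 (T + Ta + d + 1)`.

Let `U = treeSet mem x ≠ ∅`, `u = |U| ≤ 4^a`, and suppose `b ∈ U`, `r*` with `addr b x r* ≥ 9/10`, `killFrac b r* = 1`.
(i) WEAK outcomes: a pair `(c,r)` is weak if `killFrac ≤ 3/4`.  For every single run
    `P'(some weak) ≤ κ ∑_{c∈U,r} addr c x r (3/4)^s ≤ κ 4^a (3/4)^s` and `P'(some (b,r*)) ≥ κ 9/10`, and `P' ≤ 1` gives
    `κ ≤ 10/9`.  So `P'(weak) ≤ (10/9) 4^a (3/4)^s`.  Union bound over `(a+2) t''` runs.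
(ii) SUCCESS: let `g` be minimal with `4 * 4^a ≤ 4^g * u` (exists with `g ≤ a+1` as `u ≥ 1`; `g ≥ 1` as `u ≤ 4^a`).  Then
    `4^(g-1) u < 4^(a+1)`, so `20 u ≤ 80 * 4^(a+1-g) ≤ J'²`; hence each of the `t''` runs at scale `g` succeeds with
    probability `≥ 1/4`, and all fail with probability `≤ (3/4)^{t''}`.
So the announced result is `some (c,r)` with `killFrac > 3/4` except with probability
`≤ (3/4)^{20(a+1)} + (a+2) 20(a+1) (10/9) 4^a (3/4)^{40(a+1)} ≤ 1/(20 (a+1))`.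
Also every announced `some (c, r)` satisfies nothing else (no other property is needed).
-/

set_option autoImplicit false

namespace Crest.Agent.R350

variable {I : Type}

namespace ERoundAux

open Classical in
/-- announce the first result that is not `none` -/
theorem orElse {Ω : Type} [Fintype Ω] {T₁ T₂ : ℕ} {P₁ P₂ : (I → Bool) → Option Ω → ℝ}
    (h₁ : Samp I T₁ P₁) (h₂ : Samp I T₂ P₂) :
    ∃ Q : (I → Bool) → Option Ω → ℝ, Samp I (T₁ + T₂) Q ∧ ∀ x,
      Q x none = P₁ x none * P₂ x none ∧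
      ∀ ω, Q x (some ω) = P₁ x (some ω) + P₁ x none * P₂ x (some ω) := by
  have hb := Samp.bind h₁ (fun _ => h₂)
  have hm := Samp.map hb (fun w : Option Ω × Option Ω =>
    match w.1 with
    | some ω => some ω
    | none => w.2)
  refine ⟨_, hm, fun x => ⟨?_, fun ω => ?_⟩⟩
  · rw [Fintype.sum_prod_type, Fintype.sum_option]
    have h0 : ∀ ω : Ω, ∑ y : Option Ω, (if (some ω : Option Ω) = none then
        P₁ x (some ω) * P₂ x y else 0) = 0 := by
      intro ω; simp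
    simp
  · rw [Fintype.sum_prod_type, Fintype.sum_option]
    have hs := Samp.sum_eq_one h₂ x
    have h1 : ∀ ω₁ : Ω, ∑ y : Option Ω, (if (some ω₁ : Option Ω) = some ω then
        P₁ x (some ω₁) * P₂ x y else 0) = if ω₁ = ω then P₁ x (some ω₁) else 0 := by
      intro ω₁
      by_cases h : ω₁ = ω
      · subst h
        simp only [if_true]
        rw [← Finset.mul_sum, hs, mul_one]
      · simp [h]
    simp only [h1]
    simp
    ring

open Classical in
theorem iterOr {Ω : Type} [Fintype Ω] {K : ℕ} (P : ℕ → (I → Bool) → Option Ω → ℝ)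
    (h : ∀ k, Samp I K (P k)) (n : ℕ) :
    ∃ Q : (I → Bool) → Option Ω → ℝ, Samp I (n * K) Q ∧ ∀ x,
      Q x none = ∏ k ∈ Finset.range n, P k x none ∧
      ∀ W : Finset Ω, ∑ w ∈ W, Q x (some w) ≤
        ∑ k ∈ Finset.range n, ∑ w ∈ W, P k x (some w) := by
  induction n with
  | zero =>
    refine ⟨fun _ o => if o = none then 1 else 0, ?_, fun x => ⟨by simp, fun W => by simp⟩⟩
    rw [zero_mul]
    refine Samp.pure _ (fun ω => by split <;> norm_num) ?_
    simp
  | succ n ih =>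
    obtain ⟨Q, hQ, hQ2⟩ := ih
    obtain ⟨Q', hQ', hQ'2⟩ := orElse hQ (h n)
    refine ⟨Q', by rw [Nat.succ_mul]; exact hQ', fun x => ⟨?_, fun W => ?_⟩⟩
    · rw [(hQ'2 x).1, (hQ2 x).1, Finset.prod_range_succ]
    · rw [Finset.sum_range_succ]
      calc ∑ w ∈ W, Q' x (some w) = ∑ w ∈ W, Q x (some w) +
            Q x none * ∑ w ∈ W, P n x (some w) := by
            simp_rw [(hQ'2 x).2]
            rw [Finset.sum_add_distrib, Finset.mul_sum]
        _ ≤ _ := by
            have h1 := (hQ2 x).2 W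
            have h2 : Q x none ≤ 1 := by
              have := Samp.sum_eq_one hQ x
              rw [← this]
              exact Finset.single_le_sum (f := fun o => Q x o)
                (fun o _ => Samp.nonneg hQ x o) (Finset.mem_univ none)
            have h3 : 0 ≤ ∑ w ∈ W, P n x (some w) :=
              Finset.sum_nonneg fun w _ => Samp.nonneg (h n) x _
            nlinarith

theorem num1 : ((3 : ℝ) / 4) ^ 20 ≤ 1 / 300 := by norm_num

theorem num2 : ((3 : ℝ) / 4) ^ 40 ≤ 1 / 90000 := by norm_num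

theorem pow_lin (n : ℕ) (hn : 1 ≤ n) : (40 : ℝ) * n ≤ 300 ^ n / 2 := by
  induction n, hn using Nat.le_induction with
  | base => norm_num
  | succ n hn ih =>
    have : (1 : ℝ) ≤ n := by exact_mod_cast hn
    push_cast
    rw [pow_succ]
    nlinarith

theorem pow_cub (n : ℕ) (hn : 1 ≤ n) :
    (n : ℝ) ^ 2 * (n + 1) * 400 ≤ 22500 ^ n := by
  induction n, hn using Nat.le_induction with
  | base => norm_num
  | succ n hn ih =>
    have h1 : (1 : ℝ) ≤ n := by exact_mod_cast hn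
    push_cast
    have h2 : ((n : ℝ) + 1) ^ 2 * (n + 1 + 1) ≤ 22500 * ((n : ℝ) ^ 2 * (n + 1)) := by
      nlinarith [sq_nonneg ((n : ℝ) - 1), mul_nonneg (by linarith : (0:ℝ) ≤ n - 1) (sq_nonneg (n : ℝ))]
    have h3 : (22500 : ℝ) ^ (n + 1) = 22500 ^ n * 22500 := pow_succ _ _
    rw [h3]
    nlinarith

theorem hst (a : ℕ) : (((40 * (a + 1) : ℕ) : ℝ)) * (3 / 4) ^ (40 * (a + 1)) ≤ 1 / 10 := by
  have h1 : ((3 : ℝ) / 4) ^ (40 * (a + 1)) ≤ (1 / 90000) ^ (a + 1) := by
    rw [pow_mul]; exact pow_le_pow_left₀ (by norm_num) num2 _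
  have h2 := pow_lin (a + 1) (by omega)
  have h3 : (300 : ℝ) ^ (a + 1) ≤ 90000 ^ (a + 1) := pow_le_pow_left₀ (by norm_num) (by norm_num) _
  have h5 : ((1 : ℝ) / 90000) ^ (a + 1) = 1 / 90000 ^ (a + 1) := by rw [one_div, one_div, inv_pow]
  rw [h5] at h1
  have h300 : (1 : ℝ) ≤ 300 ^ a := one_le_pow₀ (by norm_num)
  have h6 : (90000 : ℝ) ^ (a + 1) = 300 ^ (a + 1) * 300 ^ (a + 1) := by
    rw [← mul_pow]; norm_num
  have h7 : (0 : ℝ) < 90000 ^ (a + 1) := by positivity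
  have h8 : (300 : ℝ) ≤ 300 ^ (a + 1) := by rw [pow_succ]; nlinarith
  calc _ ≤ (((40 * (a + 1) : ℕ) : ℝ)) * (1 / 90000 ^ (a + 1)) :=
        mul_le_mul_of_nonneg_left h1 (by positivity)
    _ ≤ 1 / 10 := by
        rw [mul_one_div, div_le_div_iff₀ h7 (by norm_num)]
        push_cast at h2 ⊢
        rw [h6]
        nlinarith

theorem final_num (a : ℕ) :
    ((3 : ℝ) / 4) ^ (20 * (a + 1)) +
      ((a : ℝ) + 2) * (20 * (a + 1)) * (10 / 9 * 4 ^ a * (3 / 4) ^ (40 * (a + 1)))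
      ≤ 1 / (20 * ((a : ℝ) + 1)) := by
  have h1 : ((3 : ℝ) / 4) ^ (20 * (a + 1)) ≤ 1 / 300 ^ (a + 1) := by
    rw [pow_mul, one_div, ← inv_pow, ← one_div]; exact pow_le_pow_left₀ (by norm_num) num1 _
  have h2 : ((3 : ℝ) / 4) ^ (40 * (a + 1)) ≤ 1 / 90000 ^ (a + 1) := by
    rw [pow_mul, one_div, ← inv_pow, ← one_div]; exact pow_le_pow_left₀ (by norm_num) num2 _
  have hn : (0 : ℝ) < (a : ℝ) + 1 := by positivity
  have e1 : (1 : ℝ) / 300 ^ (a + 1) ≤ 1 / (40 * ((a : ℝ) + 1)) / 2 * 2 := by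
    have := pow_lin (a + 1) (by omega)
    push_cast at this
    rw [div_mul_cancel₀ _ (by norm_num : (2 : ℝ) ≠ 0)]
    exact one_div_le_one_div_of_le (by positivity) (by nlinarith [pow_pos (by norm_num : (0:ℝ) < 300) (a+1)])
  have e1' : (1 : ℝ) / 300 ^ (a + 1) ≤ 1 / (80 * ((a : ℝ) + 1)) := by
    have := pow_lin (a + 1) (by omega)
    push_cast at this
    exact one_div_le_one_div_of_le (by positivity) (by linarith)
  have e2 : ((a : ℝ) + 2) * (20 * (a + 1)) * (10 / 9 * 4 ^ a * (1 / 90000 ^ (a + 1)))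
      ≤ 1 / (40 * ((a : ℝ) + 1)) := by
    have h4 : (90000 : ℝ) ^ (a + 1) = 4 * 4 ^ a * 22500 ^ (a + 1) := by
      rw [show (90000 : ℝ) = 4 * 22500 by norm_num, mul_pow, pow_succ 4 a]; ring
    have h5 := pow_cub (a + 1) (by omega)
    push_cast at h5
    have h6 : (0 : ℝ) < 22500 ^ (a + 1) := by positivity
    have h7 : (0 : ℝ) < 4 ^ a := by positivity
    have h8 : ((a : ℝ) + 2) * (20 * (a + 1)) * (10 / 9 * 4 ^ a * (1 / 90000 ^ (a + 1))) =
        ((a : ℝ) + 2) * (a + 1) * (50 / 9) / 22500 ^ (a + 1) := by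
      rw [h4]; field_simp; ring
    rw [h8, div_le_div_iff₀ h6 (by positivity)]
    nlinarith
  have h3 : ((a : ℝ) + 2) * (20 * (a + 1)) * (10 / 9 * 4 ^ a * (3 / 4) ^ (40 * (a + 1))) ≤
      ((a : ℝ) + 2) * (20 * (a + 1)) * (10 / 9 * 4 ^ a * (1 / 90000 ^ (a + 1))) := by
    gcongr
  have h9 : (1 : ℝ) / (80 * ((a : ℝ) + 1)) + 1 / (40 * ((a : ℝ) + 1)) ≤ 1 / (20 * ((a : ℝ) + 1)) := by
    rw [div_add_div _ _ (by positivity) (by positivity), div_le_div_iff₀ (by positivity) (by positivity)]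
    nlinarith [sq_nonneg ((a : ℝ) + 1)]
  linarith

theorem cost (a g T Ta d : ℕ) (hg : g ≤ a + 1) :
    2 * (9 * 2 ^ (a + 1 - g)) * ((1 + 40 * (a + 1) * (40 * (a + 1))) * (2 * 2 ^ g * T) + Ta
      + 40 * (a + 1) * d) ≤ 36 * 3202 * 2 ^ a * (a + 1) ^ 2 * (T + Ta + d) := by
  have h1 : 2 ^ (a + 1 - g) * 2 ^ g = 2 * 2 ^ a := by
    rw [← pow_add, Nat.sub_add_cancel hg, pow_succ]; ring
  have h2 : 2 ^ (a + 1 - g) ≤ 2 * 2 ^ a := by
    rw [← h1]; exact Nat.le_mul_of_pos_right _ (by positivity)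
  have e : 2 * (9 * 2 ^ (a + 1 - g)) * ((1 + 40 * (a + 1) * (40 * (a + 1))) * (2 * 2 ^ g * T) + Ta
      + 40 * (a + 1) * d) = 36 * (1 + 1600 * (a + 1) ^ 2) * T * (2 ^ (a + 1 - g) * 2 ^ g) +
      18 * (Ta + 40 * (a + 1) * d) * 2 ^ (a + 1 - g) := by ring
  rw [e, h1]
  have h3 : 18 * (Ta + 40 * (a + 1) * d) * 2 ^ (a + 1 - g) ≤
      18 * (Ta + 40 * (a + 1) * d) * (2 * 2 ^ a) := Nat.mul_le_mul_left _ h2
  have hp : 1 ≤ 2 ^ a := Nat.one_le_two_pow
  have h4 : 36 * (1 + 1600 * (a + 1) ^ 2) * T * (2 * 2 ^ a) + 18 * (Ta + 40 * (a + 1) * d) * (2 * 2 ^ a)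
      = 36 * 2 ^ a * ((2 + 3200 * (a + 1) ^ 2) * T + Ta + 40 * (a + 1) * d) := by ring
  have h5 : (2 + 3200 * (a + 1) ^ 2) * T + Ta + 40 * (a + 1) * d ≤
      3202 * (a + 1) ^ 2 * (T + Ta + d) := by
    have q1 : 1 ≤ (a + 1) ^ 2 := Nat.one_le_pow _ _ (Nat.succ_pos a)
    have q2 : (a + 1) ≤ (a + 1) ^ 2 := Nat.le_self_pow (by norm_num) _
    have q3 : (2 + 3200 * (a + 1) ^ 2) * T ≤ (3202 * (a + 1) ^ 2) * T :=
      Nat.mul_le_mul_right _ (by omega)
    have q4 : Ta ≤ (3202 * (a + 1) ^ 2) * Ta := Nat.le_mul_of_pos_left _ (by omega)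
    have q5 : 40 * (a + 1) * d ≤ (3202 * (a + 1) ^ 2) * d :=
      Nat.mul_le_mul_right _ (by omega)
    calc _ ≤ (3202 * (a + 1) ^ 2) * T + (3202 * (a + 1) ^ 2) * Ta + (3202 * (a + 1) ^ 2) * d := by
          omega
      _ = _ := by ring
  calc _ ≤ 36 * 2 ^ a * ((2 + 3200 * (a + 1) ^ 2) * T + Ta + 40 * (a + 1) * d) := by
        rw [← h4]; exact Nat.add_le_add_left h3 _
    _ ≤ 36 * 2 ^ a * (3202 * (a + 1) ^ 2 * (T + Ta + d)) := Nat.mul_le_mul_left _ h5
    _ = _ := by ring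

end ERoundAux

open ERoundAux in
theorem Samp.round : ∃ C₀ : ℕ, ∀ {I : Type} {C R : Type} [Fintype C] [Nonempty C] [Fintype R]
    (a : ℕ) (_ : Fintype.card C = 4 ^ a) {T Ta d : ℕ}
    (mem : C → RTree I Bool) (_ : ∀ c, (mem c).depth ≤ T)
    (addr : C → (I → Bool) → R → ℝ) (_ : ∀ c, Samp I Ta (addr c))
    (kill : R → C → RTree I Bool) (_ : ∀ r c, (kill r c).depth ≤ d),
    ∃ P' : (I → Bool) → Option (C × R) → ℝ,
      Samp I (C₀ * 2 ^ a * (a + 1) ^ 4 * (T + Ta + d + 1)) P' ∧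
      ∀ x, (∃ b ∈ treeSet mem x, ∃ r, 9 / 10 ≤ addr b x r ∧ killFrac mem kill x b r = 1) →
        1 - 1 / (20 * ((a : ℝ) + 1)) ≤
          ∑ w : C × R, (open Classical in
            if 3 / 4 < killFrac mem kill x w.1 w.2 then P' x (some w) else 0) := by
  classical
  refine ⟨4610880, ?_⟩
  intro I C R _ _ _ a hcard T Ta d mem hmem addr haddr kill hkill
  have hs1 : ∀ g : ℕ, ∃ P' : (I → Bool) → Option (C × R) → ℝ,
      Samp I (36 * 3202 * 2 ^ a * (a + 1) ^ 2 * (T + Ta + d)) P' ∧ ∀ x,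
        (∃ κ : ℝ, 0 ≤ κ ∧ ∀ c r, P' x (some (c, r)) =
          (if c ∈ treeSet mem x then
            κ * addr c x r * (killFrac mem kill x c r) ^ (40 * (a + 1)) else 0)) ∧
        (g ≤ a + 1 → 4 * (Fintype.card C : ℝ) ≤ ((2 ^ g : ℕ) : ℝ) ^ 2 * (treeSet mem x).card →
          20 * ((treeSet mem x).card : ℝ) ≤ ((9 * 2 ^ (a + 1 - g) : ℕ) : ℝ) ^ 2 →
          (∃ b ∈ treeSet mem x, ∃ r, 9 / 10 ≤ addr b x r ∧ killFrac mem kill x b r = 1) →
          1 / 4 ≤ ∑ w : C × R, P' x (some w)) := by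
    intro g
    obtain ⟨P', h1, h2⟩ := Samp.step mem hmem addr haddr kill hkill (2 ^ (min g (a + 1)))
      (9 * 2 ^ (a + 1 - min g (a + 1))) (40 * (a + 1)) (40 * (a + 1))
      Nat.one_le_two_pow (by have := Nat.one_le_two_pow (n := a + 1 - min g (a + 1)); omega) (hst a)
    refine ⟨P', h1.mono (cost a _ T Ta d (min_le_right _ _)), fun x => ⟨(h2 x).1, ?_⟩⟩
    intro hg
    have := (h2 x).2
    rwa [min_eq_left hg] at this
  choose P hP hP2 using hs1
  choose Q hQ hQ2 using fun g => iterOr (fun _ => P g) (fun _ => hP g) (20 * (a + 1))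
  obtain ⟨P', hP', hP'2⟩ := iterOr Q hQ (a + 2)
  refine ⟨P', hP'.mono ?_, ?_⟩
  · have : (a + 2) * (20 * (a + 1) * (36 * 3202 * 2 ^ a * (a + 1) ^ 2 * (T + Ta + d))) ≤
        (2 * (a + 1)) * (20 * (a + 1) * (36 * 3202 * 2 ^ a * (a + 1) ^ 2 * (T + Ta + d + 1))) :=
      Nat.mul_le_mul (by omega) (Nat.mul_le_mul_left _ (Nat.mul_le_mul_left _ (by omega)))
    refine this.trans (le_of_eq ?_)
    ring
  intro x hx
  have hxx := hx
  obtain ⟨b, hb, r, hr1, hr2⟩ := hx
  have hUcard : ((treeSet mem x).card : ℝ) ≤ 4 ^ a := by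
    have : (treeSet mem x).card ≤ Fintype.card C := Finset.card_le_univ _
    rw [hcard] at this
    exact_mod_cast this
  have hU1 : 1 ≤ (treeSet mem x).card := Finset.card_pos.mpr ⟨b, hb⟩
  have hkf0 : ∀ c r, 0 ≤ killFrac mem kill x c r := by
    intro c r; unfold killFrac; positivity
  set W : Finset (C × R) := Finset.univ.filter (fun w => ¬ (3 / 4 < killFrac mem kill x w.1 w.2))
    with hW
  have hle1 : ∀ {Ω : Type} [Fintype Ω] {T : ℕ} {P : (I → Bool) → Ω → ℝ}, Samp I T P →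
      ∀ x ω, P x ω ≤ 1 := by
    intro Ω _ T P h x ω
    rw [← Samp.sum_eq_one h x]
    exact Finset.single_le_sum (f := fun o => P x o) (fun o _ => Samp.nonneg h x o)
      (Finset.mem_univ ω)
  -- weak outcomes of a single run
  have hweak : ∀ g, ∑ w ∈ W, P g x (some w) ≤ 10 / 9 * 4 ^ a * (3 / 4) ^ (40 * (a + 1)) := by
    intro g
    obtain ⟨κ, hκ0, hκ⟩ := (hP2 g x).1
    have hκ1 : κ ≤ 10 / 9 := by
      have h1 := hκ b r
      rw [if_pos hb, hr2, one_pow, mul_one] at h1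
      have h2 := hle1 (hP g) x (some (b, r))
      rw [h1] at h2
      nlinarith
    have hsum : ∀ c, ∑ r, addr c x r = 1 := fun c => Samp.sum_eq_one (haddr c) x
    calc ∑ w ∈ W, P g x (some w)
        ≤ ∑ w ∈ W, (if w.1 ∈ treeSet mem x then
            κ * addr w.1 x w.2 * (3 / 4) ^ (40 * (a + 1)) else 0) := by
          refine Finset.sum_le_sum fun w hw => ?_
          obtain ⟨c, r'⟩ := w
          rw [hκ c r']
          by_cases hc : c ∈ treeSet mem x
          · rw [if_pos hc]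
            simp only [hc, if_true]
            have h0 : 0 ≤ κ * addr c x r' := mul_nonneg hκ0 (Samp.nonneg (haddr c) x r')
            refine mul_le_mul_of_nonneg_left ?_ h0
            refine pow_le_pow_left₀ (hkf0 _ _) ?_ _
            have := (Finset.mem_filter.mp hw).2
            exact not_lt.mp this
          · rw [if_neg hc]
            simp [hc]
      _ ≤ ∑ w : C × R, (if w.1 ∈ treeSet mem x then
            κ * addr w.1 x w.2 * (3 / 4) ^ (40 * (a + 1)) else 0) := by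
          refine Finset.sum_le_sum_of_subset_of_nonneg (Finset.subset_univ _) fun w _ _ => ?_
          split
          · have : 0 ≤ κ * addr w.1 x w.2 := mul_nonneg hκ0 (Samp.nonneg (haddr w.1) x w.2)
            positivity
          · exact le_rfl
      _ = κ * (3 / 4) ^ (40 * (a + 1)) * (treeSet mem x).card := by
          rw [Fintype.sum_prod_type]
          have : ∀ c : C, ∑ r' : R, (if (c, r').1 ∈ treeSet mem x then
              κ * addr (c, r').1 x (c, r').2 * (3 / 4) ^ (40 * (a + 1)) else 0) =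
              if c ∈ treeSet mem x then κ * (3 / 4) ^ (40 * (a + 1)) else 0 := by
            intro c
            by_cases hc : c ∈ treeSet mem x
            · simp only [hc, if_true]
              rw [← Finset.sum_mul, ← Finset.mul_sum, hsum, mul_one]
            · simp [hc]
          simp_rw [this]
          rw [Finset.sum_ite_mem, Finset.univ_inter, Finset.sum_const, nsmul_eq_mul]
          ring
      _ ≤ 10 / 9 * (3 / 4) ^ (40 * (a + 1)) * 4 ^ a := by
          gcongr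
      _ = _ := by ring
  -- total weak mass
  have hweakT : ∑ w ∈ W, P' x (some w) ≤
      ((a : ℝ) + 2) * (20 * (a + 1)) * (10 / 9 * 4 ^ a * (3 / 4) ^ (40 * (a + 1))) := by
    calc ∑ w ∈ W, P' x (some w) ≤ ∑ g ∈ Finset.range (a + 2), ∑ w ∈ W, Q g x (some w) :=
          (hP'2 x).2 W
      _ ≤ ∑ g ∈ Finset.range (a + 2), ∑ _k ∈ Finset.range (20 * (a + 1)),
            ∑ w ∈ W, P g x (some w) := Finset.sum_le_sum fun g _ => (hQ2 g x).2 W
      _ ≤ ∑ g ∈ Finset.range (a + 2), ∑ _k ∈ Finset.range (20 * (a + 1)),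
            (10 / 9 * 4 ^ a * (3 / 4) ^ (40 * (a + 1)) : ℝ) :=
          Finset.sum_le_sum fun g _ => Finset.sum_le_sum fun k _ => hweak g
      _ = _ := by
          simp only [Finset.sum_const, Finset.card_range, nsmul_eq_mul]
          push_cast
          ring
  -- the good scale
  have hex : ∃ g, 4 * 4 ^ a ≤ 4 ^ g * (treeSet mem x).card := by
    refine ⟨a + 1, ?_⟩
    rw [pow_succ]
    nlinarith [Nat.one_le_pow a 4 (by norm_num)]
  obtain ⟨g₀, hg₀, hgmin⟩ : ∃ g, 4 * 4 ^ a ≤ 4 ^ g * (treeSet mem x).card ∧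
      ∀ g' < g, ¬ (4 * 4 ^ a ≤ 4 ^ g' * (treeSet mem x).card) :=
    ⟨Nat.find hex, Nat.find_spec hex, fun g' hg' => Nat.find_min hex hg'⟩
  have hg₀le : g₀ ≤ a + 1 := by
    by_contra hcon
    push Not at hcon
    apply hgmin (a + 1) hcon
    rw [pow_succ]
    nlinarith [Nat.one_le_pow a 4 (by norm_num)]
  have hg₀pos : 1 ≤ g₀ := by
    by_contra hcon
    have h0 : g₀ = 0 := by omega
    rw [h0, pow_zero, one_mul] at hg₀
    have h1 : (treeSet mem x).card ≤ 4 ^ a := by exact_mod_cast hUcard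
    have h2 : 1 ≤ 4 ^ a := Nat.one_le_pow a 4 (by norm_num)
    omega
  have hsucc : P g₀ x none ≤ 3 / 4 := by
    have h1 : (1 : ℝ) / 4 ≤ ∑ w : C × R, P g₀ x (some w) := by
      refine (hP2 g₀ x).2 hg₀le ?_ ?_ hxx
      · rw [hcard]
        have : (4 * 4 ^ a : ℕ) ≤ (2 ^ g₀) ^ 2 * (treeSet mem x).card := by
          rw [← pow_mul, mul_comm g₀ 2, pow_mul]
          exact hg₀
        exact_mod_cast this
      · have h2 := hgmin (g₀ - 1) (by omega)
        push Not at h2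
        have h3 : 4 ^ (a + 1 - g₀) * 4 ^ (g₀ - 1) = 4 ^ a := by
          rw [← pow_add]; congr 1; omega
        have h4 : (treeSet mem x).card < 4 * 4 ^ (a + 1 - g₀) := by
          have h5 : 4 ^ (g₀ - 1) * (treeSet mem x).card <
              4 ^ (g₀ - 1) * (4 * 4 ^ (a + 1 - g₀)) := by
            calc _ < 4 * 4 ^ a := h2
              _ = _ := by rw [← h3]; ring
          exact Nat.lt_of_mul_lt_mul_left h5
        have h6 : 20 * (treeSet mem x).card ≤ (9 * 2 ^ (a + 1 - g₀)) ^ 2 := by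
          have h7 : (9 * 2 ^ (a + 1 - g₀)) ^ 2 = 81 * 4 ^ (a + 1 - g₀) := by
            rw [mul_pow, ← pow_mul, mul_comm (a + 1 - g₀) 2, pow_mul]; norm_num
          rw [h7]; omega
        exact_mod_cast h6
    have h2 := Samp.sum_eq_one (hP g₀) x
    rw [Fintype.sum_option] at h2
    linarith
  have hnone : P' x none ≤ (3 / 4) ^ (20 * (a + 1)) := by
    rw [(hP'2 x).1]
    have hmem' : g₀ ∈ Finset.range (a + 2) := Finset.mem_range.mpr (by omega)
    rw [← Finset.mul_prod_erase _ _ hmem', (hQ2 g₀ x).1, Finset.prod_const, Finset.card_range]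
    have h1 : ∏ g ∈ (Finset.range (a + 2)).erase g₀, Q g x none ≤ 1 :=
      Finset.prod_le_one (fun g _ => Samp.nonneg (hQ g) x _) (fun g _ => hle1 (hQ g) x _)
    have h0 : 0 ≤ P g₀ x none := Samp.nonneg (hP g₀) x _
    calc _ ≤ (P g₀ x none) ^ (20 * (a + 1)) * 1 :=
          mul_le_mul_of_nonneg_left h1 (by positivity)
      _ ≤ _ := by rw [mul_one]; exact pow_le_pow_left₀ h0 hsucc _
  have htot := Samp.sum_eq_one hP' x
  rw [Fintype.sum_option] at htot
  have hsplit : ∑ w : C × R, (if 3 / 4 < killFrac mem kill x w.1 w.2 then P' x (some w) else 0) +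
      ∑ w ∈ W, P' x (some w) = ∑ w : C × R, P' x (some w) := by
    rw [← Finset.sum_filter, hW]
    exact Finset.sum_filter_add_sum_filter_not _ _ _
  have hfin := final_num a
  linarith

end Crest.Agent.R350
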