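import Crest.Agent.R350.QSearch

/-!
# Row 350, piece ESample: sampling a uniform element of an implicitly given set `U ⊆ C`

`mem c` is a decision tree (depth ≤ T) deciding `c ∈ U`.

PROOF.  Base sampler: `c` uniform on `C` (`Samp.pure`), then `Samp.tree (mem c)` (`Samp.bind`); good `(c, b) := b = true`.
Its success probability is `|U| / |C|`.  Apply `Samp.search` and map `some (c, b) ↦ some c`.  With the `κ` of
`Samp.search`: `P' x (some c) = κ / |C|` for `c ∈ U`, so `β = κ |U| / |C|`; `β ≤ 1` because probabilities sum to 1.
(If `U = ∅` take `β = 0`.)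
-/

set_option autoImplicit false

namespace Crest.Agent.R350

variable {I : Type}

/-- the set decided by the trees `mem` on input `x` -/
noncomputable def treeSet {C : Type} [Fintype C] (mem : C → RTree I Bool) (x : I → Bool) : Finset C :=
  open Classical in Finset.univ.filter (fun c => (mem c).eval x = true)

theorem Samp.sampleU {C : Type} [Fintype C] [Nonempty C] {T : ℕ} (mem : C → RTree I Bool)
    (hmem : ∀ c, (mem c).depth ≤ T) (J : ℕ) (hJ : 1 ≤ J) :
    ∃ P' : (I → Bool) → Option C → ℝ, Samp I (2 * J * T) P' ∧
      ∀ x, ∃ β : ℝ, 0 ≤ β ∧ β ≤ 1 ∧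
        (∀ c, P' x (some c) =
          (open Classical in if c ∈ treeSet mem x then β / (treeSet mem x).card else 0)) ∧
        (4 * (Fintype.card C : ℝ) ≤ (J : ℝ) ^ 2 * (treeSet mem x).card → 1 / 4 ≤ β) := by
  classical
  set N : ℝ := (Fintype.card C : ℝ) with hN
  have hNpos : 0 < N := by
    rw [hN]; exact_mod_cast Fintype.card_pos
  have h1 : Samp I 0 (fun _ (_ : C) => 1 / N) :=
    Samp.pure (fun _ => 1 / N) (fun _ => by positivity) (by
      rw [Finset.sum_const, Finset.card_univ, nsmul_eq_mul, ← hN]
      field_simp)
  have hb := Samp.bind h1 (Q := fun c x b => if (mem c).eval x = b then (1 : ℝ) else 0)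
    (T' := T) (fun c => by
      have := Samp.tree (mem c) (hmem c)
      convert this)
  obtain ⟨P', hP', hx⟩ := Samp.search hb (fun w => w.2 = true) J hJ
  rw [Nat.zero_add] at hP'
  have hm := Samp.map hP' (fun o => o.map Prod.fst)
  refine ⟨_, hm, fun x => ?_⟩
  obtain ⟨κ, hκ, hκ1, hκ2⟩ := hx x
  -- success probability
  have hp : (∑ ω : C × Bool, (if ω.2 = true then
      (1 / N) * (if (mem ω.1).eval x = ω.2 then (1 : ℝ) else 0) else 0)) =
      (treeSet mem x).card / N := by
    rw [Fintype.sum_prod_type]
    have : ∀ c : C, (∑ b : Bool, (if (c, b).2 = true then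
      (1 / N) * (if (mem (c, b).1).eval x = (c, b).2 then (1 : ℝ) else 0) else 0)) =
        if (mem c).eval x = true then 1 / N else 0 := by
      intro c
      rw [Fintype.sum_bool]
      simp
    simp_rw [this]
    rw [← Finset.sum_filter, Finset.sum_const, nsmul_eq_mul]
    have h' : Finset.univ.filter (fun c => (mem c).eval x = true) = treeSet mem x := by
      unfold treeSet
      congr
    rw [h']
    ring
  have hval : ∀ c : C, (∑ o : Option (C × Bool),
      (if (o.map Prod.fst) = some c then P' x o else 0)) =
      if (mem c).eval x = true then κ / N else 0 := by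
    intro c
    rw [Fintype.sum_option]
    simp only [Option.map_none, Option.map_some, reduceCtorEq, if_false, zero_add,
      Option.some.injEq]
    rw [Fintype.sum_prod_type, Finset.sum_eq_single c]
    · rw [Fintype.sum_bool, if_pos rfl, if_pos rfl, hκ1, hκ1]
      by_cases h : (mem c).eval x = true
      · simp [h]
        ring
      · simp [h]
    · intro b _ hb'
      rw [Fintype.sum_bool]
      simp [hb']
    · simp
  have hmemU : ∀ c : C, (c ∈ treeSet mem x ↔ (mem c).eval x = true) := by
    intro c
    unfold treeSet
    simp
  have hsum := Samp.sum_eq_one hm x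
  have hnn := Samp.nonneg hm x none
  refine ⟨κ * ((treeSet mem x).card / N), by positivity, ?_, ?_, ?_⟩
  · rw [Fintype.sum_option] at hsum
    have h2 : (∑ c : C, (∑ o : Option (C × Bool),
      (if (o.map Prod.fst) = some c then P' x o else 0))) =
        κ * ((treeSet mem x).card / N) := by
      simp_rw [hval]
      rw [← Finset.sum_filter, Finset.sum_const, nsmul_eq_mul]
      have h' : Finset.univ.filter (fun c => (mem c).eval x = true) = treeSet mem x := by
        unfold treeSet
        congr
      rw [h']
      ring
    have h2' : (∑ i : C, ∑ ω : Option (C × Bool),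
        @ite ℝ (Option.map Prod.fst ω = some i) (Classical.propDecidable _) (P' x ω) 0) =
          κ * ((treeSet mem x).card / N) := by
      rw [← h2]
      refine Finset.sum_congr rfl fun c _ => Finset.sum_congr rfl fun o _ => ?_
      congr
    rw [h2'] at hsum
    linarith [hsum, hnn]
  · intro c
    have h4 := hval c
    by_cases h : (mem c).eval x = true
    · have hc : c ∈ treeSet mem x := (hmemU c).2 h
      rw [if_pos hc]
      rw [if_pos h] at h4
      have hcard : (0 : ℝ) < (treeSet mem x).card := by
        exact_mod_cast Finset.card_pos.2 ⟨c, hc⟩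
      have h5 : κ * ((treeSet mem x).card / N) / (treeSet mem x).card = κ / N := by
        field_simp
      rw [h5, ← h4]
      refine Finset.sum_congr rfl fun o _ => ?_
      congr
    · have hc : c ∉ treeSet mem x := fun h' => h ((hmemU c).1 h')
      rw [if_neg hc]
      rw [if_neg h] at h4
      rw [← h4]
      refine Finset.sum_congr rfl fun o _ => ?_
      congr
  · intro h
    have h5 : (4 : ℝ) ≤ (J : ℝ) ^ 2 * ((treeSet mem x).card / N) := by
      rw [← mul_div_assoc, le_div_iff₀ hNpos]
      exact h
    rw [← hp] at h5 ⊢
    convert hκ2 (by convert h5)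

end Crest.Agent.R350
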