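import Crest.Agent.R350.ESample

/-!
# Row 350, piece EStep: one amplified search for a strong killer inside `U`

Setting: `C` columns, `R` addresses, `addr c` a sampler (cost `Ta`) for the address of column `c`,
`kill r c` decision trees (depth ≤ d), `mem` decision trees (depth ≤ T) for the current candidate set `U = treeSet mem x`.
For `c : C`, `r : R` put `frac x c r = |{c' ∈ U : c' = c or kill r c' x}| / |U|`  (`killFrac`).

BASE SAMPLER (inner search parameter `J`, `s` tests, `t` attempts per test):
  `c ←` sampleU (J);  `r ← addr c`;  for `a < s`: take `t` independent sampleU (J) results `c'_{a,1..t}`, let `c'_a` be the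
  first one which is not `none`;   evaluate the tree `kill r c'_a` (skip if `c = none`/all attempts failed).
  good: `c ≠ none`, every test has a successful attempt and `c'_a = c ∨ kill r c'_a = true`.
  Cost `(1 + s t) (2 J T) + Ta + s d` (use `Samp.repeat`, `Samp.bind`, `Samp.pi`, `Samp.tree`, `Samp.map`, `Samp.mono`).
  For the law: given `(c, r)` the `s` tests are independent and each one succeeds with probability `γ * frac x c r`,
  `γ = 1 - (1-β)^t` (first success among `t` attempts is uniform on `U`).
  So the probability of `(good, c, r)` is `(β/|U|) * addr c x r * γ^s * (frac x c r)^s` for `c ∈ U`.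
Now apply `Samp.search` with parameter `J'` and announce `(c, r)`.  This gives the first claim with
`κ' = κ (β/|U|) γ^s`.  For the second claim: `β ≥ 1/4` by `Samp.sampleU`, `γ^s ≥ 1 - s (3/4)^t ≥ 9/10` (Bernoulli),
the term `(b, r*)` alone gives success probability `≥ (1/(4|U|)) (9/10) (9/10) ≥ 1/(5|U|)`, hence
`4 ≤ J'² p` if `20 |U| ≤ J'²` and the success probability of the search is `≥ 1/4`.
-/

set_option autoImplicit false

namespace Crest.Agent.R350

variable {I : Type}

/-- fraction of the candidate set killed by `r` (counting the column `c` itself as killed) -/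
noncomputable def killFrac {C R : Type} [Fintype C] (mem : C → RTree I Bool)
    (kill : R → C → RTree I Bool) (x : I → Bool) (c : C) (r : R) : ℝ :=
  (open Classical in
    (((treeSet mem x).filter (fun c' => c' = c ∨ (kill r c').eval x = true)).card : ℝ))
      / (treeSet mem x).card

namespace EStepAux

/-- the first non-`none` entry -/
def first {C : Type} : (n : ℕ) → (Fin n → Option C) → Option C
  | 0, _ => none
  | n + 1, v => match v 0 with
    | some c => some c
    | none => first n (fun i => v i.succ)

open Classical in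
theorem first_sum {C : Type} [Fintype C] (p : Option C → ℝ) (hp : ∑ o, p o = 1) (K : C → Prop)
    (t : ℕ) :
    ∀ (β f : ℝ), p none = 1 - β → (∑ c, if K c then p (some c) else 0) = β * f →
    ∑ v : Fin t → Option C, (∏ b, p (v b)) * (if ∃ c', first t v = some c' ∧ K c' then 1 else 0) =
      (1 - (1 - β) ^ t) * f := by
  intro β f h0 h1
  induction t with
  | zero => simp [first]
  | succ t ih =>
    rw [← (Fin.consEquiv (fun _ : Fin (t + 1) => Option C)).sum_comp, Fintype.sum_prod_type,
      Fintype.sum_option]
    have hall : ∑ v : Fin t → Option C, ∏ b, p (v b) = 1 := by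
      rw [← Fintype.sum_pow, hp, one_pow]
    have e0 : ∑ v : Fin t → Option C,
        (∏ b, p ((Fin.consEquiv (fun _ : Fin (t + 1) => Option C)) (none, v) b)) *
          (if ∃ c', first (t + 1) ((Fin.consEquiv (fun _ : Fin (t + 1) => Option C)) (none, v)) =
            some c' ∧ K c' then 1 else 0) = (1 - β) * ((1 - (1 - β) ^ t) * f) := by
      rw [← ih, Finset.mul_sum]
      refine Finset.sum_congr rfl fun v _ => ?_
      have h2 : first (t + 1) ((Fin.consEquiv (fun _ : Fin (t + 1) => Option C)) (none, v)) =
          first t v := by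
        simp [first, Fin.consEquiv]
      rw [h2, Fin.prod_univ_succ]
      simp only [Fin.consEquiv, Equiv.coe_fn_mk, Fin.cons_zero, Fin.cons_succ, h0]
      ring
    have e1 : ∀ c : C, ∑ v : Fin t → Option C,
        (∏ b, p ((Fin.consEquiv (fun _ : Fin (t + 1) => Option C)) (some c, v) b)) *
          (if ∃ c', first (t + 1) ((Fin.consEquiv (fun _ : Fin (t + 1) => Option C)) (some c, v)) =
            some c' ∧ K c' then 1 else 0) = if K c then p (some c) else 0 := by
      intro c
      have h2 : ∀ v : Fin t → Option C,
          first (t + 1) ((Fin.consEquiv (fun _ : Fin (t + 1) => Option C)) (some c, v)) =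
          some c := by
        intro v
        simp [first, Fin.consEquiv]
      have h3 : ∀ v : Fin t → Option C, (∏ b,
          p ((Fin.consEquiv (fun _ : Fin (t + 1) => Option C)) (some c, v) b)) =
          p (some c) * ∏ b, p (v b) := by
        intro v
        rw [Fin.prod_univ_succ]
        simp only [Fin.consEquiv, Equiv.coe_fn_mk, Fin.cons_zero, Fin.cons_succ]
      simp_rw [h2, h3]
      rw [← Finset.sum_mul, ← Finset.mul_sum, hall]
      by_cases hK : K c
      · rw [if_pos hK, if_pos ⟨c, rfl, hK⟩]; ring
      · rw [if_neg hK, if_neg]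
        · ring
        · rintro ⟨c', h4, h5⟩
          exact hK ((Option.some.inj h4) ▸ h5)
    rw [e0]
    simp_rw [e1]
    rw [h1]
    ring

/-- outcome space of the base sampler -/
abbrev Om (C R : Type) (s t : ℕ) : Type :=
  ((Option C × R) × (Fin s → Fin t → Option C)) × (Fin s → Bool)

/-- the tree evaluated in one test -/
def testTree {C R : Type} (kill : R → C → RTree I Bool) (r : R) (t : ℕ) (v : Fin t → Option C) :
    RTree I Bool :=
  match first t v with
  | some c => kill r c
  | none => RTree.leaf false

/-- a test is passed -/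
def Pass {C : Type} (c : C) {t : ℕ} (v : Fin t → Option C) (b : Bool) : Prop :=
  ∃ c', first t v = some c' ∧ (c' = c ∨ b = true)

/-- the good outcomes -/
def Good {C R : Type} {s t : ℕ} (ω : Om C R s t) : Prop :=
  ∃ c, ω.1.1.1 = some c ∧ ∀ a, Pass c (ω.1.2 a) (ω.2 a)

/-- the announced value -/
def ann {C R : Type} {s t : ℕ} (ω : Om C R s t) : Option (C × R) :=
  ω.1.1.1.map (fun c => (c, ω.1.1.2))

open Classical in
/-- the law of the base sampler -/
noncomputable def lawB {C R : Type} {s t : ℕ} (p : Option C → ℝ) (A : Option C → R → ℝ)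
    (ev : R → (Fin t → Option C) → Bool) (ω : Om C R s t) : ℝ :=
  p ω.1.1.1 * A ω.1.1.1 ω.1.1.2 * (∏ a, ∏ b, p (ω.1.2 a b)) *
    ∏ a, (if ev ω.1.1.2 (ω.1.2 a) = ω.2 a then (1 : ℝ) else 0)

open Classical in
theorem sum_lawB {C R : Type} [Fintype C] [Fintype R] {s t : ℕ} (p : Option C → ℝ)
    (A : Option C → R → ℝ) (ev : R → (Fin t → Option C) → Bool) (c : C) (r : R) :
    ∑ ω : Om C R s t, (if ann ω = some (c, r) ∧ Good ω then lawB p A ev ω else 0) =
      p (some c) * A (some c) r *
        (∑ v : Fin t → Option C, (∏ b, p (v b)) * (if Pass c v (ev r v) then 1 else 0)) ^ s := by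
  rw [Fintype.sum_prod_type, Fintype.sum_prod_type, Fintype.sum_prod_type]
  rw [Finset.sum_eq_single (some c)]
  · rw [Finset.sum_eq_single r]
    · rw [Fintype.sum_pow, Finset.mul_sum]
      refine Finset.sum_congr rfl fun w _ => ?_
      have h1 : ∀ bs : Fin s → Bool,
          (if ann (((some c, r), w), bs) = some (c, r) ∧ Good (((some c, r), w), bs) then
            lawB p A ev (((some c, r), w), bs) else 0) =
          p (some c) * A (some c) r * ∏ a, ((∏ b, p (w a b)) *
            ((if ev r (w a) = bs a then (1 : ℝ) else 0) * (if Pass c (w a) (bs a) then 1 else 0))) := by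
        intro bs
        have hg : Good (((some c, r), w), bs) ↔ ∀ a, Pass c (w a) (bs a) := by
          constructor
          · rintro ⟨c', h, h'⟩
            have : c' = c := (Option.some.inj h).symm
            rw [← this]; exact h'
          · exact fun h => ⟨c, rfl, h⟩
        have ha : ann (((some c, r), w), bs) = some (c, r) := rfl
        rw [Finset.prod_mul_distrib, Finset.prod_mul_distrib]
        by_cases hG : ∀ a, Pass c (w a) (bs a)
        · rw [if_pos ⟨ha, hg.2 hG⟩]
          have : ∏ a, (if Pass c (w a) (bs a) then (1 : ℝ) else 0) = 1 :=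
            Finset.prod_eq_one fun a _ => if_pos (hG a)
          rw [this]
          unfold lawB
          ring
        · rw [if_neg (fun h => hG (hg.1 h.2))]
          push Not at hG
          obtain ⟨a, ha⟩ := hG
          have : ∏ a, (if Pass c (w a) (bs a) then (1 : ℝ) else 0) = 0 :=
            Finset.prod_eq_zero (Finset.mem_univ a) (if_neg ha)
          rw [this]
          ring
      simp_rw [h1]
      rw [← Finset.mul_sum]
      congr 1
      have h2 := Finset.prod_univ_sum (fun _ : Fin s => (Finset.univ : Finset Bool))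
        (fun a b => (∏ b, p (w a b)) *
            ((if ev r (w a) = b then (1 : ℝ) else 0) * (if Pass c (w a) b then 1 else 0)))
      rw [Fintype.piFinset_univ] at h2
      rw [← h2]
      refine Finset.prod_congr rfl fun a _ => ?_
      rw [← Finset.mul_sum]
      congr 1
      rw [Fintype.sum_bool]
      cases ev r (w a) <;> simp
    · intro r' _ hr'
      refine Finset.sum_eq_zero fun w _ => Finset.sum_eq_zero fun bs _ => ?_
      rw [if_neg]
      rintro ⟨h, -⟩
      apply hr'
      have : some (c, r') = some (c, r) := h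
      simpa using this
    · intro h; exact absurd (Finset.mem_univ _) h
  · intro o _ ho
    refine Finset.sum_eq_zero fun r' _ => Finset.sum_eq_zero fun w _ =>
      Finset.sum_eq_zero fun bs _ => ?_
    rw [if_neg]
    rintro ⟨h, -⟩
    apply ho
    cases o with
    | none => simp [ann] at h
    | some c' =>
      have : some (c', r') = some (c, r) := h
      simp at this
      rw [this.1]
  · intro h; exact absurd (Finset.mem_univ _) h

open Classical in
theorem sum_good {C R : Type} [Fintype C] [Fintype R] {s t : ℕ} (F : Om C R s t → ℝ) :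
    ∑ ω : Om C R s t, (if Good ω then F ω else 0) =
      ∑ w : C × R, ∑ ω : Om C R s t, (if ann ω = some w ∧ Good ω then F ω else 0) := by
  rw [Finset.sum_comm]
  refine Finset.sum_congr rfl fun ω _ => ?_
  by_cases hG : Good ω
  · rw [if_pos hG]
    obtain ⟨c, hc, hc'⟩ := hG
    have ha : ann ω = some (c, ω.1.1.2) := by
      unfold ann; rw [hc]; rfl
    rw [Finset.sum_eq_single (c, ω.1.1.2)]
    · rw [if_pos ⟨ha, c, hc, hc'⟩]
    · intro w _ hw
      rw [if_neg]
      rintro ⟨h, -⟩
      rw [ha] at h
      exact hw (Option.some.inj h).symm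
    · intro h; exact absurd (Finset.mem_univ _) h
  · rw [if_neg hG]
    symm
    refine Finset.sum_eq_zero fun w _ => if_neg (fun h => hG h.2)

end EStepAux

open EStepAux

open Classical in
theorem Samp.step_base {C R : Type} [Fintype C] [Nonempty C] [Fintype R] {T Ta d : ℕ}
    (addr : C → (I → Bool) → R → ℝ) (haddr : ∀ c, Samp I Ta (addr c))
    (kill : R → C → RTree I Bool) (hkill : ∀ r c, (kill r c).depth ≤ d)
    (J s t : ℕ) (PS : (I → Bool) → Option C → ℝ) (hPS : Samp I (2 * J * T) PS) (c₀ : C) :
    Samp I ((1 + s * t) * (2 * J * T) + Ta + s * d)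
      (fun x (ω : Om C R s t) => lawB (PS x) (fun o r => (o.elim (addr c₀) addr) x r)
        (fun r v => (testTree kill r t v).eval x) ω) := by
  have h1 := hPS.bind (Q := fun o : Option C => o.elim (addr c₀) addr) (T' := Ta) (by
    intro o
    cases o with
    | none => exact haddr c₀
    | some c => exact haddr c)
  have h2 : Samp I (s * (t * (2 * J * T))) _ := (hPS.repeat t).repeat s
  have h3 := h1.bind (Q := fun _ => (fun x (w : Fin s → Fin t → Option C) =>
    ∏ a, ∏ b, PS x (w a b))) (fun _ => h2)
  have h4 : ∀ ω : (Option C × R) × (Fin s → Fin t → Option C),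
      Samp I (s * d) (fun x (bs : Fin s → Bool) =>
        ∏ a, (if (testTree kill ω.1.2 t (ω.2 a)).eval x = bs a then (1 : ℝ) else 0)) := by
    intro ω
    have h5 : ∀ a : Fin s, Samp I d (fun x (b : Bool) =>
        if (testTree kill ω.1.2 t (ω.2 a)).eval x = b then (1 : ℝ) else 0) := by
      intro a
      have hd : (testTree kill ω.1.2 t (ω.2 a)).depth ≤ d := by
        unfold testTree
        split
        · exact hkill _ _
        · exact Nat.zero_le _
      have h7 := Samp.tree (testTree kill ω.1.2 t (ω.2 a)) hd
      convert h7 using 3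
      split_ifs <;> rfl
    exact Samp.pi s h5
  have h6 := h3.bind h4
  have hcost : 2 * J * T + Ta + s * (t * (2 * J * T)) + s * d =
      (1 + s * t) * (2 * J * T) + Ta + s * d := by ring
  rw [← hcost]
  exact h6

theorem Samp.step {C R : Type} [Fintype C] [Nonempty C] [Fintype R] {T Ta d : ℕ}
    (mem : C → RTree I Bool) (hmem : ∀ c, (mem c).depth ≤ T)
    (addr : C → (I → Bool) → R → ℝ) (haddr : ∀ c, Samp I Ta (addr c))
    (kill : R → C → RTree I Bool) (hkill : ∀ r c, (kill r c).depth ≤ d)
    (J J' s t : ℕ) (hJ : 1 ≤ J) (hJ' : 1 ≤ J') (hst : (s : ℝ) * (3 / 4) ^ t ≤ 1 / 10) :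
    ∃ P' : (I → Bool) → Option (C × R) → ℝ,
      Samp I (2 * J' * ((1 + s * t) * (2 * J * T) + Ta + s * d)) P' ∧
      ∀ x,
        (∃ κ : ℝ, 0 ≤ κ ∧ ∀ c r, P' x (some (c, r)) =
          (open Classical in if c ∈ treeSet mem x then
            κ * addr c x r * (killFrac mem kill x c r) ^ s else 0)) ∧
        (4 * (Fintype.card C : ℝ) ≤ (J : ℝ) ^ 2 * (treeSet mem x).card →
          20 * ((treeSet mem x).card : ℝ) ≤ (J' : ℝ) ^ 2 →
          (∃ b ∈ treeSet mem x, ∃ r, 9 / 10 ≤ addr b x r ∧ killFrac mem kill x b r = 1) →
          1 / 4 ≤ ∑ w : C × R, P' x (some w)) := by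
  classical
  obtain ⟨PS, hPS, hPS'⟩ := Samp.sampleU mem hmem J hJ
  let c₀ : C := Classical.arbitrary C
  have hB := Samp.step_base (R := R) addr haddr kill hkill J s t PS hPS c₀
  obtain ⟨P1, hP1, hP1'⟩ := hB.search Good J' hJ'
  let g : Option (Om C R s t) → Option (C × R) := fun o => o.bind ann
  refine ⟨_, hP1.map g, ?_⟩
  intro x
  obtain ⟨κ, hκ, hval, hsucc⟩ := hP1' x
  obtain ⟨β, hβ0, hβ1, hβ, hβ4⟩ := hPS' x
  -- the law of the mapped sampler
  have hlaw : ∀ w : C × R, (∑ o : Option (Om C R s t), if g o = some w then P1 x o else 0) =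
      κ * ∑ ω : Om C R s t, (if ann ω = some w ∧ Good ω then
        lawB (PS x) (fun o r => (o.elim (addr c₀) addr) x r)
        (fun r v => (testTree kill r t v).eval x) ω else 0) := by
    intro w
    rw [Fintype.sum_option]
    have h0 : (if g none = some w then P1 x none else 0) = 0 := by
      rw [if_neg]; simp [g]
    rw [h0, zero_add, Finset.mul_sum]
    refine Finset.sum_congr rfl fun ω _ => ?_
    have h1 : g (some ω) = ann ω := rfl
    rw [h1, hval ω]
    by_cases ha : ann ω = some w
    · by_cases hG : Good ω
      · rw [if_pos ha, if_pos hG, if_pos ⟨ha, hG⟩]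
      · rw [if_pos ha, if_neg hG, if_neg (fun h => hG h.2), mul_zero]
    · rw [if_neg ha, if_neg (fun h => ha h.1), mul_zero]
  have hsum1 : ∑ o, PS x o = 1 := hPS.sum_eq_one x
  -- pass probability
  have hpass : ∀ (c : C) (r : R), (treeSet mem x).Nonempty →
      (∑ v : Fin t → Option C, (∏ b, PS x (v b)) *
        (if Pass c v ((testTree kill r t v).eval x) then (1 : ℝ) else 0)) =
      (1 - (1 - β) ^ t) * killFrac mem kill x c r := by
    intro c r hne
    have hcard : (0 : ℝ) < (treeSet mem x).card := by exact_mod_cast hne.card_pos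
    have h1 : ∀ v : Fin t → Option C,
        (Pass c v ((testTree kill r t v).eval x) ↔
          ∃ c', first t v = some c' ∧ (c' = c ∨ (kill r c').eval x = true)) := by
      intro v
      unfold Pass
      constructor
      · rintro ⟨c', h, h'⟩
        refine ⟨c', h, ?_⟩
        unfold testTree at h'
        rw [h] at h'
        exact h'
      · rintro ⟨c', h, h'⟩
        refine ⟨c', h, ?_⟩
        unfold testTree
        rw [h]
        exact h'
    have h2 : PS x none = 1 - β := by
      rw [Fintype.sum_option] at hsum1
      have h3 : ∑ c, PS x (some c) = β := by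
        simp_rw [hβ]
        rw [← Finset.sum_filter, Finset.filter_mem_eq_inter, Finset.univ_inter, Finset.sum_const,
          nsmul_eq_mul]
        field_simp
      linarith
    have h4 : (∑ c', if (c' = c ∨ (kill r c').eval x = true) then PS x (some c') else 0) =
        β * killFrac mem kill x c r := by
      unfold killFrac
      simp_rw [hβ]
      have h5 : ∀ c' : C, (if (c' = c ∨ (kill r c').eval x = true) then
          (if c' ∈ treeSet mem x then β / ((treeSet mem x).card : ℝ) else 0) else 0) =
          if c' ∈ (treeSet mem x).filter (fun c' => c' = c ∨ (kill r c').eval x = true) then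
            β / ((treeSet mem x).card : ℝ) else 0 := by
        intro c'
        by_cases ha : (c' = c ∨ (kill r c').eval x = true)
        · by_cases hb : c' ∈ treeSet mem x
          · rw [if_pos ha, if_pos hb, if_pos (Finset.mem_filter.2 ⟨hb, ha⟩)]
          · rw [if_pos ha, if_neg hb, if_neg (fun h => hb (Finset.mem_filter.1 h).1)]
        · have hnot : ¬ (c' ∈ (treeSet mem x).filter
              (fun c' => c' = c ∨ (kill r c').eval x = true)) :=
            fun h => ha (Finset.mem_filter.1 h).2
          rw [if_neg ha, if_neg hnot]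
      simp_rw [h5]
      rw [← Finset.sum_filter, Finset.filter_mem_eq_inter, Finset.univ_inter, Finset.sum_const,
        nsmul_eq_mul]
      have h6 : ∀ (u v n : ℝ), u = v → u * (β / n) = β * (v / n) := by
        intro u v n h; rw [h]; ring
      apply h6
      congr!
    rw [← first_sum (PS x) hsum1 (fun c' => c' = c ∨ (kill r c').eval x = true) t β _ h2]
    · refine Finset.sum_congr rfl fun v _ => ?_
      congr 1
      by_cases h : Pass c v ((testTree kill r t v).eval x)
      · rw [if_pos h, if_pos ((h1 v).1 h)]
      · rw [if_neg h, if_neg (fun h' => h ((h1 v).2 h'))]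
    · rw [← h4]
      refine Finset.sum_congr rfl fun c' _ => ?_
      split_ifs <;> rfl
  -- joint law
  have hjoint : ∀ (c : C) (r : R), ∑ ω : Om C R s t, (if ann ω = some (c, r) ∧ Good ω then
        lawB (PS x) (fun o r => (o.elim (addr c₀) addr) x r)
        (fun r v => (testTree kill r t v).eval x) ω else 0) =
      if c ∈ treeSet mem x then β / (treeSet mem x).card * addr c x r *
        ((1 - (1 - β) ^ t) * killFrac mem kill x c r) ^ s else 0 := by
    intro c r
    rw [sum_lawB]
    by_cases hc : c ∈ treeSet mem x
    · rw [if_pos hc, hβ c, if_pos hc, hpass c r ⟨c, hc⟩]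
      rfl
    · rw [if_neg hc, hβ c, if_neg hc, zero_mul, zero_mul]
  refine ⟨⟨κ * (β / (treeSet mem x).card) * (1 - (1 - β) ^ t) ^ s, ?_, ?_⟩, ?_⟩
  · have h1 : (1 - β) ^ t ≤ 1 := pow_le_one₀ (by linarith) (by linarith)
    have h2 : 0 ≤ 1 - (1 - β) ^ t := by linarith
    positivity
  · intro c r
    show (∑ o : Option (Om C R s t), _) = _
    have h1 := hlaw (c, r)
    rw [hjoint c r] at h1
    refine Eq.trans ?_ (h1.trans ?_)
    · refine Finset.sum_congr rfl fun o _ => ?_
      split_ifs <;> rfl
    by_cases hc : c ∈ treeSet mem x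
    · rw [if_pos hc, if_pos hc, mul_pow]; ring
    · rw [if_neg hc, if_neg hc, mul_zero]
  · rintro hJC hJU ⟨b, hb, r, hbr, hkf⟩
    have hcard : (0 : ℝ) < (treeSet mem x).card := by
      exact_mod_cast Finset.card_pos.2 ⟨b, hb⟩
    have hβ' := hβ4 hJC
    set p := ∑ ω : Om C R s t, (if Good ω then
        lawB (PS x) (fun o r => (o.elim (addr c₀) addr) x r)
        (fun r v => (testTree kill r t v).eval x) ω else 0) with hp
    have hp2 : p = ∑ w : C × R, (if w.1 ∈ treeSet mem x then
        β / (treeSet mem x).card * addr w.1 x w.2 *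
        ((1 - (1 - β) ^ t) * killFrac mem kill x w.1 w.2) ^ s else 0) := by
      rw [hp, sum_good]
      refine Finset.sum_congr rfl fun w _ => ?_
      exact hjoint w.1 w.2
    have hγ0 : 0 ≤ 1 - (1 - β) ^ t := by
      have h1 : (1 - β) ^ t ≤ 1 := pow_le_one₀ (by linarith) (by linarith)
      linarith
    have hnn : ∀ w : C × R, 0 ≤ (if w.1 ∈ treeSet mem x then
        β / (treeSet mem x).card * addr w.1 x w.2 *
        ((1 - (1 - β) ^ t) * killFrac mem kill x w.1 w.2) ^ s else 0) := by
      intro w
      have h1 := (haddr w.1).nonneg x w.2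
      have h2 : 0 ≤ killFrac mem kill x w.1 w.2 := by unfold killFrac; positivity
      split_ifs
      · positivity
      · exact le_rfl
    have hγ : 9 / 10 ≤ (1 - (1 - β) ^ t) ^ s := by
      have h1 : (1 - β) ^ t ≤ (3 / 4) ^ t :=
        pow_le_pow_left₀ (by linarith) (by linarith) t
      have h2 : (0 : ℝ) ≤ (1 - β) ^ t := pow_nonneg (by linarith) t
      have h3 := one_add_mul_le_pow (a := -(1 - β) ^ t) (by linarith) s
      have h4 : (s : ℝ) * (1 - β) ^ t ≤ s * (3 / 4) ^ t :=
        mul_le_mul_of_nonneg_left h1 (Nat.cast_nonneg s)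
      have h5 : (1 : ℝ) + -(1 - β) ^ t = 1 - (1 - β) ^ t := by ring
      rw [h5] at h3
      linarith
    have hplow : 1 / 5 / (treeSet mem x).card ≤ p := by
      rw [hp2]
      have h1 := Finset.single_le_sum (fun w _ => hnn w) (Finset.mem_univ (b, r))
      refine le_trans ?_ h1
      rw [if_pos hb, hkf, mul_one]
      have h2 : 1 / 5 / (treeSet mem x).card ≤
          (1 / 4) / ((treeSet mem x).card : ℝ) * (9 / 10) * (9 / 10) := by
        rw [div_mul_eq_mul_div, div_mul_eq_mul_div]
        exact div_le_div_of_nonneg_right (by norm_num) hcard.le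
      refine h2.trans ?_
      have h3 : (1 / 4) / ((treeSet mem x).card : ℝ) ≤ β / (treeSet mem x).card :=
        div_le_div_of_nonneg_right hβ' hcard.le
      have h4 : 0 ≤ β / ((treeSet mem x).card : ℝ) := by positivity
      refine mul_le_mul (mul_le_mul h3 hbr (by norm_num) h4) hγ (by norm_num) ?_
      exact mul_nonneg h4 (by linarith)
    have h4p : 4 ≤ (J' : ℝ) ^ 2 * p := by
      have h1 : 20 * ((treeSet mem x).card : ℝ) * (1 / 5 / (treeSet mem x).card) ≤
          (J' : ℝ) ^ 2 * p :=
        mul_le_mul hJU hplow (by positivity) (by positivity)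
      have h2 : 20 * ((treeSet mem x).card : ℝ) * (1 / 5 / (treeSet mem x).card) = 4 := by
        field_simp; norm_num
      linarith
    have h5 := hsucc h4p
    refine h5.trans (le_of_eq ?_)
    rw [hp, sum_good, Finset.mul_sum]
    refine Finset.sum_congr rfl fun w _ => ?_
    rw [← hlaw w]
    refine Finset.sum_congr rfl fun o _ => ?_
    split_ifs <;> rfl

end Crest.Agent.R350
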