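import Crest.Agent.R350.QSearch

/-!
# Row 350, piece EVerify: verification by Grover search for a violated check, and the final combination

`Samp.verify`: PROOF.  Base sampler: uniform `j : Jc` (assume `Jc` nonempty; if empty answer `true`), evaluate `check j` by
`Samp.tree`; good := the check answers `false`.  If some check is violated the success probability is `≥ 1/|Jc|`, so
`Samp.search` with parameter `2 J` (`|Jc| ≤ J²`, `4 ≤ (2J)² / |Jc|`) finds a violated one with probability `≥ 1/4`.
Repeat `40` times (`(3/4)^40 ≤ 1/10000`); answer `false` iff some repetition found a violated check.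
Cost `40 * (2 * (2J) * d) = 160 J d`.

`Samp.findVerify`: PROOF.  One trial: run `P`; if it announces `some r`, run `Q r`, otherwise (`none`) answer `false`
(`none` branch padded).  Repeat 100 times independently, answer `true` iff some trial answered `true`.
If `F x = true`: each trial answers `true` with probability `≥ 1/20` and `(19/20)^100 ≤ 1/3`.
If `F x = false`: no `r` is valid, each trial answers `true` with probability `≤ 1/10000`, union bound `≤ 1/100`.
-/

set_option autoImplicit false

namespace Crest.Agent.R350

variable {I : Type}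

namespace EVerifyAux

/-- independent repetitions: probability that all outcomes satisfy `S` -/
theorem sum_all_pow {Ω : Type} [Fintype Ω] (p : Ω → ℝ) (S : Ω → Prop) (s : ℕ) :
    ∑ w : Fin s → Ω, (open Classical in if ∀ a, S (w a) then ∏ a, p (w a) else 0) =
      (∑ ω : Ω, (open Classical in if S ω then p ω else 0)) ^ s := by
  classical
  have h := Finset.prod_univ_sum (fun _ : Fin s => (Finset.univ : Finset Ω))
    (fun _ ω => if S ω then p ω else 0)
  rw [Finset.prod_const, Finset.card_univ, Fintype.card_fin] at h
  have h2 : (∑ ω : Ω, if S ω then p ω else 0) ^ s =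
      ∑ x : Fin s → Ω, ∏ i, if S (x i) then p (x i) else 0 := by
    rw [h]
    refine Finset.sum_congr ?_ fun _ _ => rfl
    ext x
    simp
  rw [h2]
  refine Finset.sum_congr rfl fun w _ => ?_
  rw [Finset.prod_ite_zero]
  simp

end EVerifyAux

open EVerifyAux

theorem Samp.verify {Jc : Type} [Fintype Jc] (J d : ℕ) (hJ : Fintype.card Jc ≤ J ^ 2) (hJ1 : 1 ≤ J)
    (check : Jc → RTree I Bool) (hd : ∀ j, (check j).depth ≤ d) :
    ∃ Q : (I → Bool) → Bool → ℝ, Samp I (160 * J * d) Q ∧
      (∀ x, (∀ j, (check j).eval x = true) → Q x true = 1) ∧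
      (∀ x, ¬ (∀ j, (check j).eval x = true) → Q x true ≤ 1 / 10000) := by
  classical
  rcases isEmpty_or_nonempty Jc with hE | hN
  · refine ⟨fun _ b => if b = true then 1 else 0, ?_, ?_, ?_⟩
    · have := Samp.pure (I := I) (fun b : Bool => if b = true then (1 : ℝ) else 0)
        (fun b => by split_ifs <;> norm_num) (by simp)
      exact this.mono (Nat.zero_le _)
    · intro x _; simp
    · intro x h; exact absurd (fun j => (IsEmpty.false j).elim) h
  · have hcard : 0 < Fintype.card Jc := Fintype.card_pos
    have hcard' : (0 : ℝ) < Fintype.card Jc := by exact_mod_cast hcard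
    set N : ℝ := (Fintype.card Jc : ℝ) with hNdef
    have hU := Samp.pure (I := I) (fun _ : Jc => 1 / N) (fun _ => by positivity) (by
      rw [Finset.sum_const, Finset.card_univ, nsmul_eq_mul, ← hNdef]
      exact mul_one_div_cancel hcard'.ne')
    have hB := Samp.bind hU (fun j => Samp.tree (I := I) (check j) (hd j))
    obtain ⟨P', hP', hκc⟩ := Samp.search hB (fun w : Jc × Bool => w.2 = false) (2 * J) (by omega)
    have hκ : ∀ x, ∃ κ : ℝ, 0 ≤ κ ∧
        (∀ ω : Jc × Bool, P' x (some ω) = if ω.2 = false then
          κ * (1 / N * (if (check ω.1).eval x = ω.2 then (1 : ℝ) else 0)) else 0) ∧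
        (4 ≤ ((2 * J : ℕ) : ℝ) ^ 2 * ∑ ω : Jc × Bool, (if ω.2 = false then
          1 / N * (if (check ω.1).eval x = ω.2 then (1 : ℝ) else 0) else 0) →
          1 / 4 ≤ κ * ∑ ω : Jc × Bool, (if ω.2 = false then
          1 / N * (if (check ω.1).eval x = ω.2 then (1 : ℝ) else 0) else 0)) := by
      intro x
      obtain ⟨κ, h0, h1, h2⟩ := hκc x
      refine ⟨κ, h0, fun ω => ?_, fun h => ?_⟩
      · convert h1 ω
      · convert h2 (by convert h)
    have hR := Samp.repeat hP' 40
    have hM := Samp.map hR (fun w : Fin 40 → Option (Jc × Bool) => decide (∀ a, w a = none))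
    have hnone : ∀ x, P' x none = 1 - ∑ ω : Jc × Bool, P' x (some ω) := by
      intro x
      have := hP'.sum_eq_one x
      rw [Fintype.sum_option] at this
      linarith
    have hQ : ∀ x, (∑ w : Fin 40 → Option (Jc × Bool),
        (if decide (∀ a, w a = none) = true then ∏ a, P' x (w a) else 0)) = P' x none ^ 40 := by
      intro x
      have h1 : ∑ w : Fin 40 → Option (Jc × Bool),
          (if ∀ a, w a = none then ∏ a, P' x (w a) else 0) =
          (∑ o : Option (Jc × Bool), (if o = none then P' x o else 0)) ^ 40 := by
        convert sum_all_pow (P' x) (fun o : Option (Jc × Bool) => o = none) 40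
      have h2 : (∑ o : Option (Jc × Bool), if o = none then P' x o else 0) = P' x none := by
        rw [Fintype.sum_option]; simp
      rw [h2] at h1
      rw [← h1]
      refine Finset.sum_congr rfl fun w _ => ?_
      simp only [decide_eq_true_eq]
    -- the mass of the good outcomes
    have hgood : ∀ x, (∑ ω : Jc × Bool, (if ω.2 = false then
        1 / N * (if (check ω.1).eval x = ω.2 then (1 : ℝ) else 0) else 0)) =
        ∑ j : Jc, 1 / N * (if (check j).eval x = false then (1 : ℝ) else 0) := by
      intro x
      rw [Fintype.sum_prod_type]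
      refine Finset.sum_congr rfl fun j _ => ?_
      rw [Fintype.sum_bool]
      simp
    refine ⟨fun x b => ∑ w : Fin 40 → Option (Jc × Bool),
      (if decide (∀ a, w a = none) = b then ∏ a, P' x (w a) else 0), ?_, ?_, ?_⟩
    · have : 40 * (2 * (2 * J) * (0 + d)) = 160 * J * d := by ring
      rw [← this]
      convert hM using 4
      congr
    · intro x hx
      show (∑ w : Fin 40 → Option (Jc × Bool),
        (if decide (∀ a, w a = none) = true then ∏ a, P' x (w a) else 0)) = 1
      rw [hQ x, hnone x]
      obtain ⟨κ, hκ0, hκ1, -⟩ := hκ x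
      have : ∑ ω : Jc × Bool, P' x (some ω) = 0 := by
        refine Finset.sum_eq_zero fun ω _ => ?_
        rw [hκ1]
        split_ifs with h1 h2
        · rw [hx] at h2; rw [h1] at h2; exact absurd h2 (by simp)
        · simp
        · rfl
      rw [this]; norm_num
    · intro x hx
      show (∑ w : Fin 40 → Option (Jc × Bool),
        (if decide (∀ a, w a = none) = true then ∏ a, P' x (w a) else 0)) ≤ 1 / 10000
      rw [hQ x]
      obtain ⟨κ, hκ0, hκ1, hκ2⟩ := hκ x
      push Not at hx
      obtain ⟨j₀, hj₀⟩ := hx
      have hj₀' : (check j₀).eval x = false := by simpa using hj₀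
      have hmass : 1 / N ≤ ∑ j : Jc, 1 / N * (if (check j).eval x = false then (1 : ℝ) else 0) := by
        have := Finset.single_le_sum
          (f := fun j : Jc => 1 / N * (if (check j).eval x = false then (1 : ℝ) else 0))
          (fun j _ => by positivity) (Finset.mem_univ j₀)
        simpa [hj₀'] using this
      have hJ2 : N ≤ (J : ℝ) ^ 2 := by rw [hNdef]; exact_mod_cast hJ
      have h4 : (4 : ℝ) ≤ ((2 * J : ℕ) : ℝ) ^ 2 * ∑ ω : Jc × Bool, (if ω.2 = false then
        1 / N * (if (check ω.1).eval x = ω.2 then (1 : ℝ) else 0) else 0) := by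
        rw [hgood x]
        push_cast
        calc (4 : ℝ) = 4 * N * (1 / N) := by field_simp
          _ ≤ (2 * (J : ℝ)) ^ 2 * (1 / N) := by
              refine mul_le_mul_of_nonneg_right ?_ (by positivity)
              nlinarith
          _ ≤ _ := mul_le_mul_of_nonneg_left hmass (by positivity)
      have h5 := hκ2 h4
      have h6 : ∑ ω : Jc × Bool, P' x (some ω) =
          κ * ∑ ω : Jc × Bool, (if ω.2 = false then
            1 / N * (if (check ω.1).eval x = ω.2 then (1 : ℝ) else 0) else 0) := by
        rw [Finset.mul_sum]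
        refine Finset.sum_congr rfl fun ω _ => ?_
        rw [hκ1]
        split_ifs <;> simp
      have h7 : P' x none ≤ 3 / 4 := by
        rw [hnone x, h6]; linarith
      have h8 : 0 ≤ P' x none := hP'.nonneg x none
      calc P' x none ^ 40 ≤ (3 / 4 : ℝ) ^ 40 := pow_le_pow_left₀ h8 h7 40
        _ ≤ 1 / 10000 := by norm_num

theorem Samp.findVerify {R : Type} [Fintype R] {Tf Tv : ℕ} (F : (I → Bool) → Bool)
    (valid : R → (I → Bool) → Prop) (hF : ∀ x, F x = true ↔ ∃ r, valid r x)
    {P : (I → Bool) → Option R → ℝ} (hP : Samp I Tf P)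
    {Q : R → (I → Bool) → Bool → ℝ} (hQ : ∀ r, Samp I Tv (Q r))
    (hfind : ∀ x, F x = true → ∃ r, valid r x ∧ 1 / 20 ≤ P x (some r))
    (hv1 : ∀ r x, valid r x → Q r x true = 1)
    (hv2 : ∀ r x, ¬ valid r x → Q r x true ≤ 1 / 10000) :
    ∃ P' : (I → Bool) → Bool → ℝ, Samp I (100 * (Tf + Tv)) P' ∧ ∀ x, 2 / 3 ≤ P' x (F x) := by
  classical
  let Qo : Option R → (I → Bool) → Bool → ℝ := fun o =>
    match o with
    | some r => Q r
    | none => fun _ b => if b = false then 1 else 0
  have hQo : ∀ o, Samp I Tv (Qo o) := by
    intro o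
    cases o with
    | some r => exact hQ r
    | none =>
        have := Samp.pure (I := I) (fun b : Bool => if b = false then (1 : ℝ) else 0)
          (fun b => by split_ifs <;> norm_num) (by simp)
        exact this.mono (Nat.zero_le _)
  have hT := Samp.bind hP hQo
  have hR := Samp.repeat hT 100
  have hM := Samp.map hR
    (fun w : Fin 100 → Option R × Bool => decide (¬ ∀ a, (w a).2 = false))
  set tr : (I → Bool) → Option R × Bool → ℝ := fun x w => P x w.1 * Qo w.1 x w.2 with htr
  -- probability that a trial answers `false`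
  let f : (I → Bool) → ℝ := fun x => ∑ w : Option R × Bool, if w.2 = false then tr x w else 0
  let t : (I → Bool) → ℝ := fun x => ∑ w : Option R × Bool, if w.2 = true then tr x w else 0
  have hft : ∀ x, f x + t x = 1 := by
    intro x
    rw [← hT.sum_eq_one x, ← Finset.sum_add_distrib]
    refine Finset.sum_congr rfl fun w _ => ?_
    rcases w with ⟨o, b⟩
    cases b <;> simp [htr]
  have ht : ∀ x, t x = ∑ r : R, P x (some r) * Q r x true := by
    intro x
    simp only [t]
    rw [Fintype.sum_prod_type, Fintype.sum_option]
    simp [htr, Qo]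
  have hsum : ∀ x, ∑ r : R, P x (some r) ≤ 1 := by
    intro x
    have h1 := hP.sum_eq_one x
    rw [Fintype.sum_option] at h1
    have h2 := hP.nonneg x none
    linarith
  have hf0 : ∀ x, 0 ≤ f x := by
    intro x
    refine Finset.sum_nonneg fun w _ => ?_
    split_ifs
    · exact hT.nonneg x w
    · exact le_rfl
  have hfalse : ∀ x, (∑ w : Fin 100 → Option R × Bool,
      (if decide (¬ ∀ a, (w a).2 = false) = false then ∏ a, tr x (w a) else 0)) = f x ^ 100 := by
    intro x
    have h1 : ∑ w : Fin 100 → Option R × Bool,
        (if ∀ a, (w a).2 = false then ∏ a, tr x (w a) else 0) =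
        (∑ w : Option R × Bool, (if w.2 = false then tr x w else 0)) ^ 100 := by
      convert sum_all_pow (tr x) (fun o : Option R × Bool => o.2 = false) 100
    simp only [f]
    rw [← h1]
    refine Finset.sum_congr rfl fun w _ => ?_
    simp only [decide_eq_false_iff_not, not_not]
  have htrue : ∀ x, (∑ w : Fin 100 → Option R × Bool,
      (if decide (¬ ∀ a, (w a).2 = false) = true then ∏ a, tr x (w a) else 0)) = 1 - f x ^ 100 := by
    intro x
    rw [← hfalse x, eq_sub_iff_add_eq, ← hR.sum_eq_one x, ← Finset.sum_add_distrib]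
    refine Finset.sum_congr rfl fun w _ => ?_
    by_cases hw : ∀ a, (w a).2 = false <;> simp [hw, htr]
  refine ⟨fun x b => ∑ w : Fin 100 → Option R × Bool,
    (if decide (¬ ∀ a, (w a).2 = false) = b then ∏ a, tr x (w a) else 0), ?_, ?_⟩
  · convert hM using 4
    congr
  · intro x
    cases hx : F x with
    | true =>
        show 2 / 3 ≤ (∑ w : Fin 100 → Option R × Bool,
          (if decide (¬ ∀ a, (w a).2 = false) = true then ∏ a, tr x (w a) else 0))
        rw [htrue x]
        obtain ⟨r, hr, hr20⟩ := hfind x hx
        have h1 : 1 / 20 ≤ t x := by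
          rw [ht x]
          have h2 := Finset.single_le_sum (f := fun r : R => P x (some r) * Q r x true)
            (fun r _ => mul_nonneg (hP.nonneg x _) ((hQ r).nonneg x _)) (Finset.mem_univ r)
          simp only [hv1 r x hr, mul_one] at h2
          linarith
        have h3 : f x ≤ 19 / 20 := by
          have := hft x
          linarith
        have h4 : f x ^ 100 ≤ (19 / 20 : ℝ) ^ 100 := pow_le_pow_left₀ (hf0 x) h3 100
        have h5 : (19 / 20 : ℝ) ^ 100 ≤ 1 / 3 := by norm_num
        linarith
    | false =>
        show 2 / 3 ≤ (∑ w : Fin 100 → Option R × Bool,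
          (if decide (¬ ∀ a, (w a).2 = false) = false then ∏ a, tr x (w a) else 0))
        rw [hfalse x]
        have hnv : ∀ r, ¬ valid r x := by
          intro r hr
          have := (hF x).2 ⟨r, hr⟩
          rw [hx] at this
          exact absurd this (by simp)
        have h1 : t x ≤ 1 / 10000 := by
          rw [ht x]
          calc ∑ r : R, P x (some r) * Q r x true ≤ ∑ r : R, P x (some r) * (1 / 10000) := by
                refine Finset.sum_le_sum fun r _ => ?_
                exact mul_le_mul_of_nonneg_left (hv2 r x (hnv r)) (hP.nonneg x _)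
            _ = (∑ r : R, P x (some r)) * (1 / 10000) := by rw [Finset.sum_mul]
            _ ≤ 1 * (1 / 10000) := mul_le_mul_of_nonneg_right (hsum x) (by norm_num)
            _ = 1 / 10000 := by norm_num
        have h3 : (9999 / 10000 : ℝ) ≤ f x := by
          have := hft x
          linarith
        have h4 : (9999 / 10000 : ℝ) ^ 100 ≤ f x ^ 100 := pow_le_pow_left₀ (by norm_num) h3 100
        have h5 : (2 / 3 : ℝ) ≤ (9999 / 10000 : ℝ) ^ 100 := by norm_num
        linarith

end Crest.Agent.R350
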