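import Crest.Agent.R350.FTab

/-! # Row 350, piece FCheckB -/

set_option autoImplicit false

namespace Crest.Agent.R350.FCheckB

theorem tab_eq_run {n K L M β : ℕ} {dec : (Fin β → Bool) → ℤ} {τ : ℝ}
    {x : Idx n K L M β → Bool} {r : Fin L → Bool} (h : Valid dec τ x r) (l : Fin L) (i : Fin M)
    (s : ℕ) (hs : s < K * (n + 1) + 1) (v : V n) :
    tab dec x r l i ⟨s, hs⟩ v = run (dat x (col x r) l i) s v := by
  obtain ⟨-, -, -, h0, hst, -⟩ := h
  induction s generalizing v with
  | zero =>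
    have := h0 l i v
    simpa [run] using this
  | succ s ih =>
    have hs' : s < K * (n + 1) := by omega
    have h1 := hst l i ⟨s, hs'⟩ v
    have e : (fun v' => tab dec x r l i (Fin.castSucc ⟨s, hs'⟩) v')
        = run (dat x (col x r) l i) s := by
      funext v'
      exact ih (by omega) v'
    rw [e] at h1
    exact h1

theorem good {n K L M β : ℕ} {dec : (Fin β → Bool) → ℤ} {τ : ℝ}
    {x : Idx n K L M β → Bool} {r : Fin L → Bool} (h : Valid dec τ x r) (l : Fin L) :
    τ ≤ (sg (r l) : ℝ) * ∑ i : Fin M, (Psi (dat x (col x r) l i) : ℝ) := by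
  have h1 := h.2.2.2.2.2 l
  have e : ∀ i : Fin M, tab dec x r l i (Fin.last _) (fun _ => false)
      = Psi (dat x (col x r) l i) := by
    intro i
    rw [← run_last]
    exact tab_eq_run h l i (K * (n + 1)) (Nat.lt_succ_self _) _
  simp only [e] at h1
  exact h1

theorem exists_cell' {n K L M β : ℕ} (dec : (Fin β → Bool) → ℤ)
    (hdec : ∀ a : ℤ, |a| ≤ 2 ^ (n * K) → ∃ v, dec v = a) (b : V n) (z : V n → V n)
    (y : DataBit n K L M → Bool) :
    ∃ w : CellBit n K L M β → Bool, ∀ (τ : ℝ) (r : Fin L → Bool) (Y : V n → DataBit n K L M → Bool),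
      Y b = y → Good τ r y → Valid dec τ (x1 z Y b r w) r := by
  have hex : ∀ (l : Fin L) (i : Fin M) (s : Fin (K * (n + 1) + 1)) (v : V n),
      ∃ e : Fin β → Bool, dec e = run (fun p => y (l, i, p)) (s : ℕ) v := by
    intro l i s v
    exact hdec _ (abs_run_le _ (Nat.lt_succ_iff.1 s.2) v)
  choose enc henc using hex
  refine ⟨fun q => match q with
    | Sum.inl _ => true
    | Sum.inr (Sum.inl q) => b q
    | Sum.inr (Sum.inr (Sum.inl (c, q))) => z c q
    | Sum.inr (Sum.inr (Sum.inr (l, i, s, v, q))) => enc l i s v q, ?_⟩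
  intro τ r Y hY hgood
  set w : CellBit n K L M β → Bool := fun q => match q with
    | Sum.inl _ => true
    | Sum.inr (Sum.inl q) => b q
    | Sum.inr (Sum.inr (Sum.inl (c, q))) => z c q
    | Sum.inr (Sum.inr (Sum.inr (l, i, s, v, q))) => enc l i s v q with hw
  have hcell : ∀ q : CellBit n K L M β, x1 z Y b r w (iCell r q) = w q := by
    intro q
    simp [x1, iCell]
  have hcol : col (x1 z Y b r w) r = b := by
    funext q
    simp only [col, hcell]
    rfl
  have hptr : ∀ c, ptr (x1 z Y b r w) r c = z c := by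
    intro c
    funext q
    simp only [ptr, hcell]
    rfl
  have htab : ∀ l i s v, tab dec (x1 z Y b r w) r l i s v
      = run (fun p => y (l, i, p)) (s : ℕ) v := by
    intro l i s v
    rw [← henc]
    simp only [tab, hcell]
    rfl
  have hdat : ∀ l i, dat (x1 z Y b r w) b l i = fun p => y (l, i, p) := by
    intro l i
    funext p
    rw [← hY]
    rfl
  refine ⟨?_, ?_, ?_, ?_, ?_, ?_⟩
  · rw [hcell]; rfl
  · intro i
    rw [hcol]
    simp [x1, iMark]
  · intro c hc
    rw [hcol] at hc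
    rw [hptr]
    simp [x1, iMark, hc]
  · intro l i v
    rw [htab]
    rfl
  · intro l i s v
    rw [htab, hcol, hdat]
    have e : (fun v' => tab dec (x1 z Y b r w) r l i s.castSucc v')
        = run (fun p => y (l, i, p)) (s : ℕ) := by
      funext v'
      rw [htab]
      rfl
    rw [e]
    rfl
  · intro l
    have h1 := hgood l
    have e : ∀ i : Fin M, tab dec (x1 z Y b r w) r l i (Fin.last _) (fun _ => false)
        = Psi (fun p => y (l, i, p)) := by
      intro i
      rw [htab]
      exact run_last _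
    simp only [e]
    exact h1

theorem FF_x0' {n K L M β : ℕ} (dec : (Fin β → Bool) → ℤ) (τ : ℝ) (z : V n → V n)
    (y : V n → DataBit n K L M → Bool) :
    FF (n := n) (K := K) (L := L) (M := M) (β := β) dec τ (x0 z y) = false := by
  unfold FF
  rw [decide_eq_false_iff_not]
  rintro ⟨r, h⟩
  have := h.1
  simp [x0, iCell] at this

theorem exists_dec' (e : ℕ) : ∃ dec : (Fin (e + 2) → Bool) → ℤ, ∀ a : ℤ, |a| ≤ 2 ^ e → ∃ v, dec v = a := by
  classical
  -- an injection from the interval into the bit strings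
  have hcard : (Finset.Icc (-(2 ^ e : ℤ)) (2 ^ e)).card ≤ Fintype.card (Fin (e + 2) → Bool) := by
    simp only [Int.card_Icc, Fintype.card_fun, Fintype.card_bool, Fintype.card_fin]
    have : (2 ^ e + 1 - -(2 ^ e : ℤ)).toNat = 2 * 2 ^ e + 1 := by
      have : (2 ^ e + 1 - -(2 ^ e : ℤ)) = ((2 * 2 ^ e + 1 : ℕ) : ℤ) := by push_cast; ring
      rw [this, Int.toNat_natCast]
    rw [this, pow_add]
    have : 1 ≤ 2 ^ e := Nat.one_le_two_pow
    omega
  have hne : Nonempty (Finset.Icc (-(2 ^ e : ℤ)) (2 ^ e)) := ⟨⟨0, by simp⟩⟩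
  have hcard' : Fintype.card (Finset.Icc (-(2 ^ e : ℤ)) (2 ^ e)) ≤
      Fintype.card (Fin (e + 2) → Bool) := by
    rw [Fintype.card_coe]; exact hcard
  obtain ⟨f⟩ := Function.Embedding.nonempty_of_card_le hcard'
  refine ⟨fun v => (Function.invFun f v : Finset.Icc (-(2 ^ e : ℤ)) (2 ^ e)), ?_⟩
  intro a ha
  have hmem : a ∈ Finset.Icc (-(2 ^ e : ℤ)) (2 ^ e) := by
    rw [Finset.mem_Icc]
    exact abs_le.1 ha
  refine ⟨f ⟨a, hmem⟩, ?_⟩
  simp only
  rw [Function.leftInverse_invFun f.injective]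

end Crest.Agent.R350.FCheckB
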