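import Crest.Agent.R350.FTab
import Crest.Agent.R350.FCheckB

/-!
# Row 350, piece FCheck: certificates are locally checkable; kill trees; soundness and completeness

`Chk` is the type of the local checks of a certificate `r`:
`inl ()` flag; marker `i` of the column; zero marker of column `c` (true if `c = col`); `(l,i,v)` table at level `0`;
`(l,i,s,v)` table step; `l` threshold.
Each check is a function which reads the `n` bits of `col x r` and then bits at positions determined by them (`RTree.bind` and
`RTree.exists_of_depends` twice): marker check `n + 1`; zero marker check `n + n + 1` (col, pointer, marker); level `0`: `β`;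
step: `n` (col) `+ 3 β + 1`; threshold: `M β`.  All are `≤ 2 n + 1 + (M + 3) β`.
`kill r c`: read the pointer `ptr x r c` (`n` bits), then the marker: `true` iff the marker is `false`.
-/

set_option autoImplicit false

namespace Crest.Agent.R350

/-- index type of the local checks -/
abbrev Chk (n K L M : ℕ) : Type :=
  Unit ⊕ (V n ⊕ (V n ⊕ ((Fin L × Fin M × V n) ⊕ ((Fin L × Fin M × Fin (K * (n + 1)) × V n) ⊕ Fin L))))

theorem card_Chk (n K L M : ℕ) : Fintype.card (Chk n K L M) ≤
    2 ^ n * (3 + L * M + L * M * (K * (n + 1)) + L) := by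
  have h1 : 1 ≤ 2 ^ n := Nat.one_le_two_pow
  simp only [Chk, V, Fintype.card_sum, Fintype.card_prod, Fintype.card_fin, Fintype.card_unit,
    Fintype.card_pi, Fintype.card_bool, Finset.prod_const, Finset.card_univ]
  have h2 : L ≤ 2 ^ n * L := Nat.le_mul_of_pos_left _ h1
  have e : 2 ^ n * (3 + L * M + L * M * (K * (n + 1)) + L)
      = 2 ^ n + 2 ^ n + 2 ^ n + L * (M * 2 ^ n) + L * (M * (K * (n + 1) * 2 ^ n)) + 2 ^ n * L := by
    ring
  rw [e]
  omega

/-- `f` is computed by a decision tree of depth at most `d` -/
def Rd {I Ω : Type} (d : ℕ) (f : (I → Bool) → Ω) : Prop :=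
  ∃ t : RTree I Ω, t.depth ≤ d ∧ ∀ x, t.eval x = f x

theorem Rd.mono {I Ω : Type} {d d' : ℕ} {f : (I → Bool) → Ω} (h : Rd d f) (hd : d ≤ d') :
    Rd d' f := by
  obtain ⟨t, h1, h2⟩ := h
  exact ⟨t, h1.trans hd, h2⟩

theorem Rd.bits {I Ω κ : Type} [Fintype κ] (e : κ → I) (g : (κ → Bool) → Ω) :
    Rd (Fintype.card κ) (fun x : I → Bool => g (fun k => x (e k))) := by
  classical
  obtain ⟨t, h1, h2⟩ := RTree.exists_of_depends (Finset.univ.image e)
    (fun x : I → Bool => g (fun k => x (e k))) (by
      intro x y h
      congr 1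
      funext k
      exact h _ (Finset.mem_image_of_mem _ (Finset.mem_univ _)))
  refine ⟨t, h1.trans ?_, h2⟩
  exact Finset.card_image_le.trans (by simp)

theorem Rd.bind {I Ω Ω' : Type} {d₁ d₂ : ℕ} {f : (I → Bool) → Ω} {g : Ω → (I → Bool) → Ω'}
    (hf : Rd d₁ f) (hg : ∀ ω, Rd d₂ (g ω)) : Rd (d₁ + d₂) (fun x => g (f x) x) := by
  classical
  obtain ⟨t, h1, h2⟩ := hf
  choose u h3 h4 using hg
  refine ⟨t.bind u, (RTree.depth_bind u t h3).trans (by omega), fun x => ?_⟩
  rw [RTree.eval_bind, h2, h4]

theorem exists_checks {n K L M β : ℕ} (dec : (Fin β → Bool) → ℤ) (τ : ℝ) (r : Fin L → Bool) :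
    ∃ check : Chk n K L M → RTree (Idx n K L M β) Bool,
      (∀ c, (check c).depth ≤ 2 * n + 1 + (M + 3) * β) ∧
      ∀ x, Valid dec τ x r ↔ ∀ c, (check c).eval x = true := by
  classical
  have hcol : Rd n (fun x : Idx n K L M β → Bool => col x r) := by
    have := Rd.bits (I := Idx n K L M β) (fun q : Fin n => iCell r (bCol q)) (fun v => v)
    exact Rd.mono this (by simp)
  have hptr : ∀ c, Rd n (fun x : Idx n K L M β → Bool => ptr x r c) := by
    intro c
    have := Rd.bits (I := Idx n K L M β) (fun q : Fin n => iCell r (bPtr c q)) (fun v => v)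
    exact Rd.mono this (by simp)
  have h1 : Rd (2 * n + 1 + (M + 3) * β)
      (fun x : Idx n K L M β → Bool => x (iCell r bFlag)) := by
    have := Rd.bits (I := Idx n K L M β) (fun _ : Unit => iCell r bFlag) (fun v => v ())
    refine this.mono ?_
    simp only [Fintype.card_unit]
    omega
  have h2 : ∀ i : V n, Rd (2 * n + 1 + (M + 3) * β)
      (fun x : Idx n K L M β → Bool => x (iMark (col x r) i)) := by
    intro i
    have := hcol.bind (d₂ := 1) (g := fun c x => x (iMark c i)) (fun c => by
      have := Rd.bits (I := Idx n K L M β) (fun _ : Unit => iMark c i) (fun v => v ())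
      simpa using this)
    exact this.mono (by omega)
  have h3 : ∀ c : V n, Rd (2 * n + 1 + (M + 3) * β)
      (fun x : Idx n K L M β → Bool =>
        decide (c ≠ col x r → x (iMark c (ptr x r c)) = false)) := by
    intro c
    have := hcol.bind (d₂ := n + 1)
      (g := fun c' x => decide (c ≠ c' → x (iMark c (ptr x r c)) = false)) (fun c' => by
      refine (hptr c).bind (d₂ := 1) (g := fun p x => decide (c ≠ c' → x (iMark c p) = false))
        (fun p => ?_)
      have := Rd.bits (I := Idx n K L M β) (fun _ : Unit => iMark c p)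
        (fun v => decide (c ≠ c' → v () = false))
      simpa only [Fintype.card_unit] using this)
    exact this.mono (by omega)
  have hβ : ∀ k : ℕ, k ≤ M + 3 → k * β ≤ (M + 3) * β := fun k hk => Nat.mul_le_mul_right _ hk
  have h4 : ∀ p : Fin L × Fin M × V n, Rd (2 * n + 1 + (M + 3) * β)
      (fun x : Idx n K L M β → Bool => decide (tab dec x r p.1 p.2.1 0 p.2.2 = 1)) := by
    intro p
    have := Rd.bits (I := Idx n K L M β) (fun q : Fin β => iCell r (bTab p.1 p.2.1 0 p.2.2 q))
      (fun v => decide (dec v = 1))
    refine this.mono ?_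
    simp only [Fintype.card_fin]
    have := hβ 1 (by omega)
    omega
  have h5 : ∀ p : Fin L × Fin M × Fin (K * (n + 1)) × V n, Rd (2 * n + 1 + (M + 3) * β)
      (fun x : Idx n K L M β → Bool => decide (tab dec x r p.1 p.2.1 p.2.2.1.succ p.2.2.2
      = estep (dat x (col x r) p.1 p.2.1) (p.2.2.1 : ℕ)
        (fun v' => tab dec x r p.1 p.2.1 p.2.2.1.castSucc v') p.2.2.2)) := by
    rintro ⟨l, i, s, v⟩
    simp only [estep]
    by_cases h : 0 < (s : ℕ) % (n + 1)
    · simp only [h, dif_pos]
      have := Rd.bits (I := Idx n K L M β)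
        (Sum.elim (fun q : Fin β => iCell r (bTab l i s.succ v q))
          (Sum.elim (fun q : Fin β => iCell r
              (bTab l i s.castSucc (Function.update v (bfly (s : ℕ) h) false) q))
            (fun q : Fin β => iCell r
              (bTab l i s.castSucc (Function.update v (bfly (s : ℕ) h) true) q))))
        (fun w => decide (dec (fun q => w (Sum.inl q)) =
          dec (fun q => w (Sum.inr (Sum.inl q))) + (if v (bfly (s : ℕ) h) then -1 else 1) *
            dec (fun q => w (Sum.inr (Sum.inr q)))))
      refine Rd.mono this ?_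
      simp only [Fintype.card_sum, Fintype.card_fin]
      have := hβ 3 (by omega)
      omega
    · simp only [h, dif_neg, not_false_iff]
      by_cases hK : (s : ℕ) / (n + 1) < K
      · simp only [blk, hK, dif_pos]
        have := hcol.bind (d₂ := 1 + (β + β))
          (g := fun c x => decide (tab dec x r l i s.succ v
            = sg (dat x c l i (⟨(s : ℕ) / (n + 1), hK⟩, v)) * tab dec x r l i s.castSucc v))
          (fun c => by
            have := Rd.bits (I := Idx n K L M β)
              (Sum.elim (fun _ : Unit => iData c (l, i, (⟨(s : ℕ) / (n + 1), hK⟩, v)))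
                (Sum.elim (fun q : Fin β => iCell r (bTab l i s.succ v q))
                  (fun q : Fin β => iCell r (bTab l i s.castSucc v q))))
              (fun w => decide (dec (fun q => w (Sum.inr (Sum.inl q))) =
                sg (w (Sum.inl ())) * dec (fun q => w (Sum.inr (Sum.inr q)))))
            exact Rd.mono this (by simp))
        refine Rd.mono this ?_
        have := hβ 2 (by omega)
        omega
      · simp only [blk, hK, dif_neg, not_false_iff]
        have := Rd.bits (I := Idx n K L M β)
          (Sum.elim (fun q : Fin β => iCell r (bTab l i s.succ v q))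
            (fun q : Fin β => iCell r (bTab l i s.castSucc v q)))
          (fun w => decide (dec (fun q => w (Sum.inl q)) =
            sg false * dec (fun q => w (Sum.inr q))))
        refine Rd.mono this ?_
        simp only [Fintype.card_sum, Fintype.card_fin]
        have := hβ 2 (by omega)
        omega
  have h6 : ∀ l : Fin L, Rd (2 * n + 1 + (M + 3) * β)
      (fun x : Idx n K L M β → Bool => decide (τ ≤ (sg (r l) : ℝ) *
        ∑ i : Fin M, (tab dec x r l i (Fin.last _) (fun _ => false) : ℝ))) := by
    intro l
    have := Rd.bits (I := Idx n K L M β)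
      (fun p : Fin M × Fin β => iCell r (bTab l p.1 (Fin.last _) (fun _ => false) p.2))
      (fun w => decide (τ ≤ (sg (r l) : ℝ) * ∑ i : Fin M, (dec (fun q => w (i, q)) : ℝ)))
    refine Rd.mono this ?_
    simp only [Fintype.card_prod, Fintype.card_fin]
    have := hβ M (by omega)
    omega
  obtain ⟨t1, d1, e1⟩ := h1
  choose t2 d2 e2 using h2
  choose t3 d3 e3 using h3
  choose t4 d4 e4 using h4
  choose t5 d5 e5 using h5
  choose t6 d6 e6 using h6
  refine ⟨Sum.elim (fun _ => t1) (Sum.elim t2 (Sum.elim t3 (Sum.elim t4 (Sum.elim t5 t6)))),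
    ?_, ?_⟩
  · rintro (c | c | c | c | c | c)
    · exact d1
    · exact d2 c
    · exact d3 c
    · exact d4 c
    · exact d5 c
    · exact d6 c
  · intro x
    simp only [Sum.forall, Sum.elim_inl, Sum.elim_inr, e1, e2, e3, e4, e5, e6, decide_eq_true_eq,
      Prod.forall, forall_const, Valid]

theorem exists_kill {n K L M β : ℕ} (r : Fin L → Bool) (c : V n) :
    ∃ kill : RTree (Idx n K L M β) Bool, kill.depth ≤ n + 1 ∧
      ∀ x, kill.eval x = !(x (iMark c (ptr x r c))) := by
  classical
  have hptr : Rd n (fun x : Idx n K L M β → Bool => ptr x r c) := by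
    have := Rd.bits (I := Idx n K L M β) (fun q : Fin n => iCell r (bPtr c q)) (fun v => v)
    exact Rd.mono this (by simp)
  exact hptr.bind (d₂ := 1) (g := fun p x => !(x (iMark c p))) (fun p => by
    have := Rd.bits (I := Idx n K L M β) (fun _ : Unit => iMark c p) (fun v => !(v ()))
    simpa only [Fintype.card_unit] using this)

/-- soundness: a valid certificate certifies the promise for its column -/
theorem Valid.good {n K L M β : ℕ} {dec : (Fin β → Bool) → ℤ} {τ : ℝ}
    {x : Idx n K L M β → Bool} {r : Fin L → Bool} (h : Valid dec τ x r) (l : Fin L) :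
    τ ≤ (sg (r l) : ℝ) * ∑ i : Fin M, (Psi (dat x (col x r) l i) : ℝ) :=
  FCheckB.good h l

/-- completeness: for every column `b`, zeros `z` and data `y` there is a cell content which makes the certificate valid -/
theorem exists_cell {n K L M β : ℕ} (dec : (Fin β → Bool) → ℤ)
    (hdec : ∀ a : ℤ, |a| ≤ 2 ^ (n * K) → ∃ v, dec v = a) (b : V n) (z : V n → V n)
    (y : DataBit n K L M → Bool) :
    ∃ w : CellBit n K L M β → Bool, ∀ (τ : ℝ) (r : Fin L → Bool) (Y : V n → DataBit n K L M → Bool),
      Y b = y → Good τ r y → Valid dec τ (x1 z Y b r w) r :=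
  FCheckB.exists_cell' dec hdec b z y

/-- blank inputs have no valid certificate -/
theorem FF_x0 {n K L M β : ℕ} (dec : (Fin β → Bool) → ℤ) (τ : ℝ) (z : V n → V n)
    (y : V n → DataBit n K L M → Bool) :
    FF (n := n) (K := K) (L := L) (M := M) (β := β) dec τ (x0 z y) = false :=
  FCheckB.FF_x0' dec τ z y

/-- integers of absolute value at most `2^e` are decoded from `e + 2` bits -/
theorem exists_dec (e : ℕ) : ∃ dec : (Fin (e + 2) → Bool) → ℤ, ∀ a : ℤ, |a| ≤ 2 ^ e → ∃ v, dec v = a :=
  FCheckB.exists_dec' e

end Crest.Agent.R350
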