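import Crest.Agent.R350.TBasic

/-!
# Row 350: the total function `F` (definitions)

Parameters: `n` (columns and marker positions are indexed by `V n`), `K` (number of blocks of Forrelation), `L` (address length),
`M` (number of Forrelation instances per address bit), `β` (bits per integer), `dec : (Fin β → Bool) → ℤ` (decoding of integers),
`τ : ℝ` (threshold).

Input bits (`Idx`): markers `a(c,i)`, data `y(c,l,i,·) : Inst K n`, cells: for every address `r : Fin L → Bool` a flag, a column
name, a pointer for every column and a table of integers.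
-/

set_option autoImplicit false

namespace Crest.Agent.R350

/-- the bits of one cell: flag, column name, pointers, table -/
abbrev CellBit (n K L M β : ℕ) : Type :=
  Unit ⊕ (Fin n ⊕ ((V n × Fin n) ⊕ (Fin L × Fin M × Fin (K * (n + 1) + 1) × V n × Fin β)))

/-- general shape of the index set: markers, data, cells -/
abbrev GIdx (C P D A B : Type) : Type := (C × P) ⊕ ((C × D) ⊕ (A × B))

/-- data bits of one column -/
abbrev DataBit (n K L M : ℕ) : Type := Fin L × Fin M × (Fin K × V n)

/-- the index set of the input bits -/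
abbrev Idx (n K L M β : ℕ) : Type :=
  GIdx (V n) (V n) (DataBit n K L M) (Fin L → Bool) (CellBit n K L M β)

section accessors
variable {n K L M β : ℕ}

/-- marker bit -/
def iMark (c i : V n) : Idx n K L M β := Sum.inl (c, i)
/-- data bit -/
def iData (c : V n) (d : DataBit n K L M) : Idx n K L M β := Sum.inr (Sum.inl (c, d))
/-- bit of a cell -/
def iCell (r : Fin L → Bool) (b : CellBit n K L M β) : Idx n K L M β := Sum.inr (Sum.inr (r, b))
/-- flag bit -/
def bFlag : CellBit n K L M β := Sum.inl ()
/-- bit of the column name -/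
def bCol (q : Fin n) : CellBit n K L M β := Sum.inr (Sum.inl q)
/-- bit of the pointer of column `c` -/
def bPtr (c : V n) (q : Fin n) : CellBit n K L M β := Sum.inr (Sum.inr (Sum.inl (c, q)))
/-- bit of the table -/
def bTab (l : Fin L) (i : Fin M) (s : Fin (K * (n + 1) + 1)) (v : V n) (q : Fin β) :
    CellBit n K L M β := Sum.inr (Sum.inr (Sum.inr (l, i, s, v, q)))

/-- the column named by cell `r` -/
def col (x : Idx n K L M β → Bool) (r : Fin L → Bool) : V n := fun q => x (iCell r (bCol q))
/-- the pointer of cell `r` for column `c` -/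
def ptr (x : Idx n K L M β → Bool) (r : Fin L → Bool) (c : V n) : V n :=
  fun q => x (iCell r (bPtr c q))
/-- the instance `(l, i)` in the data of column `c` -/
def dat (x : Idx n K L M β → Bool) (c : V n) (l : Fin L) (i : Fin M) : Inst K n :=
  fun p => x (iData c (l, i, p))
/-- the table entry of cell `r` -/
def tab (dec : (Fin β → Bool) → ℤ) (x : Idx n K L M β → Bool) (r : Fin L → Bool) (l : Fin L)
    (i : Fin M) (s : Fin (K * (n + 1) + 1)) (v : V n) : ℤ :=
  dec (fun q => x (iCell r (bTab l i s v q)))
end accessors

/-- the coordinate treated by the butterfly step `s` -/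
def bfly {n : ℕ} (s : ℕ) (h : 0 < s % (n + 1)) : Fin n :=
  ⟨s % (n + 1) - 1, by have h2 : s % (n + 1) < n + 1 := Nat.mod_lt s (Nat.succ_pos n); omega⟩

/-- elementary step `s` of the computation of `Psi`: if `s = t (n+1)`: multiply by the signs of block `t`; if
`s = t (n+1) + q + 1`, `q < n`: butterfly in coordinate `q`. -/
def estep {K n : ℕ} (z : Inst K n) (s : ℕ) (w : V n → ℤ) : V n → ℤ :=
  if h : 0 < s % (n + 1) then
    fun v => w (Function.update v (bfly s h) false)
      + (if v (bfly s h) then -1 else 1) * w (Function.update v (bfly s h) true)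
  else fun v => sg (blk z (s / (n + 1)) v) * w v

/-- the exact table -/
def run {K n : ℕ} (z : Inst K n) : ℕ → V n → ℤ
  | 0 => fun _ => 1
  | s + 1 => estep z s (run z s)

/-- the certificate `r` is valid on input `x` -/
def Valid {n K L M β : ℕ} (dec : (Fin β → Bool) → ℤ) (τ : ℝ) (x : Idx n K L M β → Bool)
    (r : Fin L → Bool) : Prop :=
  x (iCell r bFlag) = true ∧
  (∀ i : V n, x (iMark (col x r) i) = true) ∧
  (∀ c : V n, c ≠ col x r → x (iMark c (ptr x r c)) = false) ∧
  (∀ l i v, tab dec x r l i 0 v = 1) ∧
  (∀ (l : Fin L) (i : Fin M) (s : Fin (K * (n + 1))) (v : V n),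
    tab dec x r l i s.succ v
      = estep (dat x (col x r) l i) (s : ℕ) (fun v' => tab dec x r l i s.castSucc v') v) ∧
  (∀ l : Fin L, τ ≤ (sg (r l) : ℝ) *
    ∑ i : Fin M, (tab dec x r l i (Fin.last _) (fun _ => false) : ℝ))

/-- the total function -/
noncomputable def FF {n K L M β : ℕ} (dec : (Fin β → Bool) → ℤ) (τ : ℝ)
    (x : Idx n K L M β → Bool) : Bool :=
  open Classical in decide (∃ r : Fin L → Bool, Valid dec τ x r)

/-- the promise on the data of a column with address `r` -/
def Good {n K L M : ℕ} (τ : ℝ) (r : Fin L → Bool) (y : DataBit n K L M → Bool) : Prop :=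
  ∀ l : Fin L, τ ≤ (sg (r l) : ℝ) * ∑ i : Fin M, (Psi (fun p => y (l, i, p)) : ℝ)

/-- blank input: column `c` has its only zero at `z c`, data `y`, no cells -/
def x0 {C P D A B : Type} [DecidableEq P] (z : C → P) (y : C → D → Bool) : GIdx C P D A B → Bool
  | Sum.inl (c, p) => decide (p ≠ z c)
  | Sum.inr (Sum.inl (c, d)) => y c d
  | Sum.inr (Sum.inr _) => false

/-- input with special column `b`, address `r`, cell content `w` -/
def x1 {C P D A B : Type} [DecidableEq C] [DecidableEq P] [DecidableEq A] (z : C → P)
    (y : C → D → Bool) (b : C) (r : A) (w : B → Bool) : GIdx C P D A B → Bool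
  | Sum.inl (c, p) => decide (c = b ∨ p ≠ z c)
  | Sum.inr (Sum.inl (c, d)) => y c d
  | Sum.inr (Sum.inr (r', q)) => if r' = r then w q else false

end Crest.Agent.R350
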