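import Crest.Agent.R350.FDef

/-!
# Row 350, piece FTab: the exact table `run` computes `Psi`, and its size

PROOFS.  `run_block`: for `w : V n → ℤ` the butterflies in coordinates `0, …, q-1` applied to `w` give
`v ↦ ∑_{y : y i = v i for i ≥ q} (∏_{i<q} (if v i && y i then -1 else 1)) w y`; for `q = n` this is `∑_y chi v y * w y`.
(Induction on `q`; the sum over `y` splits according to `y q`.)  Hence `run z ((t+1)(n+1)) = iter z (t+1)` as the step
`t (n+1)` multiplies by the signs of block `t`.
`abs_run_le`: steps `s` with `s % (n+1) ≠ 0` at most double the maximum, the others keep it: `|run z s v| ≤ 2^(#{s' < s : s' % (n+1) ≠ 0})`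
and for `s ≤ K (n+1)` this number is `≤ n K`.
`abs_Psi_le`: with `‖w‖₂² = ∑ w(v)²`: each `iter` step multiplies `‖·‖₂²` by exactly `2^n` (`∑_x chi x y chi x y' = 2^n [y = y']`);
`‖iter z (K-1)‖₂² = 2^{nK}` (as `‖1‖² = 2^n`), and `Psi z = ∑_y chi 0 y sg(..) iter z (K-1) y`, so by Cauchy–Schwarz
`Psi² ≤ 2^n 2^{nK} = 2^{n(K+1)}`.
`Psi_flip`: `Psi` is linear in the signs of block `0`.
`Psi_expand`: expand all sums.
-/

set_option autoImplicit false

namespace Crest.Agent.R350

namespace FTabAux

/-- partially transformed kernel -/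
def ker {n : ℕ} (q : ℕ) (v y : V n) : ℤ :=
  ∏ i : Fin n, if i.val < q then (if v i && y i then -1 else 1) else (if v i = y i then 1 else 0)

theorem ker_zero {n : ℕ} (v y : V n) : ker 0 v y = if v = y then 1 else 0 := by
  unfold ker
  simp only [Nat.not_lt_zero, if_false]
  by_cases h : v = y
  · subst h; simp
  · rw [if_neg h]
    have : ∃ i, v i ≠ y i := by
      by_contra hc
      push Not at hc
      exact h (funext hc)
    obtain ⟨i, hi⟩ := this
    exact Finset.prod_eq_zero (Finset.mem_univ i) (by rw [if_neg hi])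

theorem ker_full {n : ℕ} (v y : V n) : ker n v y = chi v y := by
  unfold ker chi
  refine Finset.prod_congr rfl fun i _ => ?_
  rw [if_pos i.isLt]

theorem ker_succ {n : ℕ} (q : Fin n) (v y : V n) :
    ker (q.val + 1) v y = ker q.val (Function.update v q false) y +
      (if v q then -1 else 1) * ker q.val (Function.update v q true) y := by
  unfold ker
  rw [← Finset.mul_prod_erase Finset.univ _ (Finset.mem_univ q),
    ← Finset.mul_prod_erase Finset.univ (fun i : Fin n => if i.val < q.val then
      (if Function.update v q false i && y i then (-1 : ℤ) else 1) else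
      (if Function.update v q false i = y i then 1 else 0)) (Finset.mem_univ q),
    ← Finset.mul_prod_erase Finset.univ (fun i : Fin n => if i.val < q.val then
      (if Function.update v q true i && y i then (-1 : ℤ) else 1) else
      (if Function.update v q true i = y i then 1 else 0)) (Finset.mem_univ q)]
  have h1 : ∀ b : Bool, ∏ i ∈ Finset.univ.erase q, (if i.val < q.val then
      (if Function.update v q b i && y i then (-1 : ℤ) else 1) else
      (if Function.update v q b i = y i then 1 else 0)) =
      ∏ i ∈ Finset.univ.erase q, (if i.val < q.val + 1 then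
      (if v i && y i then (-1 : ℤ) else 1) else (if v i = y i then 1 else 0)) := by
    intro b
    refine Finset.prod_congr rfl fun i hi => ?_
    have hne : i ≠ q := Finset.ne_of_mem_erase hi
    rw [Function.update_of_ne hne]
    have h2 : (i.val < q.val + 1) ↔ (i.val < q.val) := by
      constructor
      · intro h
        rcases Nat.lt_succ_iff_lt_or_eq.mp h with h | h
        · exact h
        · exact absurd (Fin.ext h) hne
      · intro h; omega
    by_cases h3 : i.val < q.val
    · rw [if_pos h3, if_pos (h2.mpr h3)]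
    · rw [if_neg h3, if_neg (fun h => h3 (h2.mp h))]
  rw [h1, h1]
  have hq1 : q.val < q.val + 1 := Nat.lt_succ_self _
  simp only [Function.update_self, lt_irrefl, if_false, hq1, if_true]
  cases v q <;> cases y q <;> simp

theorem pars {n : ℕ} (y y' : V n) :
    ∑ x : V n, chi x y * chi x y' = if y = y' then 2 ^ n else 0 := by
  have h1 : ∀ x : V n, chi x y * chi x y' =
      ∏ i, ((if x i && y i then (-1 : ℤ) else 1) * (if x i && y' i then (-1 : ℤ) else 1)) := by
    intro x; unfold chi; rw [Finset.prod_mul_distrib]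
  simp only [h1]
  have h2 := Finset.prod_univ_sum (fun _ : Fin n => (Finset.univ : Finset Bool))
    (fun i b => ((if b && y i then (-1 : ℤ) else 1) * (if b && y' i then (-1 : ℤ) else 1)))
  rw [Fintype.piFinset_univ] at h2
  rw [← h2]
  by_cases h : y = y'
  · subst h
    rw [if_pos rfl]
    have : ∀ i : Fin n, ∑ b : Bool, ((if b && y i then (-1 : ℤ) else 1) *
        (if b && y i then (-1 : ℤ) else 1)) = 2 := by
      intro i
      rw [Fintype.sum_bool]
      cases y i <;> simp
    simp only [this]
    simp
  · rw [if_neg h]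
    have : ∃ i, y i ≠ y' i := by
      by_contra hc
      push Not at hc
      exact h (funext hc)
    obtain ⟨i, hi⟩ := this
    refine Finset.prod_eq_zero (Finset.mem_univ i) ?_
    rw [Fintype.sum_bool]
    revert hi
    cases y i <;> cases y' i <;> simp

theorem had_sq {n : ℕ} (u : V n → ℤ) :
    ∑ x : V n, (∑ y : V n, chi x y * u y) ^ 2 = 2 ^ n * ∑ y, u y ^ 2 := by
  have h1 : ∀ x : V n, (∑ y : V n, chi x y * u y) ^ 2 =
      ∑ y : V n, ∑ y' : V n, (u y * u y') * (chi x y * chi x y') := by
    intro x
    rw [sq, Finset.sum_mul_sum]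
    refine Finset.sum_congr rfl fun y _ => Finset.sum_congr rfl fun y' _ => ?_
    ring
  simp only [h1]
  rw [Finset.sum_comm]
  rw [Finset.mul_sum]
  refine Finset.sum_congr rfl fun y _ => ?_
  rw [Finset.sum_comm]
  have h2 : ∀ y' : V n, ∑ x : V n, (u y * u y') * (chi x y * chi x y') =
      if y = y' then u y * u y' * 2 ^ n else 0 := by
    intro y'
    rw [← Finset.mul_sum, pars]
    split_ifs <;> simp
  simp only [h2]
  rw [Finset.sum_ite_eq Finset.univ y]
  simp only [Finset.mem_univ, if_true]
  ring

theorem sg_sq (b : Bool) : sg b ^ 2 = 1 := by cases b <;> simp [sg]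

theorem iter_sq {K n : ℕ} (z : Inst K n) (t : ℕ) :
    ∑ v : V n, (iter z t v) ^ 2 = 2 ^ (n * (t + 1)) := by
  induction t with
  | zero => simp [iter]
  | succ t ih =>
    have : ∀ v : V n, iter z (t + 1) v = ∑ y : V n, chi v y * (sg (blk z t y) * iter z t y) :=
      fun v => rfl
    simp only [this]
    rw [had_sq (fun y => sg (blk z t y) * iter z t y)]
    have h2 : ∀ y : V n, (sg (blk z t y) * iter z t y) ^ 2 = iter z t y ^ 2 := by
      intro y; rw [mul_pow, sg_sq, one_mul]
    simp only [h2]
    rw [ih, ← pow_add]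
    congr 1
    ring

theorem run_mid {K n : ℕ} (z : Inst K n) (t : ℕ) (ht : run z (t * (n + 1)) = iter z t) (q : ℕ)
    (hq : q ≤ n) : run z (t * (n + 1) + 1 + q) =
      fun v => ∑ y : V n, ker q v y * (sg (blk z t y) * iter z t y) := by
  induction q with
  | zero =>
    funext v
    have h0 : run z (t * (n + 1) + 1 + 0) = estep z (t * (n + 1)) (run z (t * (n + 1))) := rfl
    rw [h0, ht]
    unfold estep
    have hm : (t * (n + 1)) % (n + 1) = 0 := Nat.mul_mod_left t (n + 1)
    have hd : (t * (n + 1)) / (n + 1) = t := Nat.mul_div_cancel t (Nat.succ_pos n)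
    rw [dif_neg (by omega), hd]
    simp only [ker_zero]
    rw [Finset.sum_eq_single v]
    · simp
    · intro b _ hb; rw [if_neg (Ne.symm hb)]; simp
    · intro h; exact absurd (Finset.mem_univ _) h
  | succ q ih =>
    have ih' := ih (by omega)
    have h0 : run z (t * (n + 1) + 1 + (q + 1)) =
      estep z (t * (n + 1) + 1 + q) (run z (t * (n + 1) + 1 + q)) := rfl
    rw [h0, ih']
    have hm : (t * (n + 1) + 1 + q) % (n + 1) = q + 1 := by
      rw [show t * (n + 1) + 1 + q = (q + 1) + t * (n + 1) by ring, Nat.add_mul_mod_self_right]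
      exact Nat.mod_eq_of_lt (by omega)
    have hpos : 0 < (t * (n + 1) + 1 + q) % (n + 1) := by omega
    have hb : bfly (n := n) (t * (n + 1) + 1 + q) hpos = ⟨q, by omega⟩ := by
      apply Fin.ext
      simp [bfly, hm]
    funext v
    unfold estep
    rw [dif_pos hpos, hb]
    simp only
    rw [Finset.mul_sum, ← Finset.sum_add_distrib]
    refine Finset.sum_congr rfl fun y _ => ?_
    have := ker_succ (⟨q, by omega⟩ : Fin n) v y
    simp only at this
    rw [this]
    ring

/-- number of butterfly steps before `s` -/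
def cnt (n s : ℕ) : ℕ := ∑ s' ∈ Finset.range s, if 0 < s' % (n + 1) then 1 else 0

theorem cnt_block (n K : ℕ) : cnt n (K * (n + 1)) = n * K := by
  induction K with
  | zero => simp [cnt]
  | succ K ih =>
    unfold cnt at *
    rw [Nat.succ_mul, Finset.sum_range_add, ih]
    have h1 : ∀ x ∈ Finset.range (n + 1), (if 0 < (K * (n + 1) + x) % (n + 1) then 1 else 0) =
        if 0 < x then 1 else 0 := by
      intro x hx
      have hx' := Finset.mem_range.mp hx
      rw [show K * (n + 1) + x = x + K * (n + 1) by ring, Nat.add_mul_mod_self_right,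
        Nat.mod_eq_of_lt hx']
    rw [Finset.sum_congr rfl h1, Finset.sum_range_succ']
    simp
    ring

theorem cnt_mono (n : ℕ) {s s' : ℕ} (h : s ≤ s') : cnt n s ≤ cnt n s' := by
  unfold cnt
  exact Finset.sum_le_sum_of_subset (Finset.range_mono h)

theorem abs_run_cnt {K n : ℕ} (z : Inst K n) (s : ℕ) : ∀ v : V n, |run z s v| ≤ 2 ^ (cnt n s) := by
  induction s with
  | zero => intro v; simp [run, cnt]
  | succ s ih =>
    intro v
    have h0 : run z (s + 1) v = estep z s (run z s) v := rfl
    rw [h0]
    have hc : cnt n (s + 1) = cnt n s + if 0 < s % (n + 1) then 1 else 0 := by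
      unfold cnt; rw [Finset.sum_range_succ]
    unfold estep
    by_cases h : 0 < s % (n + 1)
    · rw [dif_pos h, hc, if_pos h, pow_succ]
      have h1 := ih (Function.update v (bfly s h) false)
      have h2 := ih (Function.update v (bfly s h) true)
      refine (abs_add_le _ _).trans ?_
      have h3 : |(if v (bfly s h) then (-1 : ℤ) else 1) *
          run z s (Function.update v (bfly s h) true)| ≤ 2 ^ (cnt n s) := by
        rw [abs_mul]
        have : |(if v (bfly s h) then (-1 : ℤ) else 1)| = 1 := by split_ifs <;> simp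
        rw [this, one_mul]; exact h2
      linarith
    · rw [dif_neg h, hc, if_neg h, add_zero, abs_mul]
      have : |sg (blk z (s / (n + 1)) v)| = 1 := by
        cases blk z (s / (n + 1)) v <;> simp [sg]
      rw [this, one_mul]
      exact ih v

end FTabAux

open FTabAux

theorem run_block {K n : ℕ} (z : Inst K n) (t : ℕ) : run z (t * (n + 1)) = iter z t := by
  induction t with
  | zero => rw [zero_mul]; rfl
  | succ t ih =>
    have h := run_mid z t ih n (le_refl n)
    have e : (t + 1) * (n + 1) = t * (n + 1) + 1 + n := by ring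
    rw [e, h]
    funext v
    simp only [ker_full]
    rfl

theorem run_last {K n : ℕ} (z : Inst K n) : run z (K * (n + 1)) (fun _ => false) = Psi z := by
  rw [run_block]; rfl

theorem abs_run_le {K n : ℕ} (z : Inst K n) {s : ℕ} (hs : s ≤ K * (n + 1)) (v : V n) :
    |run z s v| ≤ 2 ^ (n * K) := by
  refine (abs_run_cnt z s v).trans ?_
  apply pow_le_pow_right₀ (by norm_num)
  rw [← cnt_block]
  exact cnt_mono n hs

theorem abs_Psi_le {K n : ℕ} (z : Inst K n) : (Psi z) ^ 2 ≤ 2 ^ (n * (K + 1)) := by
  rw [← iter_sq z K]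
  exact Finset.single_le_sum (f := fun v : V n => iter z K v ^ 2) (fun v _ => sq_nonneg _)
    (Finset.mem_univ (fun _ => false))

/-- flip all the bits of block `0` -/
def flip0 {K n : ℕ} (z : Inst K n) : Inst K n :=
  fun p => if (p.1 : ℕ) = 0 then !(z p) else z p

theorem flip0_flip0 {K n : ℕ} (z : Inst K n) : flip0 (flip0 z) = z := by
  funext p
  unfold flip0
  split_ifs <;> simp

theorem Psi_flip0 {K n : ℕ} (hK : 1 ≤ K) (z : Inst K n) : Psi (flip0 z) = - Psi z := by
  have h : ∀ t : ℕ, ∀ v : V n, iter (flip0 z) (t + 1) v = - iter z (t + 1) v := by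
    intro t
    induction t with
    | zero =>
      intro v
      have e1 : iter (flip0 z) (0 + 1) v =
        ∑ y : V n, chi v y * (sg (blk (flip0 z) 0 y) * 1) := rfl
      have e2 : iter z (0 + 1) v = ∑ y : V n, chi v y * (sg (blk z 0 y) * 1) := rfl
      rw [e1, e2, ← Finset.sum_neg_distrib]
      refine Finset.sum_congr rfl fun y _ => ?_
      have : sg (blk (flip0 z) 0 y) = - sg (blk z 0 y) := by
        unfold blk
        rw [dif_pos (by omega), dif_pos (by omega)]
        unfold flip0
        simp only [if_true]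
        cases z (⟨0, by omega⟩, y) <;> simp [sg]
      rw [this]; ring
    | succ t ih =>
      intro v
      have e1 : iter (flip0 z) (t + 1 + 1) v =
        ∑ y : V n, chi v y * (sg (blk (flip0 z) (t + 1) y) * iter (flip0 z) (t + 1) y) := rfl
      have e2 : iter z (t + 1 + 1) v =
        ∑ y : V n, chi v y * (sg (blk z (t + 1) y) * iter z (t + 1) y) := rfl
      rw [e1, e2, ← Finset.sum_neg_distrib]
      refine Finset.sum_congr rfl fun y _ => ?_
      have : blk (flip0 z) (t + 1) y = blk z (t + 1) y := by
        unfold blk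
        split_ifs with h
        · unfold flip0
          simp
        · rfl
      rw [this, ih]; ring
  unfold Psi
  obtain ⟨k, rfl⟩ : ∃ k, K = k + 1 := ⟨K - 1, by omega⟩
  exact h k _

theorem iter_expand {K n : ℕ} (z : Inst K n) (m : ℕ) : ∀ x' : V n,
    iter z (m + 1) x' = ∑ x : Fin (m + 1) → V n,
      chi x' (x (Fin.last m)) * ((∏ t : Fin m, chi (x t.succ) (x t.castSucc)) *
        ∏ t : Fin (m + 1), sg (blk z t (x t))) := by
  induction m with
  | zero =>
    intro x'
    have e1 : iter z (0 + 1) x' = ∑ y : V n, chi x' y * (sg (blk z 0 y) * 1) := rfl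
    rw [e1]
    refine Fintype.sum_equiv (Equiv.funUnique (Fin 1) (V n)).symm _ _ ?_
    intro y
    simp
  | succ m ih =>
    intro x'
    have e1 : iter z (m + 1 + 1) x' =
      ∑ y : V n, chi x' y * (sg (blk z (m + 1) y) * iter z (m + 1) y) := rfl
    rw [e1]
    rw [← (Fin.snocEquiv (fun _ : Fin (m + 2) => V n)).sum_comp, Fintype.sum_prod_type]
    refine Finset.sum_congr rfl fun y _ => ?_
    rw [ih y, Finset.mul_sum, Finset.mul_sum]
    refine Finset.sum_congr rfl fun x _ => ?_
    have h1 : (Fin.snocEquiv (fun _ : Fin (m + 2) => V n)) (y, x) =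
      (Fin.snoc x y : Fin (m + 2) → V n) := rfl
    rw [h1]
    rw [Fin.prod_univ_castSucc (fun t : Fin (m + 1) =>
      chi ((Fin.snoc x y : Fin (m + 2) → V n) t.succ)
        ((Fin.snoc x y : Fin (m + 2) → V n) t.castSucc)),
      Fin.prod_univ_castSucc (fun t : Fin (m + 2) =>
        sg (blk z t ((Fin.snoc x y : Fin (m + 2) → V n) t)))]
    simp only [Fin.snoc_last, Fin.snoc_castSucc, Fin.succ_last, ← Fin.castSucc_succ,
      Fin.val_last, Fin.val_castSucc]
    ring

theorem Psi_expand {Kp n : ℕ} (z : Inst (Kp + 1) n) :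
    Psi z = ∑ x : Fin (Kp + 1) → V n,
      (∏ t : Fin Kp, chi (x t.succ) (x t.castSucc)) * ∏ t, sg (z (t, x t)) := by
  unfold Psi
  rw [iter_expand z Kp]
  refine Finset.sum_congr rfl fun x _ => ?_
  have h1 : chi (fun _ => false) (x (Fin.last Kp)) = 1 := by
    unfold chi
    simp
  rw [h1, one_mul]
  congr 1
  refine Finset.prod_congr rfl fun t _ => ?_
  congr 1
  unfold blk
  rw [dif_pos t.isLt]

end Crest.Agent.R350
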