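import Mathlib

/-!
# Row 350, piece TwoPoint: the two-point inequality

PROOF.  Let `ξ₊ = 1/(1+p)`, `ξ₋ = -1/(1-p)`, probabilities `q₊ = (1+p)/2`, `q₋ = (1-p)/2`: `q₊ ξ₊ + q₋ ξ₋ = 0` and `|ξ±| ≤ 2`, so
`|E ξ^k| ≤ 2^k`.  Expand `E (w + ξ a)^(2r) = w^(2r) + ∑_{k ≥ 2} C(2r,k) w^(2r-k) a^k E ξ^k` (the term `k = 1` vanishes)
`≤ w^(2r) + ∑_{k≥2} C(2r,k) |w|^(2r-k) (2|a|)^k`.  For odd `k = 2i+1` use
`|w|^(2r-2i-1) |b|^(2i+1) ≤ (w^(2r-2i) b^(2i) + w^(2r-2i-2) b^(2i+2)) / 2` (`b = 2 a`; from `2xy ≤ x²+y²`).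
So everything is `≤ ∑_{i=0}^r c_i w^(2r-2i) b^(2i)` with `c_0 = 1`, `c_i ≤ C(2r,2i) + C(2r,2i+1)/2 + C(2r,2i-1)/2 ≤ 4^r`,
hence `≤ ∑_i C(r,i) (w²)^(r-i) (4^r b²)^i = (w² + 4^r (2a)²)^r = (w² + 4^(r+1) a²)^r` (for `i ≥ 1`: `4^r ≤ C(r,i) (4^r)^i`).
Alternative: by homogeneity one may assume `w = 1` or treat `|w| ≤ |b|` and `|w| > |b|` separately, or prove it for general
weights by induction; any proof is fine (the constant `4^(r+1)` must stay).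
-/

set_option autoImplicit false

namespace Crest.Agent.R350

namespace TwoPointAux

theorem base (r : ℕ) (z : ℝ) (hz : z ^ 2 ≤ 1) :
    ((1 + z) ^ (2 * r) + (1 - z) ^ (2 * r)) / 2 ≤ 1 + (4 ^ r - 1) * z ^ 2 ∧
    z * ((1 + z) ^ (2 * r) - (1 - z) ^ (2 * r)) / 2 ≤ (4 ^ r - 1) * z ^ 2 := by
  induction r with
  | zero => simp
  | succ r ih =>
    obtain ⟨h1, h2⟩ := ih
    have e1 : (1 + z) ^ (2 * (r + 1)) = (1 + 2 * z + z ^ 2) * (1 + z) ^ (2 * r) := by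
      rw [mul_add, pow_add]; ring
    have e2 : (1 - z) ^ (2 * (r + 1)) = (1 - 2 * z + z ^ 2) * (1 - z) ^ (2 * r) := by
      rw [mul_add, pow_add]; ring
    set A := (1 + z) ^ (2 * r)
    set B := (1 - z) ^ (2 * r)
    have hz0 : 0 ≤ z ^ 2 := sq_nonneg z
    have h4 : (1 : ℝ) ≤ 4 ^ r := one_le_pow₀ (by norm_num)
    have e3 : (4 : ℝ) ^ (r + 1) = 4 * 4 ^ r := by rw [pow_succ]; ring
    have hzz : z ^ 2 * z ^ 2 ≤ z ^ 2 := by nlinarith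
    rw [e1, e2, e3]
    constructor
    · have : ((1 + 2 * z + z ^ 2) * A + (1 - 2 * z + z ^ 2) * B) / 2 =
          (1 + z ^ 2) * ((A + B) / 2) + 2 * (z * (A - B) / 2) := by ring
      rw [this]
      have h5 : (1 + z ^ 2) * ((A + B) / 2) ≤ (1 + z ^ 2) * (1 + (4 ^ r - 1) * z ^ 2) :=
        mul_le_mul_of_nonneg_left h1 (by linarith)
      have h6 : (4 ^ r - 1) * (z ^ 2 * z ^ 2) ≤ (4 ^ r - 1) * z ^ 2 :=
        mul_le_mul_of_nonneg_left hzz (by linarith)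
      nlinarith
    · have : z * ((1 + 2 * z + z ^ 2) * A - (1 - 2 * z + z ^ 2) * B) / 2 =
          (1 + z ^ 2) * (z * (A - B) / 2) + 2 * z ^ 2 * ((A + B) / 2) := by ring
      rw [this]
      have h5 : (1 + z ^ 2) * (z * (A - B) / 2) ≤ (1 + z ^ 2) * ((4 ^ r - 1) * z ^ 2) :=
        mul_le_mul_of_nonneg_left h2 (by linarith)
      have h6 : 2 * z ^ 2 * ((A + B) / 2) ≤ 2 * z ^ 2 * (1 + (4 ^ r - 1) * z ^ 2) :=
        mul_le_mul_of_nonneg_left h1 (by linarith)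
      have h7 : (4 ^ r - 1) * (z ^ 2 * z ^ 2) ≤ (4 ^ r - 1) * z ^ 2 :=
        mul_le_mul_of_nonneg_left hzz (by linarith)
      nlinarith

theorem sym (r : ℕ) (w b : ℝ) :
    ((w + b) ^ (2 * r) + (w - b) ^ (2 * r)) / 2 ≤ (w ^ 2 + 4 ^ r * b ^ 2) ^ r := by
  rcases Nat.eq_zero_or_pos r with h0 | hr
  · subst h0; simp
  rcases le_or_gt (w ^ 2) (b ^ 2) with h | h
  · have h1 : (w + b) ^ 2 ≤ 4 * b ^ 2 := by nlinarith [sq_nonneg (w - b)]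
    have h2 : (w - b) ^ 2 ≤ 4 * b ^ 2 := by nlinarith [sq_nonneg (w + b)]
    have h3 : (4 : ℝ) * b ^ 2 ≤ w ^ 2 + 4 ^ r * b ^ 2 := by
      have : (4 : ℝ) ^ 1 ≤ 4 ^ r := pow_le_pow_right₀ (by norm_num) hr
      nlinarith [sq_nonneg b, sq_nonneg w]
    have h4 : (w + b) ^ (2 * r) ≤ (w ^ 2 + 4 ^ r * b ^ 2) ^ r := by
      rw [pow_mul]; exact pow_le_pow_left₀ (sq_nonneg _) (h1.trans h3) r
    have h5 : (w - b) ^ (2 * r) ≤ (w ^ 2 + 4 ^ r * b ^ 2) ^ r := by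
      rw [pow_mul]; exact pow_le_pow_left₀ (sq_nonneg _) (h2.trans h3) r
    linarith
  · have hw : w ≠ 0 := by
      intro hw; rw [hw] at h; nlinarith [sq_nonneg b]
    have hw2 : 0 < w ^ 2 := by positivity
    set z := b / w with hz
    have hb : b = w * z := by rw [hz]; field_simp
    have hz1 : z ^ 2 ≤ 1 := by
      rw [hz, div_pow, div_le_one hw2]; exact h.le
    have h1 := (base r z hz1).1
    have e1 : (w + b) ^ (2 * r) = (w ^ 2) ^ r * (1 + z) ^ (2 * r) := by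
      rw [hb, ← pow_mul, ← mul_pow]; ring
    have e2 : (w - b) ^ (2 * r) = (w ^ 2) ^ r * (1 - z) ^ (2 * r) := by
      rw [hb, ← pow_mul, ← mul_pow]; ring
    have e3 : (w ^ 2 + 4 ^ r * b ^ 2) ^ r = (w ^ 2) ^ r * (1 + 4 ^ r * z ^ 2) ^ r := by
      rw [hb, ← mul_pow]; ring
    rw [e1, e2, e3]
    have h2 : 1 + (4 ^ r - 1) * z ^ 2 ≤ (1 + 4 ^ r * z ^ 2) ^ r := by
      have h5 : (0 : ℝ) ≤ 4 ^ r * z ^ 2 := by positivity
      have h6 : (-2 : ℝ) ≤ 4 ^ r * z ^ 2 := by linarith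
      have h3 : 1 + (r : ℝ) * (4 ^ r * z ^ 2) ≤ (1 + 4 ^ r * z ^ 2) ^ r :=
        one_add_mul_le_pow h6 r
      have h4 : (1 : ℝ) ≤ r := by exact_mod_cast hr
      have h7 : 1 * (4 ^ r * z ^ 2) ≤ (r : ℝ) * (4 ^ r * z ^ 2) :=
        mul_le_mul_of_nonneg_right h4 h5
      have h8 : 0 ≤ z ^ 2 := sq_nonneg z
      linarith
    have h3 : 0 ≤ (w ^ 2) ^ r := by positivity
    calc ((w ^ 2) ^ r * (1 + z) ^ (2 * r) + (w ^ 2) ^ r * (1 - z) ^ (2 * r)) / 2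
        = (w ^ 2) ^ r * (((1 + z) ^ (2 * r) + (1 - z) ^ (2 * r)) / 2) := by ring
      _ ≤ (w ^ 2) ^ r * (1 + 4 ^ r * z ^ 2) ^ r :=
          mul_le_mul_of_nonneg_left (h1.trans h2) h3

end TwoPointAux

theorem two_point (r : ℕ) (p w a : ℝ) (hp : |p| ≤ 1 / 2) :
    (1 + p) / 2 * (w + a / (1 + p)) ^ (2 * r) + (1 - p) / 2 * (w - a / (1 - p)) ^ (2 * r)
      ≤ (w ^ 2 + 4 ^ (r + 1) * a ^ 2) ^ r := by
  obtain ⟨hp1, hp2⟩ := abs_le.mp hp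
  have hP : 0 < 1 + p := by linarith
  have hM : 0 < 1 - p := by linarith
  have hconv : ConvexOn ℝ Set.univ (fun x : ℝ => x ^ (2 * r)) :=
    Even.convexOn_pow (even_two_mul r)
  have key : ∀ l : ℝ, 0 ≤ l → l ≤ 1 → (w + (2 * l - 1) * (2 * a)) ^ (2 * r) ≤
      l * (w + 2 * a) ^ (2 * r) + (1 - l) * (w - 2 * a) ^ (2 * r) := by
    intro l h0 h1
    have h := hconv.2 (Set.mem_univ (w + 2 * a)) (Set.mem_univ (w - 2 * a)) h0
      (by linarith : 0 ≤ 1 - l) (by ring)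
    simp only [smul_eq_mul] at h
    have e : w + (2 * l - 1) * (2 * a) = l * (w + 2 * a) + (1 - l) * (w - 2 * a) := by ring
    rw [e]; exact h
  have i1 : 1 / (4 * (1 + p)) ≤ 1 / 2 := by
    rw [div_le_div_iff₀ (by positivity) (by norm_num)]; linarith
  have i2 : 1 / (4 * (1 - p)) ≤ 1 / 2 := by
    rw [div_le_div_iff₀ (by positivity) (by norm_num)]; linarith
  have j1 : 0 < 1 / (4 * (1 + p)) := by positivity
  have j2 : 0 < 1 / (4 * (1 - p)) := by positivity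
  have k1 := key (1 / 2 + 1 / (4 * (1 + p))) (by linarith) (by linarith)
  have k2 := key (1 / 2 - 1 / (4 * (1 - p))) (by linarith) (by linarith)
  have e1 : w + (2 * (1 / 2 + 1 / (4 * (1 + p))) - 1) * (2 * a) = w + a / (1 + p) := by
    field_simp; ring
  have e2 : w + (2 * (1 / 2 - 1 / (4 * (1 - p))) - 1) * (2 * a) = w - a / (1 - p) := by
    field_simp; ring
  rw [e1] at k1
  rw [e2] at k2
  set X := (w + 2 * a) ^ (2 * r) with hX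
  set Y := (w - 2 * a) ^ (2 * r) with hY
  have l1 := mul_le_mul_of_nonneg_left k1 (by linarith : 0 ≤ (1 + p) / 2)
  have l2 := mul_le_mul_of_nonneg_left k2 (by linarith : 0 ≤ (1 - p) / 2)
  have e3 : (1 + p) / 2 * ((1 / 2 + 1 / (4 * (1 + p))) * X +
      (1 - (1 / 2 + 1 / (4 * (1 + p)))) * Y) +
      (1 - p) / 2 * ((1 / 2 - 1 / (4 * (1 - p))) * X +
      (1 - (1 / 2 - 1 / (4 * (1 - p)))) * Y) = (X + Y) / 2 := by
    field_simp; ring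
  have h := TwoPointAux.sym r w (2 * a)
  have e4 : w ^ 2 + 4 ^ r * (2 * a) ^ 2 = w ^ 2 + 4 ^ (r + 1) * a ^ 2 := by
    rw [pow_succ]; ring
  rw [e4] at h
  linarith

end Crest.Agent.R350
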