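import Crest.Agent.R350.GrowthA
import Crest.Agent.R350.TwoPoint

/-!
# Row 350, piece GrowthB: moment recursion for the exploration process

PROOF of `moment_W`.  Induction on `K`; `K = 0`: `W = ε ∅`, `|ε ∅| ≤ 1`.  Step `K + 1`: write
`‖g‖ = (∑_z wt p z * |g z|^(2r))^(1/r)` (this is the `L^r` norm of `g²`).  Let `c = 4^(r+1)`, `n = |I|^(1/r)`.
Induction on `s` with claim `‖W_{K+1,s}‖ ≤ s c n (c n s)^K`; `s = 0`: `W = 0`.  From `s` to `s+1`: for `z` with `fresh z t s = some i`
`W ε (K+1) z (insert i Q) = W ε (K+1) z Q + xi_i * W (ε^i) K z Q`, `ε^i S = ε (insert i S)` (`Q = Qs z t s`, `i ∉ Q`);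
for `fresh = none` nothing changes.  Let `a z = W (ε^i) K z (Qs z t s)` if `fresh z t s = some i`, `0` if none.
By `sum_resample` on each set `{fresh = some i}` (`W`, `a` do not depend on `z i`) and `two_point`:
`∑ wt |W_{s+1}|^(2r) ≤ ∑ wt (W_s² + c a²)^r`, and Minkowski in `L^r(wt p)` gives `‖W_{s+1}‖ ≤ ‖W_s‖ + c ‖a‖`.
Finally `∑ wt a^(2r) ≤ ∑_i ∑_z wt |W ε^i K z (Qs z t s)|^(2r) ≤ |I| * ((c n s)^K)^r` by the induction hypothesis for `K`, so
`‖a‖ ≤ n (c n s)^K`, and `s c n (c n s)^K + c n (c n s)^K ≤ (s+1) c n (c n (s+1))^K`.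
(Minkowski: `Real.Lp_add_le_of_nonneg` applied to `f z = (wt p z)^(1/r) W_s²`, `g z = (wt p z)^(1/r) c a²`.)

PROOF of `tree_growth`.  With `ε S = sign (dcoef f p S)`: `∑_{|S|=K} |dcoef f p S| = ∑_S ε S dcoef f p S
= ∑_z wt p z f z W p ε K z (Qs z t T) ≤ ∑_z wt p z |W| ≤ (∑_z wt |W|^(2r))^(1/(2r))` (`dcoef_tree`; power mean inequality,
`Real.inner_le_Lp_mul_Lq` or `Real.pow_arith_mean_le_arith_mean_pow`) `≤ ((c n T)^K)^(1/2)`.
-/

set_option autoImplicit false

namespace Crest.Agent.R350

variable {I : Type} [Fintype I] [DecidableEq I]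

namespace GrowthB_aux

theorem W_congr {p : I → ℝ} {ε : Finset I → ℝ} {K : ℕ} {z z' : I → Bool} {Q : Finset I}
    (h : ∀ i ∈ Q, z i = z' i) : W p ε K z Q = W p ε K z' Q := by
  unfold W
  refine Finset.sum_congr rfl (fun S hS => ?_)
  rw [Finset.mem_powersetCard] at hS
  congr 1
  refine Finset.prod_congr rfl (fun i hi => ?_)
  unfold xi
  rw [h i (hS.1 hi)]

theorem W_insert {p : I → ℝ} {ε : Finset I → ℝ} {K : ℕ} {z : I → Bool} {Q : Finset I} {i : I}
    (hi : i ∉ Q) :
    W p ε (K + 1) z (insert i Q)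
      = W p ε (K + 1) z Q + xi p z i * W p (fun S => ε (insert i S)) K z Q := by
  unfold W
  rw [Finset.powersetCard_succ_insert hi, Finset.sum_union]
  · congr 1
    rw [Finset.sum_image, Finset.mul_sum]
    · refine Finset.sum_congr rfl (fun S hS => ?_)
      rw [Finset.mem_powersetCard] at hS
      have hiS : i ∉ S := fun h => hi (hS.1 h)
      rw [Finset.prod_insert hiS]
      ring
    · intro S hS S' hS' h
      have hS1 := (Finset.mem_powersetCard.1 (Finset.mem_coe.1 hS)).1
      have hS2 := (Finset.mem_powersetCard.1 (Finset.mem_coe.1 hS')).1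
      have h1 : i ∉ S := fun h => hi (hS1 h)
      have h2 : i ∉ S' := fun h => hi (hS2 h)
      have := congrArg (fun T => Finset.erase T i) h
      simpa [Finset.erase_insert h1, Finset.erase_insert h2] using this
  · rw [Finset.disjoint_left]
    intro S hS hS'
    rw [Finset.mem_powersetCard] at hS
    rw [Finset.mem_image] at hS'
    obtain ⟨S0, _, rfl⟩ := hS'
    exact hi (hS.1 (Finset.mem_insert_self _ _))

/-- the increment coefficient -/
noncomputable def acoef {Ω : Type} (p : I → ℝ) (ε : Finset I → ℝ) (K : ℕ) (t : RTree I Ω) (s : ℕ)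
    (z : I → Bool) : ℝ :=
  match fresh z t s with
  | none => 0
  | some i => W p (fun S => ε (insert i S)) K z (Qs z t s)

theorem fresh_update {Ω : Type} {t : RTree I Ω} {s : ℕ} {i : I} (z : I → Bool) (b : Bool)
    (h : fresh z t s = some i) :
    Qs (Function.update z i b) t s = Qs z t s ∧ fresh (Function.update z i b) t s = some i := by
  have hi := fresh_notMem h
  have := Qs_congr (z := z) (z' := Function.update z i b) (t := t) (s := s) (fun j hj => by
    have hne : j ≠ i := fun h' => hi (h' ▸ hj)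
    rw [Function.update_of_ne hne])
  exact ⟨this.1, this.2.trans h⟩

theorem fresh_update_iff {Ω : Type} {t : RTree I Ω} {s : ℕ} {i : I} (z : I → Bool) (b : Bool) :
    fresh (Function.update z i b) t s = some i ↔ fresh z t s = some i := by
  constructor
  · intro h
    have := (fresh_update (Function.update z i b) (z i) h).2
    rwa [Function.update_idem, Function.update_eq_self] at this
  · intro h
    exact (fresh_update z b h).2

theorem sum_step (r : ℕ) {Ω : Type} (t : RTree I Ω) (p : I → ℝ) (hp : ∀ i, |p i| ≤ 1 / 2)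
    (K : ℕ) (ε : Finset I → ℝ) (s : ℕ) :
    ∑ z, wt p z * (W p ε (K + 1) z (Qs z t (s + 1))) ^ (2 * r)
      ≤ ∑ z, wt p z * ((W p ε (K + 1) z (Qs z t s)) ^ 2
          + 4 ^ (r + 1) * (acoef p ε K t s z) ^ 2) ^ r := by
  classical
  have key : ∀ F : (I → Bool) → ℝ, ∑ z, F z
      = ∑ o : Option I, ∑ z ∈ Finset.univ.filter (fun z => fresh z t s = o), F z := by
    intro F
    exact (Finset.sum_fiberwise Finset.univ (fun z => fresh z t s) F).symm
  rw [key, key (fun z => wt p z * ((W p ε (K + 1) z (Qs z t s)) ^ 2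
          + 4 ^ (r + 1) * (acoef p ε K t s z) ^ 2) ^ r)]
  refine Finset.sum_le_sum (fun o _ => ?_)
  cases o with
  | none =>
    refine le_of_eq (Finset.sum_congr rfl (fun z hz => ?_))
    have hz : fresh z t s = none := (Finset.mem_filter.1 hz).2
    have h1 : Qs z t (s + 1) = Qs z t s := by rw [Qs_succ, hz]
    have h2 : acoef p ε K t s z = 0 := by unfold acoef; rw [hz]
    rw [h1, h2, pow_mul]
    ring
  | some i =>
    rw [sum_resample p i (fun z => fresh z t s = some i) (fun z b => fresh_update_iff z b)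
      (fun z => (W p ε (K + 1) z (Qs z t (s + 1))) ^ (2 * r))]
    refine Finset.sum_le_sum (fun z hz => ?_)
    have hz : fresh z t s = some i := (Finset.mem_filter.1 hz).2
    have hi := fresh_notMem hz
    have hval : ∀ b : Bool, W p ε (K + 1) (Function.update z i b) (Qs (Function.update z i b) t (s + 1))
        = W p ε (K + 1) z (Qs z t s) + xi p (Function.update z i b) i * acoef p ε K t s z := by
      intro b
      obtain ⟨hQ, hF⟩ := fresh_update z b hz
      have h1 : Qs (Function.update z i b) t (s + 1) = insert i (Qs z t s) := by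
        rw [Qs_succ, hF, hQ]
      rw [h1, W_insert hi]
      have hag : ∀ j ∈ Qs z t s, (Function.update z i b) j = z j := by
        intro j hj
        have hne : j ≠ i := fun h' => hi (h' ▸ hj)
        rw [Function.update_of_ne hne]
      have h3 : acoef p ε K t s z = W p (fun S => ε (insert i S)) K z (Qs z t s) := by
        unfold acoef; rw [hz]
      rw [h3, W_congr hag, W_congr (p := p) (ε := fun S => ε (insert i S)) hag]
    have hw : 0 ≤ wt p z := wt_nonneg (fun i => (hp i).trans (by norm_num)) z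
    refine mul_le_mul_of_nonneg_left ?_ hw
    simp only [hval]
    have e1 : xi p (Function.update z i false) i * acoef p ε K t s z = acoef p ε K t s z / (1 + p i) := by
      unfold xi sg
      simp
      ring
    have e2 : W p ε (K + 1) z (Qs z t s) + xi p (Function.update z i true) i * acoef p ε K t s z
        = W p ε (K + 1) z (Qs z t s) - acoef p ε K t s z / (1 - p i) := by
      unfold xi sg
      simp
      ring
    rw [e1, e2]
    exact two_point r (p i) _ _ (hp i)

theorem norm_step (r : ℕ) (hr : 1 ≤ r) (p : I → ℝ) (hp : ∀ i, |p i| ≤ 1 / 2) (f g : (I → Bool) → ℝ)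
    (c : ℝ) (hc : 0 ≤ c) :
    (∑ z, wt p z * ((f z) ^ 2 + c * (g z) ^ 2) ^ r) ^ ((1 : ℝ) / r)
      ≤ (∑ z, wt p z * (f z) ^ (2 * r)) ^ ((1 : ℝ) / r)
        + c * (∑ z, wt p z * (g z) ^ (2 * r)) ^ ((1 : ℝ) / r) := by
  have hw : ∀ z, 0 ≤ wt p z := fun z => wt_nonneg (fun i => (hp i).trans (by norm_num)) z
  have hr1 : (1 : ℝ) ≤ (r : ℝ) := by exact_mod_cast hr
  have hr0 : (r : ℝ) ≠ 0 := by positivity
  have hwr : ∀ z, ((wt p z) ^ ((1 : ℝ) / r)) ^ r = wt p z := by
    intro z
    rw [← Real.rpow_natCast, ← Real.rpow_mul (hw z), one_div, inv_mul_cancel₀ hr0, Real.rpow_one]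
  have hcr : (c ^ r) ^ ((1 : ℝ) / r) = c := by
    rw [← Real.rpow_natCast, ← Real.rpow_mul hc, mul_one_div_cancel hr0, Real.rpow_one]
  have h := Real.Lp_add_le_of_nonneg (Finset.univ : Finset (I → Bool))
    (f := fun z => (wt p z) ^ ((1 : ℝ) / r) * (f z) ^ 2)
    (g := fun z => (wt p z) ^ ((1 : ℝ) / r) * (c * (g z) ^ 2)) (p := (r : ℝ)) hr1
    (fun z _ => by have := Real.rpow_nonneg (hw z) ((1 : ℝ) / r); positivity)
    (fun z _ => by have := Real.rpow_nonneg (hw z) ((1 : ℝ) / r); positivity)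
  have e1 : ∀ z, ((wt p z) ^ ((1 : ℝ) / r) * (f z) ^ 2 + (wt p z) ^ ((1 : ℝ) / r) * (c * (g z) ^ 2))
      ^ (r : ℝ) = wt p z * ((f z) ^ 2 + c * (g z) ^ 2) ^ r := by
    intro z
    rw [← mul_add, Real.rpow_natCast, mul_pow, hwr]
  have e2 : ∀ z, ((wt p z) ^ ((1 : ℝ) / r) * (f z) ^ 2) ^ (r : ℝ) = wt p z * (f z) ^ (2 * r) := by
    intro z
    rw [Real.rpow_natCast, mul_pow, hwr, pow_mul]
  have e3 : ∀ z, ((wt p z) ^ ((1 : ℝ) / r) * (c * (g z) ^ 2)) ^ (r : ℝ)
      = c ^ r * (wt p z * (g z) ^ (2 * r)) := by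
    intro z
    rw [Real.rpow_natCast, mul_pow, hwr, mul_pow, pow_mul]
    ring
  simp only [e1, e2, e3] at h
  rw [← Finset.mul_sum, Real.mul_rpow (by positivity), hcr] at h
  · exact h
  · exact Finset.sum_nonneg (fun z _ => mul_nonneg (hw z) (by rw [pow_mul]; positivity))

end GrowthB_aux

open GrowthB_aux in
theorem moment_W (r : ℕ) (hr : 1 ≤ r) (t : RTree I Bool) (p : I → ℝ) (hp : ∀ i, |p i| ≤ 1 / 2)
    (K : ℕ) (ε : Finset I → ℝ) (hε : ∀ S, |ε S| ≤ 1) (s : ℕ) :
    (∑ z, wt p z * (W p ε K z (Qs z t s)) ^ (2 * r)) ^ ((1 : ℝ) / r)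
      ≤ (4 ^ (r + 1) * (Fintype.card I : ℝ) ^ ((1 : ℝ) / r) * s) ^ K := by
  have hw : ∀ z, 0 ≤ wt p z := fun z => wt_nonneg (fun i => (hp i).trans (by norm_num)) z
  have hr0 : (r : ℝ) ≠ 0 := by positivity
  have hrr : (0 : ℝ) ≤ 1 / r := by positivity
  have hnn : ∀ F : (I → Bool) → ℝ, 0 ≤ ∑ z, wt p z * (F z) ^ (2 * r) := by
    intro F
    exact Finset.sum_nonneg (fun z _ => mul_nonneg (hw z) (by rw [pow_mul]; positivity))
  induction K generalizing ε s with
  | zero =>
    have h1 : ∀ z, W p ε 0 z (Qs z t s) = ε ∅ := by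
      intro z; unfold W; simp
    simp only [h1, pow_zero]
    rw [← Finset.sum_mul, sum_wt, one_mul]
    have h2 : ε ∅ ^ (2 * r) ≤ 1 := by
      rw [pow_mul]
      have := hε ∅
      have h3 : ε ∅ ^ 2 ≤ 1 := by
        rw [sq_le_one_iff_abs_le_one]; exact this
      exact pow_le_one₀ (sq_nonneg _) h3
    exact Real.rpow_le_one (by rw [pow_mul]; positivity) h2 hrr
  | succ K ihK =>
    set n : ℝ := (Fintype.card I : ℝ) ^ ((1 : ℝ) / r) with hn
    have hn0 : 0 ≤ n := Real.rpow_nonneg (by positivity) _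
    induction s with
    | zero =>
      have h1 : ∀ z, W p ε (K + 1) z (Qs z t 0) = 0 := by
        intro z
        rw [Qs_zero]
        unfold W
        rw [Finset.powersetCard_eq_empty.2 (by simp)]
        simp
      simp only [h1]
      have h2 : (0 : ℝ) ^ (2 * r) = 0 := zero_pow (by omega)
      simp only [h2, mul_zero, Finset.sum_const_zero]
      rw [Real.zero_rpow (by positivity)]
      simp
    | succ s ihs =>
      -- bound for the increment
      have ha : (∑ z, wt p z * (acoef p ε K t s z) ^ (2 * r)) ^ ((1 : ℝ) / r)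
          ≤ n * (4 ^ (r + 1) * n * s) ^ K := by
        have hB0 : (0 : ℝ) ≤ (4 ^ (r + 1) * n * s) ^ K := by positivity
        have h1 : ∀ i, ∑ z, wt p z * (W p (fun S => ε (insert i S)) K z (Qs z t s)) ^ (2 * r)
            ≤ ((4 ^ (r + 1) * n * s) ^ K) ^ r := by
          intro i
          have h2 := ihK (fun S => ε (insert i S)) (fun S => hε _) s
          have h3 := Real.rpow_le_rpow (Real.rpow_nonneg (hnn _) _) h2 (by positivity : (0 : ℝ) ≤ (r : ℝ))
          rw [← Real.rpow_mul (hnn _), one_div, inv_mul_cancel₀ hr0, Real.rpow_one,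
            Real.rpow_natCast] at h3
          exact h3
        have h4 : ∑ z, wt p z * (acoef p ε K t s z) ^ (2 * r)
            ≤ (Fintype.card I : ℝ) * ((4 ^ (r + 1) * n * s) ^ K) ^ r := by
          calc ∑ z, wt p z * (acoef p ε K t s z) ^ (2 * r)
              ≤ ∑ z, ∑ i : I, wt p z * (W p (fun S => ε (insert i S)) K z (Qs z t s)) ^ (2 * r) := by
                refine Finset.sum_le_sum (fun z _ => ?_)
                have hpos : ∀ i ∈ (Finset.univ : Finset I), 0 ≤
                    wt p z * (W p (fun S => ε (insert i S)) K z (Qs z t s)) ^ (2 * r) :=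
                  fun i _ => mul_nonneg (hw z) (by rw [pow_mul]; positivity)
                unfold acoef
                cases hf : fresh z t s with
                | none =>
                  have h2 : (0 : ℝ) ^ (2 * r) = 0 := zero_pow (by omega)
                  simp only [h2, mul_zero]
                  exact Finset.sum_nonneg hpos
                | some i =>
                  exact Finset.single_le_sum hpos (Finset.mem_univ i)
            _ = ∑ i : I, ∑ z, wt p z * (W p (fun S => ε (insert i S)) K z (Qs z t s)) ^ (2 * r) :=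
                Finset.sum_comm
            _ ≤ ∑ _i : I, ((4 ^ (r + 1) * n * s) ^ K) ^ r := Finset.sum_le_sum (fun i _ => h1 i)
            _ = _ := by simp
        calc (∑ z, wt p z * (acoef p ε K t s z) ^ (2 * r)) ^ ((1 : ℝ) / r)
            ≤ ((Fintype.card I : ℝ) * ((4 ^ (r + 1) * n * s) ^ K) ^ r) ^ ((1 : ℝ) / r) :=
              Real.rpow_le_rpow (hnn _) h4 hrr
          _ = n * (4 ^ (r + 1) * n * s) ^ K := by
              rw [Real.mul_rpow (by positivity) (by positivity), ← hn, ← Real.rpow_natCast _ r,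
                ← Real.rpow_mul hB0, mul_one_div_cancel hr0, Real.rpow_one]
      have h5 : (∑ z, wt p z * (W p ε (K + 1) z (Qs z t (s + 1))) ^ (2 * r)) ^ ((1 : ℝ) / r)
          ≤ (4 ^ (r + 1) * n * s) ^ (K + 1) + 4 ^ (r + 1) * (n * (4 ^ (r + 1) * n * s) ^ K) := by
        calc _ ≤ (∑ z, wt p z * ((W p ε (K + 1) z (Qs z t s)) ^ 2
              + 4 ^ (r + 1) * (acoef p ε K t s z) ^ 2) ^ r) ^ ((1 : ℝ) / r) :=
              Real.rpow_le_rpow (hnn _) (sum_step r t p hp K ε s) hrr
          _ ≤ _ := norm_step r hr p hp _ _ _ (by positivity)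
          _ ≤ _ := add_le_add ihs (mul_le_mul_of_nonneg_left ha (by positivity))
      refine h5.trans ?_
      have h6 : (4 ^ (r + 1) * n * (s : ℝ)) ^ (K + 1) + 4 ^ (r + 1) * (n * (4 ^ (r + 1) * n * s) ^ K)
          = (4 ^ (r + 1) * n * s) ^ K * (4 ^ (r + 1) * n * ((s + 1 : ℕ) : ℝ)) := by
        push_cast
        ring
      rw [h6, pow_succ]
      refine mul_le_mul_of_nonneg_right ?_ (by positivity)
      refine pow_le_pow_left₀ (by positivity) ?_ K
      refine mul_le_mul_of_nonneg_left ?_ (by positivity)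
      push_cast
      linarith

theorem tree_growth (r : ℕ) (hr : 1 ≤ r) (K : ℕ) (t : RTree I Bool) {T : ℕ} (hT : t.depth ≤ T)
    (p : I → ℝ) (hp : ∀ i, |p i| ≤ 1 / 2) :
    ∑ S ∈ (Finset.univ : Finset I).powersetCard K,
        |dcoef (fun z => if t.eval z then 1 else 0) p S|
      ≤ (4 ^ (r + 1) * (Fintype.card I : ℝ) ^ ((1 : ℝ) / r) * T) ^ ((K : ℝ) / 2) := by
  classical
  have hw : ∀ z, 0 ≤ wt p z := fun z => wt_nonneg (fun i => (hp i).trans (by norm_num)) z
  have hr0 : (r : ℝ) ≠ 0 := by positivity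
  have hrr : (0 : ℝ) ≤ 1 / r := by positivity
  set f : (I → Bool) → ℝ := fun z => if t.eval z then 1 else 0 with hf
  set ε : Finset I → ℝ := fun S => ((SignType.sign (dcoef f p S) : SignType) : ℝ) with hε
  have hε1 : ∀ S, |ε S| ≤ 1 := by
    intro S
    simp only [hε]
    rcases lt_trichotomy (dcoef f p S) 0 with h | h | h
    · simp [h]
    · simp [h]
    · simp [h]
  have habs : ∀ S, |dcoef f p S| = ε S * dcoef f p S := by
    intro S
    simp only [hε]
    rw [sign_mul_self]
  have hf1 : ∀ z, |f z| ≤ 1 := by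
    intro z
    simp only [hf]
    split_ifs <;> simp
  have hB0 : (0 : ℝ) ≤ 4 ^ (r + 1) * (Fintype.card I : ℝ) ^ ((1 : ℝ) / r) * T := by
    have : (0 : ℝ) ≤ (Fintype.card I : ℝ) ^ ((1 : ℝ) / r) := Real.rpow_nonneg (by positivity) _
    positivity
  have hsum : ∑ S ∈ (Finset.univ : Finset I).powersetCard K, |dcoef f p S|
      = ∑ z, wt p z * (f z * W p ε K z (Qs z t T)) := by
    calc ∑ S ∈ (Finset.univ : Finset I).powersetCard K, |dcoef f p S|
        = ∑ S ∈ (Finset.univ : Finset I).powersetCard K, ∑ z, wt p z * (f z * (ε S *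
            (if S ⊆ Qs z t T then ∏ i ∈ S, xi p z i else 0))) := by
          refine Finset.sum_congr rfl (fun S _ => ?_)
          rw [habs S, dcoef_tree t hT p hp S, Finset.mul_sum]
          refine Finset.sum_congr rfl (fun z _ => ?_)
          simp only [hf]
          ring
      _ = ∑ z, ∑ S ∈ (Finset.univ : Finset I).powersetCard K, wt p z * (f z * (ε S *
            (if S ⊆ Qs z t T then ∏ i ∈ S, xi p z i else 0))) := Finset.sum_comm
      _ = _ := by
          refine Finset.sum_congr rfl (fun z _ => ?_)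
          rw [← Finset.mul_sum, ← Finset.mul_sum]
          congr 2
          unfold W
          have hfil : (Qs z t T).powersetCard K
              = ((Finset.univ : Finset I).powersetCard K).filter (fun S => S ⊆ Qs z t T) := by
            ext S
            simp only [Finset.mem_powersetCard, Finset.mem_filter, Finset.subset_univ, true_and]
            tauto
          rw [hfil, Finset.sum_filter]
          refine Finset.sum_congr rfl (fun S _ => ?_)
          split_ifs <;> simp
  set X : ℝ := ∑ z, wt p z * |W p ε K z (Qs z t T)| with hX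
  have hX0 : 0 ≤ X := Finset.sum_nonneg (fun z _ => mul_nonneg (hw z) (abs_nonneg _))
  have h1 : ∑ S ∈ (Finset.univ : Finset I).powersetCard K, |dcoef f p S| ≤ X := by
    rw [hsum]
    refine Finset.sum_le_sum (fun z _ => mul_le_mul_of_nonneg_left ?_ (hw z))
    refine (le_abs_self _).trans ?_
    rw [abs_mul]
    calc |f z| * |W p ε K z (Qs z t T)| ≤ 1 * |W p ε K z (Qs z t T)| :=
          mul_le_mul_of_nonneg_right (hf1 z) (abs_nonneg _)
      _ = _ := one_mul _
  refine h1.trans ?_
  have h2 : X ^ (2 * r) ≤ ∑ z, wt p z * (W p ε K z (Qs z t T)) ^ (2 * r) := by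
    have h := Real.pow_arith_mean_le_arith_mean_pow (Finset.univ : Finset (I → Bool))
      (fun z => wt p z) (fun z => |W p ε K z (Qs z t T)|) (fun z _ => hw z) (sum_wt p)
      (fun z _ => abs_nonneg _) (2 * r)
    refine h.trans (le_of_eq (Finset.sum_congr rfl (fun z _ => ?_)))
    rw [pow_mul, sq_abs, ← pow_mul]
  have h3 : X ^ 2 ≤ (4 ^ (r + 1) * (Fintype.card I : ℝ) ^ ((1 : ℝ) / r) * T) ^ K := by
    have h4 := Real.rpow_le_rpow (by positivity) h2 hrr
    have h5 : (X ^ (2 * r)) ^ ((1 : ℝ) / r) = X ^ 2 := by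
      rw [pow_mul, ← Real.rpow_natCast _ r, ← Real.rpow_mul (by positivity),
        mul_one_div_cancel hr0, Real.rpow_one]
    rw [h5] at h4
    exact h4.trans (moment_W r hr t p hp K ε hε1 T)
  have h6 : (4 ^ (r + 1) * (Fintype.card I : ℝ) ^ ((1 : ℝ) / r) * (T : ℝ)) ^ ((K : ℝ) / 2)
      = Real.sqrt ((4 ^ (r + 1) * (Fintype.card I : ℝ) ^ ((1 : ℝ) / r) * T) ^ K) := by
    rw [Real.sqrt_eq_rpow, ← Real.rpow_natCast _ K, ← Real.rpow_mul hB0]
    congr 1
    ring
  rw [h6]
  exact Real.le_sqrt_of_sq_le h3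

end Crest.Agent.R350
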