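import Crest.Agent.R350.Moment
import Crest.Agent.R350.GrowthB

/-!
# Row 350, piece Hidden: the hidden distributions `D₊, D₋` and the reference distribution `D₀`

PROOF of `hidden_exists`.  `D false z = ∫ wt (pm 1 ω) z`, `D true z = D false (flip0 z)`, `D₀ z = ∫ wt (pm 0 ω) z`.
Nonnegativity / total mass: `wt_nonneg` (a.e. `|pm| ≤ 1/2`), `sum_wt`, exchange finite sums and integrals (`integrable_gam`).
Moments: `moment_Psi`; for `true` substitute `z ↦ flip0 z` and use `Psi_flip0`.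
Hiding: `hide_cube` for `s = false`.  For `s = true`: `∑_z D true z f z = ∑_z D false z f (flip0 z)` and
`∑_z D₀ z f z = ∑_z D₀ z f (flip0 z)` (`wt_flip`: the means of block `0` are `0` for `lam = 0`); apply `hide_cube` to
`f ∘ flip0`, whose hypothesis `hB` follows from `abs_dcoef_flip` (the negated `p` still satisfies `|p| ≤ 1/2`).

PROOF of `hidden_tree`: `K = 2 k`, `Kp = 2k - 1`, `f z = 1` if `t.eval z`; `x ↦ pset x` is injective with values in the sets of size `K`, so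
`B = (4^(r+1) * (K N)^(1/r) * T)^(K/2)` by `tree_growth` with `r = 4 k`, `N = 4^j`.  Then
`B / 2^(j (2k-1)) ≤ C * N^{1/4} * T^k * N^{-(k - 1/2)} ≤ C * N^{1/4 + k - 1 - k + 1/2} = C * N^{-1/4}` as `T ≤ N^(1-1/k)`,
with `C = (4^(4k+1) * (2k)^(1/(4k)))^k`.
-/

set_option autoImplicit false

namespace Crest.Agent.R350

open MeasureTheory

theorem hidden_continuous_wt {j Kp : ℕ} (lam : ℝ) (z : Inst (Kp + 1) (2 * j)) :
    Continuous (fun ω : Om Kp (2 * j) => wt (pm lam ω) z) := by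
  have h1 : Continuous (fun ω : Om Kp (2 * j) => pm lam ω) :=
    (continuous_pm (j := j) (Kp := Kp)).comp (continuous_const.prodMk continuous_id)
  unfold wt
  apply continuous_finsetProd
  intro i _
  apply Continuous.div_const
  apply Continuous.add continuous_const
  apply Continuous.mul continuous_const
  exact (continuous_apply i).comp h1

theorem hidden_integrable_wt {j Kp : ℕ} (lam : ℝ) (z : Inst (Kp + 1) (2 * j)) :
    Integrable (fun ω : Om Kp (2 * j) => wt (pm lam ω) z) (gam Kp (2 * j)) :=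
  integrable_gam _ (hidden_continuous_wt lam z)

theorem hidden_sum_integral {j Kp : ℕ} (lam : ℝ) (f : Inst (Kp + 1) (2 * j) → ℝ) :
    ∑ z, (∫ ω, wt (pm lam ω) z ∂(gam Kp (2 * j))) * f z
      = ∫ ω, ∑ z, f z * wt (pm lam ω) z ∂(gam Kp (2 * j)) := by
  rw [integral_finsetSum]
  · apply Finset.sum_congr rfl
    intro z _
    rw [integral_const_mul, mul_comm]
  · intro z _
    exact (hidden_integrable_wt lam z).const_mul _

theorem hidden_nonneg {j Kp : ℕ} {lam : ℝ} (h0 : 0 ≤ lam) (h1 : lam ≤ 1)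
    (z : Inst (Kp + 1) (2 * j)) : 0 ≤ ∫ ω, wt (pm lam ω) z ∂(gam Kp (2 * j)) := by
  apply integral_nonneg_of_ae
  filter_upwards [gam_ae Kp (2 * j)] with ω hω
  apply wt_nonneg
  intro i
  have := abs_pm_le h0 h1 hω i
  linarith

theorem hidden_total {j Kp : ℕ} (lam : ℝ) :
    ∑ z : Inst (Kp + 1) (2 * j), ∫ ω, wt (pm lam ω) z ∂(gam Kp (2 * j)) = 1 := by
  have h := hidden_sum_integral (j := j) (Kp := Kp) lam (fun _ => 1)
  simp only [mul_one, one_mul, sum_wt] at h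
  rw [h]
  simp

/-- the set of indices of block `0` -/
def hidden_blk0 (K n : ℕ) : Finset (Fin K × V n) := Finset.univ.filter (fun p => (p.1 : ℕ) = 0)

theorem hidden_flip0_eq {K n : ℕ} (z : Inst K n) :
    flip0 z = fun i => if i ∈ hidden_blk0 K n then !(z i) else z i := by
  funext i
  unfold flip0 hidden_blk0
  simp

theorem hidden_sum_comp_flip0 {K n : ℕ} (F : Inst K n → ℝ) : ∑ z, F (flip0 z) = ∑ z, F z := by
  apply Fintype.sum_bijective flip0
  · exact Function.Involutive.bijective flip0_flip0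
  · intro x; rfl

theorem hidden_exists (j Kp : ℕ) (hKp : 0 < Kp) :
    ∃ (D : Bool → Inst (Kp + 1) (2 * j) → ℝ) (D₀ : Inst (Kp + 1) (2 * j) → ℝ),
      (∀ s z, 0 ≤ D s z) ∧ (∀ s, ∑ z, D s z = 1) ∧ (∀ z, 0 ≤ D₀ z) ∧ ∑ z, D₀ z = 1 ∧
      (∀ s, (1 / 8 : ℝ) ^ (Kp + 1) * 2 ^ (j * (Kp + 2)) ≤ (sg s : ℝ) * ∑ z, D s z * (Psi z : ℝ)) ∧
      ∀ (f : Inst (Kp + 1) (2 * j) → ℝ) (B : ℝ),
        (∀ p : Fin (Kp + 1) × V (2 * j) → ℝ, (∀ i, |p i| ≤ 1 / 2) →
          ∑ x : Fin (Kp + 1) → V (2 * j), |dcoef f p (pset x)| ≤ B) →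
        ∀ s, |∑ z, D s z * f z - ∑ z, D₀ z * f z| ≤ B / 2 ^ (j * Kp) := by
  refine ⟨fun s z => if s then ∫ ω, wt (pm 1 ω) (flip0 z) ∂(gam Kp (2 * j))
    else ∫ ω, wt (pm 1 ω) z ∂(gam Kp (2 * j)),
    fun z => ∫ ω, wt (pm 0 ω) z ∂(gam Kp (2 * j)), ?_, ?_, ?_, ?_, ?_, ?_⟩
  · intro s z
    cases s
    · simpa using hidden_nonneg zero_le_one le_rfl z
    · simpa using hidden_nonneg zero_le_one le_rfl (flip0 z)
  · intro s
    cases s
    · simpa using hidden_total (j := j) (Kp := Kp) 1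
    · simp only [if_true]
      rw [hidden_sum_comp_flip0 (fun z => ∫ ω, wt (pm 1 ω) z ∂(gam Kp (2 * j)))]
      exact hidden_total 1
  · intro z
    exact hidden_nonneg le_rfl zero_le_one z
  · exact hidden_total 0
  · intro s
    cases s
    · simp only [sg, Bool.false_eq_true, if_false, Int.cast_one, one_mul]
      rw [hidden_sum_integral]
      exact moment_Psi
    · simp only [sg, if_true]
      have h1 : ∑ z : Inst (Kp + 1) (2 * j), (∫ ω, wt (pm 1 ω) (flip0 z) ∂(gam Kp (2 * j))) * (Psi z : ℝ)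
          = - ∫ ω, ∑ z : Inst (Kp + 1) (2 * j), (Psi z : ℝ) * wt (pm 1 ω) z ∂(gam Kp (2 * j)) := by
        rw [← hidden_sum_integral 1 (fun z => (Psi z : ℝ)), ← Finset.sum_neg_distrib,
          ← hidden_sum_comp_flip0]
        apply Finset.sum_congr rfl
        intro z _
        rw [flip0_flip0, Psi_flip0 (by omega)]
        push_cast
        ring
      rw [h1]
      have := moment_Psi (j := j) (Kp := Kp)
      push_cast
      linarith
  · intro f B hB s
    cases s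
    · simp only [Bool.false_eq_true, if_false]
      rw [hidden_sum_integral, hidden_sum_integral]
      exact hide_cube hKp f B hB
    · simp only [if_true]
      have h1 : ∑ z : Inst (Kp + 1) (2 * j), (∫ ω, wt (pm 1 ω) (flip0 z) ∂(gam Kp (2 * j))) * f z
          = ∑ z : Inst (Kp + 1) (2 * j), (∫ ω, wt (pm 1 ω) z ∂(gam Kp (2 * j))) * f (flip0 z) := by
        rw [← hidden_sum_comp_flip0]
        apply Finset.sum_congr rfl
        intro z _
        rw [flip0_flip0]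
      have h2 : ∑ z : Inst (Kp + 1) (2 * j), (∫ ω, wt (pm 0 ω) z ∂(gam Kp (2 * j))) * f z
          = ∑ z : Inst (Kp + 1) (2 * j), (∫ ω, wt (pm 0 ω) z ∂(gam Kp (2 * j))) * f (flip0 z) := by
        rw [← hidden_sum_comp_flip0]
        apply Finset.sum_congr rfl
        intro z _
        congr 1
        apply integral_congr_ae
        apply Filter.Eventually.of_forall
        intro ω
        simp only
        rw [hidden_flip0_eq]
        apply wt_flip
        intro i hi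
        have hi0 : (i.1 : ℕ) = 0 := by simpa [hidden_blk0] using hi
        have hi1 : i.1 = 0 := Fin.ext hi0
        simp [pm, Lf, hi1]
      rw [h1, h2, hidden_sum_integral 1 (fun z => f (flip0 z)),
        hidden_sum_integral 0 (fun z => f (flip0 z))]
      apply hide_cube hKp (fun z => f (flip0 z)) B
      intro p hp
      have h3 : ∀ S, |dcoef (fun z : Inst (Kp + 1) (2 * j) => f (flip0 z)) p S|
          = |dcoef f (fun i => if i ∈ hidden_blk0 (Kp + 1) (2 * j) then - p i else p i) S| := by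
        intro S
        rw [← abs_dcoef_flip]
        congr 2
        funext z
        rw [hidden_flip0_eq]
      simp_rw [h3]
      apply hB
      intro i
      split_ifs
      · rw [abs_neg]; exact hp i
      · exact hp i

theorem hidden_pset_injective {K n : ℕ} : Function.Injective (pset (K := K) (n := n)) := by
  intro x y h
  funext t
  have h1 : (t, x t) ∈ pset x := by
    unfold pset
    exact Finset.mem_image_of_mem _ (Finset.mem_univ t)
  rw [h] at h1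
  unfold pset at h1
  rw [Finset.mem_image] at h1
  obtain ⟨t', _, ht'⟩ := h1
  simp only [Prod.mk.injEq] at ht'
  obtain ⟨h2, h3⟩ := ht'
  subst h2
  exact h3.symm

theorem hidden_pset_card {K n : ℕ} (x : Fin K → V n) : (pset x).card = K := by
  unfold pset
  rw [Finset.card_image_of_injective]
  · simp
  · intro a b h
    simpa using (congrArg Prod.fst h)

theorem hidden_sum_pset_le {K n : ℕ} (g : Finset (Fin K × V n) → ℝ) (hg : ∀ S, 0 ≤ g S) :
    ∑ x : Fin K → V n, g (pset x)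
      ≤ ∑ S ∈ (Finset.univ : Finset (Fin K × V n)).powersetCard K, g S := by
  rw [← Finset.sum_image (f := g) (g := pset) (s := Finset.univ)
    (fun a _ b _ h => hidden_pset_injective h)]
  apply Finset.sum_le_sum_of_subset_of_nonneg
  · intro S hS
    rw [Finset.mem_image] at hS
    obtain ⟨x, _, rfl⟩ := hS
    rw [Finset.mem_powersetCard]
    exact ⟨Finset.subset_univ _, hidden_pset_card x⟩
  · intro S _ _
    exact hg S

theorem hidden_tree_aux (k : ℕ) (hk : 2 ≤ k) (K : ℕ) (hK : K = 2 * k) : ∃ C : ℝ, 0 < C ∧ ∀ j : ℕ,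
    ∃ (D : Bool → Inst K (2 * j) → ℝ) (D₀ : Inst K (2 * j) → ℝ),
      (∀ s z, 0 ≤ D s z) ∧ (∀ s, ∑ z, D s z = 1) ∧ (∀ z, 0 ≤ D₀ z) ∧ ∑ z, D₀ z = 1 ∧
      (∀ s, (1 / 8 : ℝ) ^ K * 2 ^ (j * (K + 1)) ≤
        (sg s : ℝ) * ∑ z, D s z * (Psi z : ℝ)) ∧
      ∀ (T : ℕ), (T : ℝ) ≤ ((4 : ℝ) ^ j) ^ (1 - 1 / (k : ℝ)) →
        ∀ (t : RTree (Fin K × V (2 * j)) Bool), t.depth ≤ T → ∀ s,
          |∑ z, D s z * (if t.eval z then 1 else 0) - ∑ z, D₀ z * (if t.eval z then 1 else 0)|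
            ≤ C * ((4 : ℝ) ^ j) ^ (-(1 / 4 : ℝ)) := by
  obtain ⟨Kp, rfl⟩ : ∃ Kp, K = Kp + 1 := ⟨K - 1, by omega⟩
  have hk0 : (0 : ℝ) < k := by exact_mod_cast (by omega : 0 < k)
  refine ⟨((4 : ℝ) ^ (4 * k + 1) * (2 * (k : ℝ)) ^ (1 / (4 * (k : ℝ)))) ^ k, by positivity, ?_⟩
  intro j
  obtain ⟨D, D₀, h1, h2, h3, h4, h5, h6⟩ := hidden_exists j Kp (by omega)
  refine ⟨D, D₀, h1, h2, h3, h4, h5, ?_⟩
  intro T hT t ht s
  have hB := h6 (fun z => if t.eval z then 1 else 0)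
    ((4 ^ (4 * k + 1) * (Fintype.card (Fin (Kp + 1) × V (2 * j)) : ℝ) ^ ((1 : ℝ) / ((4 * k : ℕ) : ℝ)) * T)
      ^ (((Kp + 1 : ℕ) : ℝ) / 2))
    (by
      intro p hp
      refine le_trans (hidden_sum_pset_le (fun S => |dcoef (fun z => if t.eval z then 1 else 0) p S|)
        (fun S => abs_nonneg _)) ?_
      exact tree_growth (4 * k) (by omega) (Kp + 1) t ht p hp) s
  refine le_trans hB ?_
  -- numerics
  have hN : (0 : ℝ) < (4 : ℝ) ^ j := by positivity
  have hcard : (Fintype.card (Fin (Kp + 1) × V (2 * j)) : ℝ) = (2 * (k : ℝ)) * (4 : ℝ) ^ j := by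
    rw [Fintype.card_prod, Fintype.card_fin]
    simp only [V, Fintype.card_fun, Fintype.card_fin, Fintype.card_bool]
    rw [hK]
    push_cast
    rw [pow_mul]; norm_num
  rw [hcard]
  have hexp : (((Kp + 1 : ℕ) : ℝ) / 2) = (k : ℝ) := by
    rw [hK]; push_cast; ring
  rw [hexp]
  have hpow : (2 : ℝ) ^ (j * Kp) = ((4 : ℝ) ^ j) ^ ((k : ℝ) - 1 / 2) := by
    have h4 : ((4 : ℝ) ^ j) = (2 : ℝ) ^ ((2 * j : ℝ)) := by
      rw [show (2 * (j : ℝ)) = ((2 * j : ℕ) : ℝ) by push_cast; ring, Real.rpow_natCast, pow_mul]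
      norm_num
    rw [h4, ← Real.rpow_mul (by norm_num), ← Real.rpow_natCast]
    congr 1
    push_cast
    have : (Kp : ℝ) = 2 * k - 1 := by
      have : ((Kp + 1 : ℕ) : ℝ) = ((2 * k : ℕ) : ℝ) := by rw [hK]
      push_cast at this
      linarith
    rw [this]; ring
  rw [hpow, div_le_iff₀ (by positivity),
    mul_assoc (((4 : ℝ) ^ (4 * k + 1) * (2 * (k : ℝ)) ^ (1 / (4 * (k : ℝ)))) ^ k),
    ← Real.rpow_add hN]
  have hT0 : (0 : ℝ) ≤ T := Nat.cast_nonneg T
  rw [Real.rpow_natCast]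
  calc (4 ^ (4 * k + 1) * (2 * (k : ℝ) * (4 : ℝ) ^ j) ^ ((1 : ℝ) / ((4 * k : ℕ) : ℝ)) * T) ^ k
      ≤ (4 ^ (4 * k + 1) * (2 * (k : ℝ) * (4 : ℝ) ^ j) ^ ((1 : ℝ) / ((4 * k : ℕ) : ℝ))
          * ((4 : ℝ) ^ j) ^ (1 - 1 / (k : ℝ))) ^ k := by
        apply pow_le_pow_left₀ (by positivity)
        apply mul_le_mul_of_nonneg_left hT (by positivity)
    _ = ((4 : ℝ) ^ (4 * k + 1) * (2 * (k : ℝ)) ^ (1 / (4 * (k : ℝ)))) ^ k
          * (((4 : ℝ) ^ j) ^ (1 / (4 * (k : ℝ))) * ((4 : ℝ) ^ j) ^ (1 - 1 / (k : ℝ))) ^ k := by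
        rw [Real.mul_rpow (by positivity) (by positivity)]
        push_cast
        rw [← mul_pow]
        congr 1
        ring
    _ = ((4 : ℝ) ^ (4 * k + 1) * (2 * (k : ℝ)) ^ (1 / (4 * (k : ℝ)))) ^ k
          * ((4 : ℝ) ^ j) ^ (-(1 / 4) + ((k : ℝ) - 1 / 2)) := by
        congr 1
        rw [← Real.rpow_add hN, ← Real.rpow_natCast, ← Real.rpow_mul hN.le]
        congr 1
        field_simp
        ring
    _ ≤ _ := le_rfl

theorem hidden_tree (k : ℕ) (hk : 2 ≤ k) : ∃ C : ℝ, 0 < C ∧ ∀ j : ℕ,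
    ∃ (D : Bool → Inst (2 * k) (2 * j) → ℝ) (D₀ : Inst (2 * k) (2 * j) → ℝ),
      (∀ s z, 0 ≤ D s z) ∧ (∀ s, ∑ z, D s z = 1) ∧ (∀ z, 0 ≤ D₀ z) ∧ ∑ z, D₀ z = 1 ∧
      (∀ s, (1 / 8 : ℝ) ^ (2 * k) * 2 ^ (j * (2 * k + 1)) ≤
        (sg s : ℝ) * ∑ z, D s z * (Psi z : ℝ)) ∧
      ∀ (T : ℕ), (T : ℝ) ≤ ((4 : ℝ) ^ j) ^ (1 - 1 / (k : ℝ)) →
        ∀ (t : RTree (Fin (2 * k) × V (2 * j)) Bool), t.depth ≤ T → ∀ s,
          |∑ z, D s z * (if t.eval z then 1 else 0) - ∑ z, D₀ z * (if t.eval z then 1 else 0)|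
            ≤ C * ((4 : ℝ) ^ j) ^ (-(1 / 4 : ℝ)) :=
  hidden_tree_aux k hk (2 * k) rfl

end Crest.Agent.R350
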