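import Crest.Agent.R350.Hybrid
import Crest.Agent.R350.Hidden

/-!
# Row 350, piece Mu: the distributions `μ_r` on the data of a column

PROOF.  Take `D, D₀` from `hidden_tree`.  For `y : DataBit → Bool` put `y' : Fin L × Fin M → Inst`, `y' (l,i) p = y (l,i,p)` (an equivalence:
`DataBit = Fin L × Fin M × J`); `μ r y = prodw (fun (l,i) => D (r l)) y'`, `ν y = prodw (fun _ => D₀) y'`.
Hiding: `hybrid` (reindex the tree along `(l,i,p) ↦ ((l,i),p)`), `card = L M`.
Good: for fixed `l` apply `chebyshev` with `A = {(l,i)}`, `s (l,i) = sg (r l)`, `g = Psi`, `a = 2^(j(2k+1))` (`abs_Psi_le`),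
`m₁ = (1/8)^(2k) a`: failure probability for `l` is `≤ 4 / (M (1/8)^(4k)) = 4 * 8^(4k) / M`, union over `l`: `≤ 4 L 8^(4k) / M ≤ 1/60`.
-/

set_option autoImplicit false

namespace Crest.Agent.R350

namespace MuAux

/-- reindexing of a decision tree -/
def reidx {I I' Ω : Type} (f : I → I') : RTree I Ω → RTree I' Ω
  | .leaf ω => .leaf ω
  | .node i t₀ t₁ => .node (f i) (reidx f t₀) (reidx f t₁)

theorem eval_reidx {I I' Ω : Type} (f : I → I') (x : I' → Bool) (t : RTree I Ω) :
    (reidx f t).eval x = t.eval (fun i => x (f i)) := by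
  induction t with
  | leaf ω => rfl
  | node i t₀ t₁ ih₀ ih₁ => simp only [reidx, RTree.eval, ih₀, ih₁]

theorem depth_reidx {I I' Ω : Type} (f : I → I') (t : RTree I Ω) :
    (reidx f t).depth = t.depth := by
  induction t with
  | leaf ω => rfl
  | node i t₀ t₁ ih₀ ih₁ => simp only [reidx, RTree.depth, ih₀, ih₁]

/-- currying -/
def cur (A B J : Type) : ((A × B × J) → Bool) ≃ (A × B → J → Bool) where
  toFun y i p := y (i.1, i.2, p)
  invFun z w := z (w.1, w.2.1) w.2.2
  left_inv _ := rfl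
  right_inv _ := rfl

end MuAux

open MuAux

theorem exists_mu (k : ℕ) (hk : 2 ≤ k) : ∃ C : ℝ, 0 < C ∧ ∀ (j L M : ℕ), 1 ≤ L →
    240 * L * 8 ^ (4 * k) ≤ M →
    ∃ (μ : (Fin L → Bool) → (DataBit (2 * j) (2 * k) L M → Bool) → ℝ)
      (ν : (DataBit (2 * j) (2 * k) L M → Bool) → ℝ),
      (∀ r y, 0 ≤ μ r y) ∧ (∀ r, ∑ y, μ r y = 1) ∧ (∀ y, 0 ≤ ν y) ∧ ∑ y, ν y = 1 ∧
      (∀ r, 1 - 1 / 60 ≤ ∑ y, (open Classical in
        if Good ((1 / 8 : ℝ) ^ (2 * k) * M * 2 ^ (j * (2 * k + 1)) / 2) r y then μ r y else 0)) ∧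
      ∀ (T : ℕ), (T : ℝ) ≤ ((4 : ℝ) ^ j) ^ (1 - 1 / (k : ℝ)) →
        ∀ (t : RTree (DataBit (2 * j) (2 * k) L M) Bool), t.depth ≤ T → ∀ r,
          ∑ y, μ r y * (if t.eval y then 1 else 0)
            ≤ ∑ y, ν y * (if t.eval y then 1 else 0)
              + L * M * (C * ((4 : ℝ) ^ j) ^ (-(1 / 4 : ℝ))) := by
  classical
  obtain ⟨C, hC, H⟩ := hidden_tree k hk
  refine ⟨C, hC, ?_⟩
  intro j L M hL hM
  obtain ⟨D, D₀, hD0, hD1, hz0, hz1, hmom, hhide⟩ := H j
  have hL' : (0 : ℝ) < L := by exact_mod_cast hL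
  have hMpos : 0 < M := lt_of_lt_of_le (by positivity) hM
  have hM' : (0 : ℝ) < M := by exact_mod_cast hMpos
  let e := cur (Fin L) (Fin M) (Fin (2 * k) × V (2 * j))
  let P : (Fin L → Bool) → (Fin L × Fin M) → Inst (2 * k) (2 * j) → ℝ := fun r i => D (r i.1)
  let Q : (Fin L × Fin M) → Inst (2 * k) (2 * j) → ℝ := fun _ => D₀
  have hμ1 : ∀ r, ∑ y, prodw (P r) (e y) = 1 := by
    intro r
    rw [Equiv.sum_comp e (fun y => prodw (P r) y)]
    exact sum_prodw _ fun i => hD1 _
  have hμ0 : ∀ r y, 0 ≤ prodw (P r) (e y) := fun r y => Finset.prod_nonneg fun i _ => hD0 _ _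
  refine ⟨fun r y => prodw (P r) (e y), fun y => prodw Q (e y), hμ0, hμ1,
    fun y => Finset.prod_nonneg fun i _ => hz0 _, ?_, ?_, ?_⟩
  · rw [Equiv.sum_comp e (fun y => prodw Q y)]
    exact sum_prodw _ fun i => hz1
  · -- good inputs
    intro r
    set τ : ℝ := (1 / 8 : ℝ) ^ (2 * k) * M * 2 ^ (j * (2 * k + 1)) / 2 with hτ
    set a : ℝ := 2 ^ (j * (2 * k + 1)) with ha
    have hapos : 0 < a := by positivity
    set m₁ : ℝ := (1 / 8 : ℝ) ^ (2 * k) * a with hm₁
    have hm₁pos : 0 < m₁ := by positivity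
    have hcheb : ∀ l : Fin L, ∑ y : DataBit (2 * j) (2 * k) L M → Bool,
        (if (sg (r l) : ℝ) * ∑ i : Fin M, (Psi (fun p => y (l, i, p)) : ℝ) < τ then
          prodw (P r) (e y) else 0) ≤ 4 * 8 ^ (4 * k) / M := by
      intro l
      let A : Finset (Fin L × Fin M) := Finset.univ.map
        ⟨fun m : Fin M => (l, m), fun m m' h => by simpa using h⟩
      have hAcard : A.card = M := by simp [A]
      have hA : A.Nonempty := by
        rw [← Finset.card_pos, hAcard]; exact hMpos
      have h1 := chebyshev (P r) (fun i x => hD0 _ _) (fun i => hD1 _)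
        (fun z : Inst (2 * k) (2 * j) => (Psi z : ℝ)) (fun i => (sg (r i.1) : ℝ))
        (fun i => by
          rcases Bool.eq_false_or_eq_true (r i.1) with h | h <;> simp [h, sg])
        a m₁ hm₁pos (fun z => by
          have h := abs_Psi_le z
          have h' : ((Psi z : ℤ) : ℝ) ^ 2 ≤ a ^ 2 := by
            have h2 : ((Psi z : ℤ) : ℝ) ^ 2 ≤ (2 : ℝ) ^ (2 * j * (2 * k + 1)) := by exact_mod_cast h
            rw [ha, ← pow_mul]
            have e : j * (2 * k + 1) * 2 = 2 * j * (2 * k + 1) := by ring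
            rw [e]; exact h2
          exact abs_le_of_sq_le_sq h' hapos.le) (fun i => by
          have := hmom (r i.1)
          rw [hm₁]
          exact this) A hA
      rw [hAcard] at h1
      have e1 : 4 * a ^ 2 / (M * m₁ ^ 2) = 4 * 8 ^ (4 * k) / M := by
        rw [hm₁, mul_pow]
        have h8 : ((1 / 8 : ℝ) ^ (2 * k)) ^ 2 * 8 ^ (4 * k) = 1 := by
          have e : 2 * k * 2 = 4 * k := by ring
          rw [← pow_mul, e, ← mul_pow]
          norm_num
        rw [div_eq_div_iff (by positivity) (by positivity)]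
        linear_combination (-4 * (M : ℝ) * a ^ 2) * h8
      rw [e1] at h1
      refine le_trans (le_of_eq ?_) h1
      rw [← Equiv.sum_comp e]
      refine Finset.sum_congr rfl fun y _ => ?_
      have e2 : ∑ i ∈ A, (sg (r i.1) : ℝ) * (Psi (e y i) : ℝ) =
          (sg (r l) : ℝ) * ∑ i : Fin M, (Psi (fun p => y (l, i, p)) : ℝ) := by
        simp only [A, Finset.sum_map, Finset.mul_sum]
        rfl
      rw [e2]
      have e3 : (M : ℝ) * m₁ / 2 = τ := by rw [hm₁, hτ]; ring
      rw [e3]
    have hbad : ∑ y : DataBit (2 * j) (2 * k) L M → Bool,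
        (if Good τ r y then 0 else prodw (P r) (e y)) ≤ 1 / 60 := by
      calc _ ≤ ∑ y : DataBit (2 * j) (2 * k) L M → Bool, ∑ l : Fin L,
          (if (sg (r l) : ℝ) * ∑ i : Fin M, (Psi (fun p => y (l, i, p)) : ℝ) < τ then
          prodw (P r) (e y) else 0) := by
            refine Finset.sum_le_sum fun y _ => ?_
            split_ifs with hg
            · refine Finset.sum_nonneg fun l _ => ?_
              split_ifs
              · exact hμ0 r y
              · exact le_rfl
            · unfold Good at hg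
              push Not at hg
              obtain ⟨l, hl⟩ := hg
              refine le_trans ?_ (Finset.single_le_sum (fun l _ => ?_) (Finset.mem_univ l))
              · rw [if_pos hl]
              · split_ifs
                · exact hμ0 r y
                · exact le_rfl
        _ = ∑ l : Fin L, ∑ y : DataBit (2 * j) (2 * k) L M → Bool,
          (if (sg (r l) : ℝ) * ∑ i : Fin M, (Psi (fun p => y (l, i, p)) : ℝ) < τ then
          prodw (P r) (e y) else 0) := Finset.sum_comm
        _ ≤ ∑ _l : Fin L, (4 * 8 ^ (4 * k) / M : ℝ) := Finset.sum_le_sum fun l _ => hcheb l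
        _ = L * (4 * 8 ^ (4 * k) / M) := by
            rw [Finset.sum_const, Finset.card_univ, Fintype.card_fin, nsmul_eq_mul]
        _ ≤ 1 / 60 := by
            have hM2 : 240 * (L : ℝ) * 8 ^ (4 * k) ≤ M := by exact_mod_cast hM
            rw [← mul_div_assoc, div_le_iff₀ hM']
            linarith
    have hsum : (∑ y, if Good τ r y then prodw (P r) (e y) else 0) +
        (∑ y, if Good τ r y then 0 else prodw (P r) (e y)) = 1 := by
      rw [← hμ1 r, ← Finset.sum_add_distrib]
      refine Finset.sum_congr rfl fun y _ => ?_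
      split_ifs <;> ring
    linarith
  · intro T hT t ht r
    have h1 := hybrid (P r) Q (fun i z => hD0 _ _) (fun i => hD1 _) (fun i z => hz0 _)
      (fun i => hz1) T (C * ((4 : ℝ) ^ j) ^ (-(1 / 4 : ℝ)))
      (fun i t' ht' => hhide T hT t' ht' (r i.1))
      (reidx (fun w : DataBit (2 * j) (2 * k) L M => ((w.1, w.2.1), w.2.2)) t)
      (by rw [depth_reidx]; exact ht)
    rw [← Equiv.sum_comp e, ← Equiv.sum_comp e] at h1
    simp only [eval_reidx] at h1
    have hcard : (Fintype.card (Fin L × Fin M) : ℝ) = L * M := by simp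
    rw [hcard] at h1
    have h2 := (abs_le.1 h1).2
    have h3 : ∀ y : DataBit (2 * j) (2 * k) L M → Bool,
        t.eval (fun i => e y (i.1, i.2.1) i.2.2) = t.eval y := fun y => rfl
    simp only [h3] at h2
    linarith

end Crest.Agent.R350
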