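import Crest.Agent.R350.FCheck
import Crest.Agent.R350.Mu
import Crest.Agent.R350.Compose

/-!
# Row 350, piece Lower: the randomized lower bound for `FF`

PROOF.  `composition` with `C = P = V (2j)` (`m = 4^j` elements), `D = DataBit`, `A = Fin L → Bool` (`2^(6j) = m³` elements), `B = CellBit`,
`μ, ν` from `exists_mu`, `good r y = Good τ r y`, `δ = 1/60`, `cell` from `exists_cell`, `F = FF dec τ` (`hF0 = FF_x0`,
`hF1`: `Valid → FF = true`), `T0 = ⌊m^(1-1/k)⌋`, `t0 = ⌊m/20⌋`, `ε = L M C m^(-1/4) ≤ 1/60` for large `j` (polynomial in `j` times `4^(-j/4)`).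
So `1/3 ≤ 1/60 + R/(t0 m) + 1/20 + R/(T0 m) + R/m³ + 1/60`, hence `R (1/(t0 m) + 1/(T0 m) + 1/m³) ≥ 1/4`; as `T0 ≤ m`, `t0 ≥ m/40`
the bracket is `≤ 42/(T0 m)`, and `T0 ≥ m^(1-1/k)/2`: `R ≥ m^(2-1/k)/336`.
-/

set_option autoImplicit false

namespace Crest.Agent.R350

theorem LowerAux.eps_small (A : ℝ) : ∃ j₀ : ℕ, ∀ j : ℕ, j₀ ≤ j →
    A * (j : ℝ) ^ 2 * ((4 : ℝ) ^ j) ^ (-(1 / 4 : ℝ)) ≤ 1 / 60 := by
  have hr : |(4 : ℝ) ^ (-(1 / 4 : ℝ))| < 1 := by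
    rw [abs_of_pos (by positivity)]
    exact Real.rpow_lt_one_of_one_lt_of_neg (by norm_num) (by norm_num)
  have h := (tendsto_pow_const_mul_const_pow_of_abs_lt_one 2 hr).const_mul A
  rw [mul_zero] at h
  have h2 := (h.eventually (gt_mem_nhds (show (0 : ℝ) < 1 / 60 by norm_num)))
  obtain ⟨j₀, hj₀⟩ := Filter.eventually_atTop.1 h2
  refine ⟨j₀, fun j hj => ?_⟩
  have h3 := (hj₀ j hj).le
  have e : ((4 : ℝ) ^ j) ^ (-(1 / 4 : ℝ)) = ((4 : ℝ) ^ (-(1 / 4 : ℝ))) ^ j := by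
    rw [Real.rpow_pow_comm (by norm_num)]
  rw [e, mul_assoc]
  exact h3

theorem LowerAux.num (m X R ε : ℝ) (T0 t0 : ℕ) (hm : 40 ≤ m) (hX1 : 1 ≤ X) (hXm : X ≤ m)
    (hR : 0 ≤ R) (hT0 : T0 = ⌊X⌋₊) (ht0 : t0 = ⌊m / 20⌋₊) (hε : ε ≤ 1 / 60)
    (h : 1 / 3 ≤ 1 / 60 + R / (t0 * m) + t0 / m + R / (T0 * m) + R / m ^ 3 + ε) :
    1 / 336 * (X * m) ≤ R := by
  have hT1 : (T0 : ℝ) ≤ X := by rw [hT0]; exact Nat.floor_le (by linarith)
  have hT2 : X < T0 + 1 := by rw [hT0]; exact Nat.lt_floor_add_one X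
  have hT3 : (1 : ℝ) ≤ T0 := by
    have : 1 ≤ T0 := by rw [hT0]; exact (Nat.one_le_floor_iff X).2 hX1
    exact_mod_cast this
  have ht1 : (t0 : ℝ) ≤ m / 20 := by rw [ht0]; exact Nat.floor_le (by linarith)
  have ht2 : m / 20 < t0 + 1 := by rw [ht0]; exact Nat.lt_floor_add_one _
  have ht3 : m / 40 ≤ t0 := by linarith
  have hm0 : 0 < m := by linarith
  have ht0pos : 0 < (t0 : ℝ) := by linarith
  have hT0pos : 0 < (T0 : ℝ) := by linarith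
  have e1 : R / (t0 * m) ≤ 40 * (R / (T0 * m)) := by
    have : 40 * (R / (T0 * m)) = R / ((T0 / 40) * m) := by field_simp
    rw [this]
    apply div_le_div_of_nonneg_left hR (by positivity)
    apply mul_le_mul_of_nonneg_right _ hm0.le
    linarith
  have e2 : R / m ^ 3 ≤ R / (T0 * m) := by
    apply div_le_div_of_nonneg_left hR (by positivity)
    have h1 : (T0 : ℝ) * m ≤ m * m := by nlinarith
    have h2 : m * m ≤ m ^ 3 := by nlinarith [mul_pos hm0 hm0]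
    linarith
  have e3 : (t0 : ℝ) / m ≤ 1 / 20 := by
    rw [div_le_div_iff₀ hm0 (by norm_num)]
    linarith
  have e4 : 1 / 4 ≤ 42 * (R / (T0 * m)) := by linarith
  have e5 : 42 * (R / (T0 * m)) = 42 * R / (T0 * m) := by ring
  rw [e5, le_div_iff₀ (by positivity)] at e4
  have h6 : X * m ≤ 2 * (T0 * m) := by nlinarith
  linarith

theorem lower_FF (k : ℕ) (hk : 2 ≤ k) : ∃ j₀ : ℕ, ∀ j : ℕ, j₀ ≤ j →
    ∀ (β : ℕ) (dec : (Fin β → Bool) → ℤ),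
      (∀ a : ℤ, |a| ≤ 2 ^ (2 * j * (2 * k)) → ∃ v, dec v = a) →
      ∀ (R s : ℕ) (p : Fin s → ℝ)
        (T : Fin s → RTree (Idx (2 * j) (2 * k) (6 * j) (240 * (6 * j) * 8 ^ (4 * k)) β) Bool),
        (∀ i, 0 ≤ p i) → ∑ i, p i = 1 → (∀ i, (T i).depth ≤ R) →
        (∀ x, 2 / 3 ≤ ∑ i, if (T i).eval x = FF dec ((1 / 8 : ℝ) ^ (2 * k) *
          ((240 * (6 * j) * 8 ^ (4 * k) : ℕ) : ℝ) * 2 ^ (j * (2 * k + 1)) / 2) x then p i else 0) →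
        1 / 336 * ((4 : ℝ) ^ j) ^ (2 - 1 / (k : ℝ)) ≤ R := by
  obtain ⟨C, hC, hmu⟩ := exists_mu k hk
  obtain ⟨j₀, hj₀⟩ := LowerAux.eps_small (6 * (240 * 6 * 8 ^ (4 * k)) * C)
  refine ⟨max j₀ 3, ?_⟩
  intro j hj β dec hdec R s p T hp0 hp1 hT hcor
  have hj1 : j₀ ≤ j := le_trans (le_max_left _ _) hj
  have hj3 : 3 ≤ j := le_trans (le_max_right _ _) hj
  have hε := hj₀ j hj1
  obtain ⟨μ, ν, hμ0, hμ1, hν0, hν1, hgood, hhide⟩ :=
    hmu j (6 * j) (240 * (6 * j) * 8 ^ (4 * k)) (by omega) le_rfl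
  have hkr : (2 : ℝ) ≤ k := by exact_mod_cast hk
  have hm64 : (64 : ℝ) ≤ (4 : ℝ) ^ j := by
    calc (64 : ℝ) = 4 ^ 3 := by norm_num
      _ ≤ 4 ^ j := pow_le_pow_right₀ (by norm_num) hj3
  have hexp0 : (0 : ℝ) ≤ 1 - 1 / (k : ℝ) := by
    have : 1 / (k : ℝ) ≤ 1 := by
      rw [div_le_one (by linarith)]; linarith
    linarith
  have hX1 : (1 : ℝ) ≤ ((4 : ℝ) ^ j) ^ (1 - 1 / (k : ℝ)) :=
    Real.one_le_rpow (by linarith) hexp0
  have hXm : ((4 : ℝ) ^ j) ^ (1 - 1 / (k : ℝ)) ≤ (4 : ℝ) ^ j := by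
    calc ((4 : ℝ) ^ j) ^ (1 - 1 / (k : ℝ)) ≤ ((4 : ℝ) ^ j) ^ (1 : ℝ) := by
          apply Real.rpow_le_rpow_of_exponent_le (by linarith)
          have : 0 < 1 / (k : ℝ) := by positivity
          linarith
      _ = _ := Real.rpow_one _
  set X : ℝ := ((4 : ℝ) ^ j) ^ (1 - 1 / (k : ℝ)) with hX
  have hT0 : 1 ≤ ⌊X⌋₊ := (Nat.one_le_floor_iff X).2 hX1
  have ht0 : 1 ≤ ⌊(4 : ℝ) ^ j / 20⌋₊ := (Nat.one_le_floor_iff _).2 (by linarith)
  choose cell hcell using fun (b : V (2 * j)) (z : V (2 * j) → V (2 * j))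
    (y : DataBit (2 * j) (2 * k) (6 * j) (240 * (6 * j) * 8 ^ (4 * k)) → Bool) =>
      exists_cell (β := β) dec hdec b z y
  classical
  have key := composition μ ν hμ0 hμ1 hν0 hν1 ⌊X⌋₊ hT0 _
    (fun t ht r => hhide ⌊X⌋₊ (Nat.floor_le (by linarith)) t ht r) _ (1 / 60) hgood cell
    (FF dec _) (fun z y => FF_x0 dec _ z y)
    (fun z y b r hg => by
      have := hcell b z (y b) _ r y rfl hg
      unfold FF
      rw [decide_eq_true_iff]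
      exact ⟨r, this⟩)
    ⌊(4 : ℝ) ^ j / 20⌋₊ ht0 R s p T hp0 hp1 hT hcor
  have hcardV : Fintype.card (V (2 * j)) = 4 ^ j := by
    simp [V, pow_mul]
  have hcardA : Fintype.card (Fin (6 * j) → Bool) = (4 ^ j) ^ 3 := by
    simp only [Fintype.card_fun, Fintype.card_bool, Fintype.card_fin]
    rw [← pow_mul, show (4 : ℕ) = 2 ^ 2 by norm_num, ← pow_mul]
    congr 1
    ring
  rw [hcardV, hcardA] at key
  push_cast at key
  have hfin := LowerAux.num ((4 : ℝ) ^ j) X R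
    (6 * (j : ℝ) * (240 * (6 * j) * 8 ^ (4 * k)) * (C * ((4 : ℝ) ^ j) ^ (-(1 / 4 : ℝ))))
    _ _ (by linarith) hX1 hXm (Nat.cast_nonneg R) rfl rfl ?_ key
  · have e : ((4 : ℝ) ^ j) ^ (2 - 1 / (k : ℝ)) = X * (4 : ℝ) ^ j := by
      rw [hX]
      nth_rewrite 3 [← Real.rpow_one ((4 : ℝ) ^ j)]
      rw [← Real.rpow_add (by positivity)]
      congr 1
      ring
    rw [e]
    exact hfin
  · refine le_trans (le_of_eq ?_) hε
    ring

end Crest.Agent.R350
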