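import Crest.Agent.R350.QBasic

/-!
# Row 350, piece QReal: samplers are quantum query algorithms in the official model

PROOF of `quantumComputes_of_samp`.  WLOG (transport along `Fintype.equivFin`) the state space is `E = Fin w`.
Basis of the official model: `QIdx n w = Fin n × Bool × Fin w`.  Let `i₀ = ⟨0, hn⟩`.  A state `ψ : E → ℂ` is represented by
`emb ψ (i, b, e) = if i = i₀ ∧ b = false then ψ e else 0`.  For a phase map `q : E → Option (Fin n)` let
`A_q` be the unitary, block diagonal in `e`, acting on the `(i, b)` registers as (swap of `i₀` and `i` on the first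
register) ⊗ (Hadamard ∘ X) if `q e = some i`, and as `1 ⊗ Hadamard` if `q e = none`.
Then `A_qᴴ ∘ oracle x ∘ A_q (emb ψ) = emb (diagonal (ph x (q ·)) ψ)` because
`oracle x` fixes `|i, +⟩` and multiplies `|i, -⟩` by `(-1)^{x i}`.  So the `QU` structure (induction) gives unitaries
`U 0, …, U T` of the official model (`U t = A_{q_{t+1}} (1 ⊗ U_t) A_{q_t}ᴴ`), start vector `emb (Pi.single e₀ 1)`,
`out (i, b, e) := out e`.  (`U` must be defined for all `t : ℕ`: take `1` beyond `T`.)  A convenient inductive statement: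
for `QU (Fin n) (Fin w) T V` and any unitary `A` on `QIdx n w` there is `U : ℕ → Matrix _ _ ℂ`, all unitary, with
`∀ x ψ, stateAfter U x (emb ψ) T = A.mulVec (emb ((V x).mulVec ψ))`.
-/

set_option autoImplicit false

namespace Crest.Agent.R350

open Crest.MathPhysics.Query

namespace QRealAux

lemma ph_map {I I' : Type} (g : I → I') (x : I' → Bool) (o : Option I) :
    ph (fun i => x (g i)) o = ph x (o.map g) := by
  cases o <;> rfl

lemma QU_reindex {I I' : Type} {E : Type} [Fintype E] [DecidableEq E] {T : ℕ}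
    {V : (I → Bool) → Matrix E E ℂ} (h : QU I E T V) (g : I → I') :
    QU I' E T (fun x => V (fun i => x (g i))) := by
  induction h with
  | const U hU => exact QU.const U hU
  | @step T V h q U hU ih =>
    have := QU.step ih (fun e => (q e).map g) U hU
    simpa only [ph_map] using this

lemma submatrix_unitary {E F : Type} [Fintype E] [DecidableEq E] [Fintype F] [DecidableEq F]
    (ε : F ≃ E) {U : Matrix E E ℂ} (hU : U ∈ Matrix.unitaryGroup E ℂ) :
    U.submatrix ε ε ∈ Matrix.unitaryGroup F ℂ := by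
  rw [Matrix.mem_unitaryGroup_iff, Matrix.star_eq_conjTranspose] at hU ⊢
  rw [Matrix.conjTranspose_submatrix, Matrix.submatrix_mul_equiv, hU, Matrix.submatrix_one_equiv]

lemma QU_transport {I : Type} {E F : Type} [Fintype E] [DecidableEq E] [Fintype F] [DecidableEq F]
    {T : ℕ} {V : (I → Bool) → Matrix E E ℂ} (h : QU I E T V) (ε : F ≃ E) :
    QU I F T (fun x => (V x).submatrix ε ε) := by
  induction h with
  | const U hU => exact QU.const _ (submatrix_unitary ε hU)
  | @step T V h q U hU ih =>
    have := QU.step ih (fun f => q (ε f)) _ (submatrix_unitary ε hU)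
    convert this using 2 with x
    have hd : (Matrix.diagonal fun f : F => ph x (q (ε f))) =
        (Matrix.diagonal fun e : E => ph x (q e)).submatrix ε ε := by
      rw [Matrix.submatrix_diagonal_equiv]
      rfl
    rw [hd, Matrix.submatrix_mul_equiv, Matrix.submatrix_mul_equiv]

variable {n w : ℕ}

/-- representation of a state in the official model -/
def emb (i₀ : Fin n) (ψ : Fin w → ℂ) : QIdx n w → ℂ :=
  fun p => if p.1 = i₀ then (if p.2.1 = false then ψ p.2.2 else 0) else 0

/-- `M` acting on the work register -/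
def lift (n : ℕ) (M : Matrix (Fin w) (Fin w) ℂ) : Matrix (QIdx n w) (QIdx n w) ℂ :=
  Matrix.of fun p r => if r.1 = p.1 then (if r.2.1 = p.2.1 then M p.2.2 r.2.2 else 0) else 0

lemma lift_emb (i₀ : Fin n) (M : Matrix (Fin w) (Fin w) ℂ) (ψ : Fin w → ℂ) :
    (lift n M).mulVec (emb i₀ ψ) = emb i₀ (M.mulVec ψ) := by
  funext p
  obtain ⟨i, b, e⟩ := p
  simp only [Matrix.mulVec, dotProduct, lift, emb, Matrix.of_apply, Fintype.sum_prod_type]
  by_cases hi : i = i₀
  · by_cases hb : b = false
    · simp [hi, hb]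
    · simp [hi, hb]
  · have hi' : ¬ (i₀ = i) := fun h => hi h.symm
    simp [hi, hi']

lemma lift_mul_star (M N : Matrix (Fin w) (Fin w) ℂ) (h : M * N.conjTranspose = 1) :
    lift n M * (lift n N).conjTranspose = 1 := by
  ext p r
  obtain ⟨i, b, e⟩ := p
  obtain ⟨i', b', e'⟩ := r
  rw [Matrix.mul_apply]
  simp only [lift, Matrix.of_apply, Matrix.conjTranspose_apply, Fintype.sum_prod_type]
  have h' := congrFun (congrFun h e) e'
  simp only [Matrix.mul_apply, Matrix.conjTranspose_apply] at h'
  by_cases hi : i = i'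
  · by_cases hb : b = b'
    · subst hi hb
      simp only [ite_mul, zero_mul, Finset.sum_ite_irrel, Finset.sum_const_zero,
        Finset.sum_ite_eq', Finset.mem_univ, if_true]
      rw [h', Matrix.one_apply, Matrix.one_apply]
      simp
    · subst hi
      simp [hb]
  · simp [hi]

lemma lift_unitary {M : Matrix (Fin w) (Fin w) ℂ} (h : M ∈ Matrix.unitaryGroup (Fin w) ℂ) :
    lift n M ∈ Matrix.unitaryGroup (QIdx n w) ℂ := by
  rw [Matrix.mem_unitaryGroup_iff, Matrix.star_eq_conjTranspose] at h ⊢
  exact lift_mul_star M M h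

/-- index of the optional bit -/
def idx (i₀ : Fin n) : Option (Fin n) → Fin n
  | none => i₀
  | some i => i

/-- the Hadamard-type matrices: the column `false` is `|+⟩` (`none`) or `|-⟩` (`some`). -/
noncomputable def hh : Option (Fin n) → Bool → Bool → ℂ
  | none, b, b' => (1 / (Real.sqrt 2 : ℝ) : ℂ) * (if b && b' then -1 else 1)
  | some _, b, b' => (1 / (Real.sqrt 2 : ℝ) : ℂ) * (if b && !b' then -1 else 1)

lemma sqrt_two_mul : ((1 : ℂ) / (Real.sqrt 2 : ℝ)) * (1 / (Real.sqrt 2 : ℝ)) = 1 / 2 := by
  rw [div_mul_div_comm, one_mul]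
  congr 1
  rw [← Complex.ofReal_mul, Real.mul_self_sqrt (by norm_num)]
  norm_num

lemma hh_star (o : Option (Fin n)) (b c : Bool) :
    ∑ d : Bool, hh o b d * star (hh o c d) = if b = c then 1 else 0 := by
  have h := sqrt_two_mul
  cases o <;> cases b <;> cases c <;>
    simp only [hh, Fintype.sum_bool, star_mul', Complex.star_def, map_div₀, map_one,
      Complex.conj_ofReal, Bool.and_true, Bool.and_false, Bool.true_and, Bool.false_and,
      Bool.not_true, Bool.not_false, if_true, if_false, Bool.false_eq_true, map_neg, mul_one,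
      reduceCtorEq] <;>
    first
      | linear_combination 2 * h
      | ring

/-- the unitary `A_q` -/
noncomputable def Aq (i₀ : Fin n) (q : Fin w → Option (Fin n)) :
    Matrix (QIdx n w) (QIdx n w) ℂ :=
  Matrix.of fun p r => if r.1 = Equiv.swap i₀ (idx i₀ (q p.2.2)) p.1 then
    (if r.2.2 = p.2.2 then hh (q p.2.2) p.2.1 r.2.1 else 0) else 0

lemma Aq_unitary (i₀ : Fin n) (q : Fin w → Option (Fin n)) :
    Aq i₀ q ∈ Matrix.unitaryGroup (QIdx n w) ℂ := by
  rw [Matrix.mem_unitaryGroup_iff, Matrix.star_eq_conjTranspose]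
  ext p r
  obtain ⟨i, b, e⟩ := p
  obtain ⟨i', b', e'⟩ := r
  rw [Matrix.mul_apply]
  simp only [Aq, Matrix.of_apply, Matrix.conjTranspose_apply, Fintype.sum_prod_type]
  by_cases he : e = e'
  · subst he
    by_cases hi : i = i'
    · subst hi
      have h := hh_star (q e) b b'
      simp only [ite_mul, zero_mul, Finset.sum_ite_irrel, Finset.sum_const_zero,
        Finset.sum_ite_eq', Finset.mem_univ, if_true]
      rw [h, Matrix.one_apply]
      simp
    · have : ¬ (Equiv.swap i₀ (idx i₀ (q e)) i = Equiv.swap i₀ (idx i₀ (q e)) i') := by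
        intro h
        exact hi (Equiv.injective _ h)
      simp [hi, this]
  · simp [he]

lemma Aq_emb (i₀ : Fin n) (q : Fin w → Option (Fin n)) (ψ : Fin w → ℂ) (i : Fin n) (b : Bool)
    (e : Fin w) : (Aq i₀ q).mulVec (emb i₀ ψ) (i, b, e) =
      if i = idx i₀ (q e) then hh (q e) b false * ψ e else 0 := by
  simp only [Matrix.mulVec, dotProduct, Aq, emb, Matrix.of_apply, Fintype.sum_prod_type]
  have h : (i₀ = Equiv.swap i₀ (idx i₀ (q e)) i) ↔ i = idx i₀ (q e) := by
    constructor
    · intro h
      have := congrArg (Equiv.swap i₀ (idx i₀ (q e))) h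
      rw [Equiv.swap_apply_left, Equiv.swap_apply_self] at this
      exact this.symm
    · intro h
      rw [h, Equiv.swap_apply_right]
  simp only [mul_ite, mul_zero, Finset.sum_ite_irrel, Finset.sum_const_zero,
        Finset.sum_ite_eq', Finset.mem_univ, if_true, ite_mul, zero_mul, h]

lemma hh_xor (x : Fin n → Bool) (i₀ : Fin n) (o : Option (Fin n)) (b : Bool) :
    hh o (xor b (x (idx i₀ o))) false = hh o b false * ph x o := by
  cases o with
  | none => simp [hh, ph]
  | some i =>
    cases b <;> cases hx : x i <;> simp [hh, ph, idx, hx]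

lemma oracle_Aq (i₀ : Fin n) (q : Fin w → Option (Fin n)) (x : Fin n → Bool) (ψ : Fin w → ℂ) :
    oracle x ((Aq i₀ q).mulVec (emb i₀ ψ)) =
      (Aq i₀ q).mulVec (emb i₀ ((Matrix.diagonal fun e => ph x (q e)).mulVec ψ)) := by
  funext p
  obtain ⟨i, b, e⟩ := p
  simp only [oracle]
  rw [Aq_emb, Aq_emb, Matrix.mulVec_diagonal]
  by_cases hi : i = idx i₀ (q e)
  · rw [if_pos hi, if_pos hi, hi, hh_xor]
    ring
  · rw [if_neg hi, if_neg hi]

lemma stateAfter_congr {U U' : ℕ → Matrix (QIdx n w) (QIdx n w) ℂ} (x : Fin n → Bool)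
    (ψ : QIdx n w → ℂ) (T : ℕ) (h : ∀ t ≤ T, U t = U' t) :
    stateAfter U x ψ T = stateAfter U' x ψ T := by
  induction T with
  | zero => simp only [stateAfter]; rw [h 0 le_rfl]
  | succ T ih =>
    simp only [stateAfter]
    rw [h (T + 1) le_rfl, ih (fun t ht => h t (by omega))]

lemma main_real (i₀ : Fin n) {T : ℕ} {V : (Fin n → Bool) → Matrix (Fin w) (Fin w) ℂ}
    (h : QU (Fin n) (Fin w) T V) : ∀ (A : Matrix (QIdx n w) (QIdx n w) ℂ),
    A ∈ Matrix.unitaryGroup (QIdx n w) ℂ →
    ∃ U : ℕ → Matrix (QIdx n w) (QIdx n w) ℂ, (∀ t, U t ∈ Matrix.unitaryGroup (QIdx n w) ℂ) ∧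
      ∀ x ψ, stateAfter U x (emb i₀ ψ) T = A.mulVec (emb i₀ ((V x).mulVec ψ)) := by
  induction h with
  | const M hM =>
    intro A hA
    refine ⟨fun _ => A * lift n M, fun t => mul_mem hA (lift_unitary hM), ?_⟩
    intro x ψ
    simp only [stateAfter]
    rw [← Matrix.mulVec_mulVec, lift_emb]
  | @step T V h q M hM ih =>
    intro A hA
    obtain ⟨U', hU', hs⟩ := ih (Aq i₀ q) (Aq_unitary i₀ q)
    refine ⟨Function.update U' (T + 1) (A * lift n M * (Aq i₀ q).conjTranspose), ?_, ?_⟩
    · intro t
      by_cases ht : t = T + 1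
      · subst ht
        rw [Function.update_self]
        refine mul_mem (mul_mem hA (lift_unitary hM)) ?_
        exact Unitary.star_mem (Aq_unitary i₀ q)
      · rw [Function.update_of_ne ht]
        exact hU' t
    · intro x ψ
      simp only [stateAfter]
      rw [Function.update_self, stateAfter_congr (U' := U') x (emb i₀ ψ) T, hs, oracle_Aq,
        ← Matrix.mulVec_mulVec, Matrix.mulVec_mulVec _ (Aq i₀ q).conjTranspose]
      · have : (Aq i₀ q).conjTranspose * Aq i₀ q = 1 := by
          have := Aq_unitary i₀ q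
          rwa [Matrix.mem_unitaryGroup_iff', Matrix.star_eq_conjTranspose] at this
        rw [this, Matrix.one_mulVec, ← Matrix.mulVec_mulVec, lift_emb, Matrix.mulVec_mulVec,
          Matrix.mulVec_mulVec]
      · intro t ht
        rw [Function.update_of_ne (by omega)]

end QRealAux

open QRealAux

/-- change of the index set of the input bits -/
theorem Samp.reindex {I I' : Type} {T : ℕ} {Ω : Type} {P : (I → Bool) → Ω → ℝ} (h : Samp I T P)
    (g : I → I') : Samp I' T (fun x ω => P (fun i => x (g i)) ω) := by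
  obtain ⟨E, _, _, V, e₀, out, hV, hP⟩ := h
  exact ⟨E, inferInstance, inferInstance, _, e₀, out, QU_reindex hV g, fun x ω => hP _ ω⟩

theorem quantumComputes_of_samp {n T : ℕ} (hn : 0 < n) (F : (Fin n → Bool) → Bool)
    {P : (Fin n → Bool) → Bool → ℝ} (h : Samp (Fin n) T P) (hP : ∀ x, 2 / 3 ≤ P x (F x)) :
    QuantumComputes F T := by
  classical
  obtain ⟨E, _, _, V, e₀, out, hV, hPV⟩ := h
  let ε : Fin (Fintype.card E) ≃ E := (Fintype.equivFin E).symm
  obtain ⟨U, hU, hs⟩ := main_real ⟨0, hn⟩ (QU_transport hV ε) 1 (one_mem _)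
  refine ⟨Fintype.card E, U, emb ⟨0, hn⟩ (Pi.single (ε.symm e₀) 1), fun p => out (ε p.2.2), hU,
    ?_, ?_⟩
  · simp only [Fintype.sum_prod_type, emb]
    rw [Finset.sum_eq_single ⟨0, hn⟩]
    · rw [Fintype.sum_bool]
      simp only [if_true, Bool.true_eq_false, if_false, norm_zero, ne_eq, OfNat.ofNat_ne_zero,
        not_false_eq_true, zero_pow, Finset.sum_const_zero, zero_add]
      rw [Finset.sum_eq_single (ε.symm e₀)]
      · simp
      · intro b _ hb
        simp [hb]
      · simp
    · intro b _ hb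
      simp [hb]
    · simp
  · intro x
    refine (hP x).trans (le_of_eq ?_)
    rw [hPV, hs, Matrix.one_mulVec]
    have hcol : ((V x).submatrix ε ε).mulVec (Pi.single (ε.symm e₀) 1) =
        fun f => V x (ε f) e₀ := by
      funext f
      rw [Matrix.mulVec_single_one]
      simp
    simp only [hcol, Fintype.sum_prod_type, emb]
    rw [← Equiv.sum_comp ε]
    symm
    rw [Finset.sum_eq_single ⟨0, hn⟩]
    · rw [Fintype.sum_bool]
      simp only [if_true, Bool.true_eq_false, if_false, norm_zero]
      simp only [ne_eq, OfNat.ofNat_ne_zero, not_false_eq_true, zero_pow, ite_self,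
        Finset.sum_const_zero, zero_add]
      apply Finset.sum_congr rfl
      intro f _
      by_cases hf : out (ε f) = F x <;> simp [hf]
    · intro b _ hb
      simp [hb]
    · simp

end Crest.Agent.R350
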