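import Crest.Agent.R350.Upper
import Crest.Agent.R350.Lower
import Crest.Agent.R350.QReal

/-! # Row 350: final assembly -/

set_option autoImplicit false

namespace Crest.Agent.R350

open Crest.MathPhysics.Query

/-- official decision trees as trees over an arbitrary index type -/
def toR {n : ℕ} {I : Type} (g : Fin n → I) : DTree n → RTree I Bool
  | DTree.answer b => RTree.leaf b
  | DTree.read i t₀ t₁ => RTree.node (g i) (toR g t₀) (toR g t₁)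

theorem toR_eval {n : ℕ} {I : Type} (g : Fin n → I) (x : I → Bool) (t : DTree n) :
    (toR g t).eval x = t.eval (fun i => x (g i)) := by
  induction t with
  | answer b => rfl
  | read i t₀ t₁ h₀ h₁ =>
    simp only [toR, RTree.eval, DTree.eval, h₀, h₁]

theorem toR_depth {n : ℕ} {I : Type} (g : Fin n → I) (t : DTree n) :
    (toR g t).depth = t.depth := by
  induction t with
  | answer b => rfl
  | read i t₀ t₁ h₀ h₁ =>
    simp only [toR, RTree.depth, DTree.depth, h₀, h₁]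

/-- number of queries of the algorithm is at most `C 2^j (j+1)^8` -/
theorem q_bound (C₀ k : ℕ) : ∃ C : ℕ, ∀ j : ℕ,
    100 * (C₀ * 2 ^ j * (j + 1) ^ 6 * (6 * j * (40 * (6 * j) * 8 ^ (4 * k) * (2 * k)) + (2 * j + 1) + 1)
          + 160 * (2 ^ j * (3 + 6 * j * (240 * (6 * j) * 8 ^ (4 * k))
            + 6 * j * (240 * (6 * j) * 8 ^ (4 * k)) * (2 * k * (2 * j + 1)) + 6 * j))
            * (2 * (2 * j) + 1 + (240 * (6 * j) * 8 ^ (4 * k) + 3) * (2 * j * (2 * k) + 2)))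
      ≤ C * (2 ^ j * (j + 1) ^ 8) := by
  set a : ℕ := 8 ^ (4 * k) with ha
  refine ⟨100 * (C₀ * (6 * (40 * 6 * a * (2 * k)) + 2)
    + 160 * ((3 + 6 * (240 * 6 * a) + 6 * (240 * 6 * a) * (2 * k * 2) + 6)
      * (4 + (240 * 6 * a + 3) * (2 * (2 * k) + 2)))), ?_⟩
  intro j
  set u : ℕ := j + 1 with hu
  have hj : j ≤ u := by omega
  have hu1 : 1 ≤ u := by omega
  have h1 : 6 * j * (40 * (6 * j) * a * (2 * k)) + (2 * j + 1) + 1
      ≤ (6 * (40 * 6 * a * (2 * k)) + 2) * u ^ 2 := by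
    have e1 : 6 * j * (40 * (6 * j) * a * (2 * k)) ≤ 6 * u * (40 * (6 * u) * a * (2 * k)) := by
      gcongr
    have e2 : 2 * j + 1 + 1 ≤ 2 * u ^ 2 := by nlinarith
    calc 6 * j * (40 * (6 * j) * a * (2 * k)) + (2 * j + 1) + 1
        ≤ 6 * u * (40 * (6 * u) * a * (2 * k)) + 2 * u ^ 2 := by omega
      _ = (6 * (40 * 6 * a * (2 * k)) + 2) * u ^ 2 := by ring
  have h2 : 3 + 6 * j * (240 * (6 * j) * a) + 6 * j * (240 * (6 * j) * a) * (2 * k * (2 * j + 1)) + 6 * j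
      ≤ (3 + 6 * (240 * 6 * a) + 6 * (240 * 6 * a) * (2 * k * 2) + 6) * u ^ 3 := by
    have e0 : 2 * j + 1 ≤ 2 * u := by omega
    have p1 : u ≤ u ^ 3 := by
      calc u = u * 1 := by ring
        _ ≤ u * u ^ 2 := by gcongr; nlinarith
        _ = u ^ 3 := by ring
    have p2 : u ^ 2 ≤ u ^ 3 := by
      calc u ^ 2 = 1 * u ^ 2 := by ring
        _ ≤ u * u ^ 2 := by gcongr
        _ = u ^ 3 := by ring
    have p0 : 1 ≤ u ^ 3 := le_trans hu1 p1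
    have e1 : 6 * j * (240 * (6 * j) * a) ≤ 6 * (240 * 6 * a) * u ^ 3 := by
      calc 6 * j * (240 * (6 * j) * a) ≤ 6 * u * (240 * (6 * u) * a) := by gcongr
        _ = 6 * (240 * 6 * a) * u ^ 2 := by ring
        _ ≤ 6 * (240 * 6 * a) * u ^ 3 := by gcongr
    have e2 : 6 * j * (240 * (6 * j) * a) * (2 * k * (2 * j + 1))
        ≤ 6 * (240 * 6 * a) * (2 * k * 2) * u ^ 3 := by
      calc 6 * j * (240 * (6 * j) * a) * (2 * k * (2 * j + 1))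
          ≤ 6 * u * (240 * (6 * u) * a) * (2 * k * (2 * u)) := by gcongr
        _ = 6 * (240 * 6 * a) * (2 * k * 2) * u ^ 3 := by ring
    have e3 : 6 * j ≤ 6 * u ^ 3 := by
      calc 6 * j ≤ 6 * u := by gcongr
        _ ≤ 6 * u ^ 3 := by gcongr
    calc 3 + 6 * j * (240 * (6 * j) * a) + 6 * j * (240 * (6 * j) * a) * (2 * k * (2 * j + 1)) + 6 * j
        ≤ 3 * u ^ 3 + 6 * (240 * 6 * a) * u ^ 3 + 6 * (240 * 6 * a) * (2 * k * 2) * u ^ 3
          + 6 * u ^ 3 := by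
          have e4 : 3 ≤ 3 * u ^ 3 := by omega
          omega
      _ = (3 + 6 * (240 * 6 * a) + 6 * (240 * 6 * a) * (2 * k * 2) + 6) * u ^ 3 := by ring
  have h3 : 2 * (2 * j) + 1 + (240 * (6 * j) * a + 3) * (2 * j * (2 * k) + 2)
      ≤ (4 + (240 * 6 * a + 3) * (2 * (2 * k) + 2)) * u ^ 2 := by
    have p1 : u ≤ u ^ 2 := by nlinarith
    have e1 : 2 * (2 * j) + 1 ≤ 4 * u ^ 2 := by
      have : 2 * (2 * j) + 1 ≤ 4 * u := by omega
      omega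
    have e2 : 240 * (6 * j) * a + 3 ≤ (240 * 6 * a + 3) * u := by
      calc 240 * (6 * j) * a + 3 ≤ 240 * (6 * u) * a + 3 * u := by gcongr; omega
        _ = (240 * 6 * a + 3) * u := by ring
    have e3 : 2 * j * (2 * k) + 2 ≤ (2 * (2 * k) + 2) * u := by
      calc 2 * j * (2 * k) + 2 ≤ 2 * u * (2 * k) + 2 * u := by gcongr; omega
        _ = (2 * (2 * k) + 2) * u := by ring
    calc 2 * (2 * j) + 1 + (240 * (6 * j) * a + 3) * (2 * j * (2 * k) + 2)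
        ≤ 4 * u ^ 2 + ((240 * 6 * a + 3) * u) * ((2 * (2 * k) + 2) * u) := by gcongr
      _ = (4 + (240 * 6 * a + 3) * (2 * (2 * k) + 2)) * u ^ 2 := by ring
  set c1 : ℕ := 6 * (40 * 6 * a * (2 * k)) + 2 with hc1
  set c2 : ℕ := 3 + 6 * (240 * 6 * a) + 6 * (240 * 6 * a) * (2 * k * 2) + 6 with hc2
  set c3 : ℕ := 4 + (240 * 6 * a + 3) * (2 * (2 * k) + 2) with hc3
  have p5 : u ^ 5 ≤ u ^ 8 := Nat.pow_le_pow_right hu1 (by norm_num)
  calc 100 * (C₀ * 2 ^ j * u ^ 6 * (6 * j * (40 * (6 * j) * a * (2 * k)) + (2 * j + 1) + 1)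
          + 160 * (2 ^ j * (3 + 6 * j * (240 * (6 * j) * a)
            + 6 * j * (240 * (6 * j) * a) * (2 * k * (2 * j + 1)) + 6 * j))
            * (2 * (2 * j) + 1 + (240 * (6 * j) * a + 3) * (2 * j * (2 * k) + 2)))
      ≤ 100 * (C₀ * 2 ^ j * u ^ 6 * (c1 * u ^ 2)
          + 160 * (2 ^ j * (c2 * u ^ 3)) * (c3 * u ^ 2)) := by gcongr
    _ = 100 * (C₀ * c1 * (2 ^ j * u ^ 8) + 160 * (c2 * c3) * (2 ^ j * u ^ 5)) := by ring
    _ ≤ 100 * (C₀ * c1 * (2 ^ j * u ^ 8) + 160 * (c2 * c3) * (2 ^ j * u ^ 8)) := by gcongr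
    _ = 100 * (C₀ * c1 + 160 * (c2 * c3)) * (2 ^ j * u ^ 8) := by ring

theorem final (k : ℕ) (hk : 2 ≤ k) :
    ∃ (c C b : ℝ), 0 < c ∧ 0 < C ∧ 0 < b ∧ ∃ m₀ : ℕ, ∀ m : ℕ, m₀ ≤ m → (∃ j : ℕ, m = 4 ^ j) →
      ∃ (n : ℕ) (F : (Fin n → Bool) → Bool),
        (∃ q : ℕ, (q : ℝ) ≤ C * Real.sqrt m * Real.log m ^ b ∧ QuantumComputes F q) ∧
        (∀ r : ℕ, RandomizedComputes F r →
          c * (m : ℝ) ^ (2 - 1 / (k : ℝ)) / Real.log m ^ 2 ≤ r) := by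
  obtain ⟨C₀, hup⟩ := upper_FF
  obtain ⟨j₀, hlow⟩ := lower_FF k hk
  obtain ⟨C₁, hq⟩ := q_bound C₀ k
  refine ⟨1 / 336, (C₁ + 1) * 2 ^ 8, 8, by norm_num, by positivity, by norm_num,
    4 ^ (max j₀ 1), ?_⟩
  rintro m hm ⟨j, rfl⟩
  have hj : max j₀ 1 ≤ j := (Nat.pow_le_pow_iff_right (by norm_num)).1 hm
  have hj0 : j₀ ≤ j := le_trans (le_max_left _ _) hj
  have hj1 : 1 ≤ j := le_trans (le_max_right _ _) hj
  -- logarithm
  have hlog4 : (1 : ℝ) ≤ Real.log 4 := by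
    have h2 := Real.log_two_gt_d9
    have : Real.log 4 = 2 * Real.log 2 := by
      rw [show (4 : ℝ) = 2 ^ (2 : ℕ) by norm_num, Real.log_pow]; norm_num
    rw [this]; linarith
  have hlog : Real.log ((4 ^ j : ℕ) : ℝ) = j * Real.log 4 := by
    push_cast
    rw [Real.log_pow]
  have hjr : (1 : ℝ) ≤ j := by exact_mod_cast hj1
  have hlogj : (j : ℝ) ≤ Real.log ((4 ^ j : ℕ) : ℝ) := by
    rw [hlog]; nlinarith
  have hlog1 : (1 : ℝ) ≤ Real.log ((4 ^ j : ℕ) : ℝ) := le_trans hjr hlogj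
  have hsqrt : Real.sqrt ((4 ^ j : ℕ) : ℝ) = 2 ^ j := by
    have : (((4 ^ j : ℕ) : ℝ)) = ((2 : ℝ) ^ j) ^ 2 := by
      push_cast
      rw [show (4 : ℝ) = 2 ^ (2 : ℕ) by norm_num, ← pow_mul, ← pow_mul, mul_comm]
    rw [this, Real.sqrt_sq (by positivity)]
  set L : ℕ := 6 * j with hL
  set M : ℕ := 240 * (6 * j) * 8 ^ (4 * k) with hM
  set β : ℕ := 2 * j * (2 * k) + 2 with hβ
  obtain ⟨dec, hdec⟩ : ∃ dec : (Fin β → Bool) → ℤ,
      ∀ a : ℤ, |a| ≤ 2 ^ (2 * j * (2 * k)) → ∃ v, dec v = a := exists_dec (2 * j * (2 * k))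
  set θ : ℝ := (1 / 8 : ℝ) ^ (2 * k) / 2 with hθ
  have hθpos : 0 < θ := by positivity
  have hM1 : 1 ≤ M := by
    have : 1 ≤ 8 ^ (4 * k) := Nat.one_le_pow _ _ (by norm_num)
    calc 1 = 1 * 1 := rfl
      _ ≤ (240 * (6 * j)) * 8 ^ (4 * k) := Nat.mul_le_mul (by omega) this
  have hL1 : 1 ≤ L := by omega
  have ht₀ : 10 * (L : ℝ) / θ ^ 2 ≤ ((40 * (6 * j) * 8 ^ (4 * k) : ℕ) : ℝ) := by
    have e : θ ^ 2 = 1 / (4 * 8 ^ (4 * k)) := by
      rw [hθ, div_pow, ← pow_mul, show 2 * k * 2 = 4 * k by ring, one_div, inv_pow]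
      field_simp
      norm_num
    rw [e, hL]
    push_cast
    rw [div_div_eq_mul_div]
    apply le_of_eq
    ring
  obtain ⟨P, hP, hPx⟩ := hup j (2 * k) L M β (40 * (6 * j) * 8 ^ (4 * k)) (by omega) hL1 hM1 dec θ
    hθpos ht₀
  set τ : ℝ := θ * (M * 2 ^ (j * (2 * k + 1))) with hτ
  have hτ' : (1 / 8 : ℝ) ^ (2 * k) * (M : ℝ) * 2 ^ (j * (2 * k + 1)) / 2 = τ := by
    rw [hτ, hθ]; ring
  -- reindexing
  let e : Idx (2 * j) (2 * k) L M β ≃ Fin (Fintype.card (Idx (2 * j) (2 * k) L M β)) :=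
    Fintype.equivFin _
  have hcard : 0 < Fintype.card (Idx (2 * j) (2 * k) L M β) :=
    Fintype.card_pos_iff.2 ⟨iMark (fun _ => false) (fun _ => false)⟩
  refine ⟨Fintype.card (Idx (2 * j) (2 * k) L M β), fun x => FF dec τ (fun i => x (e i)),
    ⟨_, ?_, quantumComputes_of_samp hcard _ (hP.reindex e) (fun x => hPx _)⟩, ?_⟩
  · have h1 := hq j
    have h2 : (((j : ℝ) + 1)) ≤ 2 * Real.log ((4 ^ j : ℕ) : ℝ) := by linarith
    have h3 : ((j : ℝ) + 1) ^ 8 ≤ 2 ^ 8 * Real.log ((4 ^ j : ℕ) : ℝ) ^ (8 : ℝ) := by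
      have h8 : Real.log ((4 ^ j : ℕ) : ℝ) ^ (8 : ℝ) = Real.log ((4 ^ j : ℕ) : ℝ) ^ (8 : ℕ) := by
        rw [← Real.rpow_natCast]; norm_num
      rw [h8, ← mul_pow]
      gcongr
    rw [hsqrt]
    calc _ ≤ ((C₁ * (2 ^ j * (j + 1) ^ 8) : ℕ) : ℝ) := by exact_mod_cast h1
      _ = C₁ * (2 ^ j * ((j : ℝ) + 1) ^ 8) := by push_cast; ring
      _ ≤ (C₁ + 1) * (2 ^ j * (2 ^ 8 * Real.log ((4 ^ j : ℕ) : ℝ) ^ (8 : ℝ))) := by
          gcongr
          linarith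
      _ = (C₁ + 1) * 2 ^ 8 * 2 ^ j * Real.log ((4 ^ j : ℕ) : ℝ) ^ (8 : ℝ) := by ring
  · rintro r ⟨s, p, T, hp0, hp1, hT, hcor⟩
    have h := hlow j hj0 β dec hdec r s p (fun i => toR e.symm (T i)) hp0 hp1
      (fun i => by rw [toR_depth]; exact hT i) (fun x => by
        have h1 := hcor (fun i => x (e.symm i))
        simp only [Equiv.symm_apply_apply] at h1
        rw [hτ']
        simp only [toR_eval]
        exact h1)
    have hm' : ((4 ^ j : ℕ) : ℝ) = (4 : ℝ) ^ j := by push_cast; rfl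
    rw [hm'] at hlog1 ⊢
    have hpos : 0 ≤ 1 / 336 * ((4 : ℝ) ^ j) ^ (2 - 1 / (k : ℝ)) := by positivity
    refine le_trans (div_le_self hpos ?_) h
    nlinarith
end Crest.Agent.R350
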