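import Crest.Agent.R350.GrowthDefs

/-!
# Row 350, piece GrowthA: combinatorics of the exploration process

PROOFS.  `qs_congr`: induction on the tree (generalising `s`).  The rest is formal:
* `Qs_succ`;  * `fresh_notMem`;
* `Qs_update`/`fresh_update`/: if `fresh z t s = some i`, changing `z` at `i` changes neither `Qs z t s` nor `fresh z t s`
  (because `i ∉ Qs z t s` and both are determined by the values on `Qs z t s`);
* `sum_by_fresh` (resampling): for every function `g` of the form below
  `∑_z wt p z * g z (xi p z i)` over the `z` with `fresh z t s = some i`, with `g` not depending on `z i`, equals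
  the sum with `g z (±)` averaged over the value of the bit `i`.
* `dcoef_tree`: `dcoef f p S = ∑_z wt p z * (f z * ∏_{i∈S} xi p z i)` (as `|p i| ≤ 1/2`, `1 + s p ≠ 0`), and if `f z` is determined by the
  tree then the part of the sum where `S ⊄ Qs z t T` vanishes: group the `z` by `Qs z t T` and the values there, the `xi` of an unread
  index averages to `0`.  Formally: for `z` let `i(z)` be the least element (any fixed choice depending only on `Qs`) of `S \ Qs z t T`;
  the involution `z ↦ update z i(z) (!z i(z))` preserves `Qs`, `i(z)`, `f`, the other `xi`, and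
  `wt p z xi_i(z) + wt p z' xi_i(z') = 0`.
-/

set_option autoImplicit false
set_option linter.unusedSectionVars false

namespace Crest.Agent.R350

variable {I : Type} [Fintype I] [DecidableEq I] {Ω : Type}

theorem Qs_zero (z : I → Bool) (t : RTree I Ω) : Qs z t 0 = ∅ := by
  simp [Qs]

namespace GrowthAaux

theorem mem_Qs {z : I → Bool} {t : RTree I Ω} {s : ℕ} {i : I} :
    i ∈ Qs z t s ↔ ∃ s' < s, qs z t s' = some i := by
  simp [Qs]

end GrowthAaux

open GrowthAaux

theorem Qs_succ (z : I → Bool) (t : RTree I Ω) (s : ℕ) :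
    Qs z t (s + 1) = match fresh z t s with
      | none => Qs z t s
      | some i => insert i (Qs z t s) := by
  have key : ∀ j, j ∈ Qs z t (s + 1) ↔ (j ∈ Qs z t s ∨ qs z t s = some j) := by
    intro j
    rw [mem_Qs, mem_Qs]
    constructor
    · rintro ⟨s', hs', h⟩
      rcases Nat.lt_succ_iff_lt_or_eq.1 hs' with h1 | h1
      · exact Or.inl ⟨s', h1, h⟩
      · subst h1; exact Or.inr h
    · rintro (⟨s', hs', h⟩ | h)
      · exact ⟨s', by omega, h⟩
      · exact ⟨s, by omega, h⟩
  ext j
  rw [key]
  unfold fresh
  cases hq : qs z t s with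
  | none => simp
  | some i =>
    by_cases hi : i ∈ Qs z t s
    · simp only [hi, if_true]
      constructor
      · rintro (h | h)
        · exact h
        · cases h; exact hi
      · intro h; exact Or.inl h
    · simp only [hi, if_false, Finset.mem_insert]
      constructor
      · rintro (h | h)
        · exact Or.inr h
        · cases h; exact Or.inl rfl
      · rintro (h | h)
        · subst h; exact Or.inr rfl
        · exact Or.inl h

theorem fresh_notMem {z : I → Bool} {t : RTree I Ω} {s : ℕ} {i : I} (h : fresh z t s = some i) :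
    i ∉ Qs z t s := by
  unfold fresh at h
  cases hq : qs z t s with
  | none => simp [hq] at h
  | some j =>
    rw [hq] at h
    by_cases hj : j ∈ Qs z t s
    · simp [hj] at h
    · simp only [hj, if_false, Option.some.injEq] at h
      rwa [h] at hj

namespace GrowthAaux

theorem qs_congr {z z' : I → Bool} (t : RTree I Ω) : ∀ (s : ℕ),
    (∀ i ∈ Qs z t s, z i = z' i) → ∀ s' ≤ s, qs z' t s' = qs z t s' := by
  induction t with
  | leaf ω => intro s _ s' _; rfl
  | node i t₀ t₁ ih₀ ih₁ =>
    intro s h s' hs'
    cases s' with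
    | zero => rfl
    | succ s'' =>
      obtain ⟨r, rfl⟩ : ∃ r, s = r + 1 := ⟨s - 1, by omega⟩
      have hi : z i = z' i := h i (mem_Qs.2 ⟨0, by omega, rfl⟩)
      simp only [qs]
      rw [← hi]
      by_cases hz : z i = true
      · simp only [hz, if_true]
        apply ih₁ r _ s'' (by omega)
        intro j hj
        obtain ⟨a, ha, hq⟩ := mem_Qs.1 hj
        exact h j (mem_Qs.2 ⟨a + 1, by omega, by simp only [qs, hz, if_true]; exact hq⟩)
      · simp only [hz]
        apply ih₀ r _ s'' (by omega)
        intro j hj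
        obtain ⟨a, ha, hq⟩ := mem_Qs.1 hj
        refine h j (mem_Qs.2 ⟨a + 1, by omega, ?_⟩)
        simp only [qs, hz]
        exact hq

theorem Qs_eq_of {z z' : I → Bool} {t : RTree I Ω} {s : ℕ}
    (h : ∀ s' ≤ s, qs z' t s' = qs z t s') : Qs z' t s = Qs z t s := by
  ext j
  rw [mem_Qs, mem_Qs]
  constructor
  · rintro ⟨a, ha, hq⟩
    exact ⟨a, ha, by rw [← h a (by omega)]; exact hq⟩
  · rintro ⟨a, ha, hq⟩
    exact ⟨a, ha, by rw [h a (by omega)]; exact hq⟩

end GrowthAaux

/-- `z`, `z'` agreeing on the indices read before time `s` have the same history up to time `s` -/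
theorem Qs_congr {z z' : I → Bool} {t : RTree I Ω} {s : ℕ} (h : ∀ i ∈ Qs z t s, z i = z' i) :
    Qs z' t s = Qs z t s ∧ fresh z' t s = fresh z t s := by
  have h1 := qs_congr t s h
  have h2 := Qs_eq_of h1
  refine ⟨h2, ?_⟩
  unfold fresh
  rw [h1 s le_rfl, h2]

/-- the value of the tree is determined by the indices read before time `T ≥ depth` -/
theorem eval_congr_Qs {z z' : I → Bool} {t : RTree I Ω} {T : ℕ} (hT : t.depth ≤ T)
    (h : ∀ i ∈ Qs z t T, z i = z' i) : t.eval z' = t.eval z := by
  induction t generalizing T with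
  | leaf ω => rfl
  | node i t₀ t₁ ih₀ ih₁ =>
    simp only [RTree.depth] at hT
    obtain ⟨r, rfl⟩ : ∃ r, T = r + 1 := ⟨T - 1, by omega⟩
    have hi : z i = z' i := h i (mem_Qs.2 ⟨0, by omega, rfl⟩)
    simp only [RTree.eval]
    rw [← hi]
    by_cases hz : z i = true
    · simp only [hz, if_true]
      apply ih₁ (T := r) (by omega)
      intro j hj
      obtain ⟨a, ha, hq⟩ := mem_Qs.1 hj
      exact h j (mem_Qs.2 ⟨a + 1, by omega, by simp only [qs, hz, if_true]; exact hq⟩)
    · simp only [hz]
      apply ih₀ (T := r) (by omega)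
      intro j hj
      obtain ⟨a, ha, hq⟩ := mem_Qs.1 hj
      refine h j (mem_Qs.2 ⟨a + 1, by omega, ?_⟩)
      simp only [qs, hz]
      exact hq

namespace GrowthAaux

/-- flip the bit `i` -/
def flipb (z : I → Bool) (i : I) : I → Bool := Function.update z i (!z i)

theorem flipb_same (z : I → Bool) (i : I) : flipb z i i = !z i := by simp [flipb]

theorem flipb_ne (z : I → Bool) {i j : I} (h : j ≠ i) : flipb z i j = z j := by simp [flipb, h]

theorem flipb_flipb (z : I → Bool) (i : I) : flipb (flipb z i) i = z := by
  funext j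
  by_cases h : j = i
  · subst h; simp [flipb]
  · simp [flipb, h]

theorem flipb_ne_self (z : I → Bool) (i : I) : flipb z i ≠ z := by
  intro h
  have := congrFun h i
  rw [flipb_same] at this
  cases hz : z i <;> simp [hz] at this

/-- the weight of the coordinates different from `i` -/
noncomputable def wt' (p : I → ℝ) (i : I) (z : I → Bool) : ℝ :=
  ∏ j ∈ Finset.univ.erase i, (1 + (sg (z j) : ℝ) * p j) / 2

theorem wt_eq (p : I → ℝ) (i : I) (z : I → Bool) :
    wt p z = (1 + (sg (z i) : ℝ) * p i) / 2 * wt' p i z := by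
  unfold wt wt'
  rw [← Finset.mul_prod_erase Finset.univ _ (Finset.mem_univ i)]

theorem wt'_flipb (p : I → ℝ) (i : I) (z : I → Bool) : wt' p i (flipb z i) = wt' p i z := by
  unfold wt'
  refine Finset.prod_congr rfl fun j hj => ?_
  rw [flipb_ne z (Finset.ne_of_mem_erase hj)]

end GrowthAaux

/-- resampling the bit `i`: if `A` is invariant under changing `z i`, then the average of `g` over `A` can be computed by first
averaging over the bit `i` -/
theorem sum_resample (p : I → ℝ) (i : I) (A : (I → Bool) → Prop) [DecidablePred A]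
    (hA : ∀ z b, A (Function.update z i b) ↔ A z) (g : (I → Bool) → ℝ) :
    ∑ z ∈ Finset.univ.filter A, wt p z * g z
      = ∑ z ∈ Finset.univ.filter A, wt p z *
          ((1 + p i) / 2 * g (Function.update z i false)
            + (1 - p i) / 2 * g (Function.update z i true)) := by
  have hsym : ∀ F : (I → Bool) → ℝ, ∑ z ∈ Finset.univ.filter A, F z =
      ∑ z ∈ Finset.univ.filter A, F (flipb z i) := by
    intro F
    refine Finset.sum_bij' (fun z _ => flipb z i) (fun z _ => flipb z i) ?_ ?_ ?_ ?_ ?_
    · intro z hz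
      simp only [Finset.mem_filter, Finset.mem_univ, true_and] at hz ⊢
      exact (hA z _).2 hz
    · intro z hz
      simp only [Finset.mem_filter, Finset.mem_univ, true_and] at hz ⊢
      exact (hA z _).2 hz
    · intro z _; exact flipb_flipb z i
    · intro z _; exact flipb_flipb z i
    · intro z _; rw [flipb_flipb]
  set F : (I → Bool) → ℝ := fun z => wt p z * g z with hF
  set G : (I → Bool) → ℝ := fun z => wt p z *
          ((1 + p i) / 2 * g (Function.update z i false)
            + (1 - p i) / 2 * g (Function.update z i true)) with hG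
  have h1 : ∑ z ∈ Finset.univ.filter A, (F z + F (flipb z i)) =
      ∑ z ∈ Finset.univ.filter A, (G z + G (flipb z i)) := by
    refine Finset.sum_congr rfl fun z _ => ?_
    simp only [hF, hG]
    rw [wt_eq p i z, wt_eq p i (flipb z i), wt'_flipb, flipb_same]
    have e1 : Function.update (flipb z i) i false = Function.update z i false := by
      simp [flipb]
    have e2 : Function.update (flipb z i) i true = Function.update z i true := by
      simp [flipb]
    rw [e1, e2]
    cases hz : z i with
    | false =>
      have e3 : Function.update z i false = z := by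
        rw [← hz]; exact Function.update_eq_self i z
      have e4 : flipb z i = Function.update z i true := by
        simp [flipb, hz]
      rw [e3, ← e4]
      simp only [sg, Bool.not_false, if_true, Bool.false_eq_true, if_false, Int.cast_neg, Int.cast_one]
      ring
    | true =>
      have e3 : Function.update z i true = z := by
        rw [← hz]; exact Function.update_eq_self i z
      have e4 : flipb z i = Function.update z i false := by
        simp [flipb, hz]
      rw [e3, ← e4]
      simp only [sg, Bool.not_true, if_true, Bool.false_eq_true, if_false, Int.cast_neg, Int.cast_one]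
      ring
  rw [Finset.sum_add_distrib, Finset.sum_add_distrib, ← hsym F, ← hsym G] at h1
  linarith

namespace GrowthAaux

theorem one_add_ne {p : I → ℝ} (hp : ∀ i, |p i| ≤ 1 / 2) (z : I → Bool) (i : I) :
    1 + (sg (z i) : ℝ) * p i ≠ 0 := by
  have h := abs_le.1 (hp i)
  cases hz : z i
  · simp only [sg, Bool.false_eq_true, if_false, Int.cast_one]
    intro h0; linarith [h.1]
  · simp only [sg, if_true, Int.cast_neg, Int.cast_one]
    intro h0; linarith [h.2]

theorem prod_eq {p : I → ℝ} (hp : ∀ i, |p i| ≤ 1 / 2) (S : Finset I) (z : I → Bool) :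
    ∏ i, (if i ∈ S then (sg (z i) : ℝ) / 2 else (1 + (sg (z i) : ℝ) * p i) / 2)
      = wt p z * ∏ i ∈ S, xi p z i := by
  have h2 : ∏ i ∈ S, xi p z i = ∏ i, (if i ∈ S then xi p z i else 1) := by
    rw [Finset.prod_ite_mem, Finset.univ_inter]
  rw [h2]
  unfold wt
  rw [← Finset.prod_mul_distrib]
  refine Finset.prod_congr rfl fun i _ => ?_
  by_cases hi : i ∈ S
  · simp only [hi, if_true, xi]
    have := one_add_ne hp z i
    field_simp
  · simp [hi]

theorem flip_term {p : I → ℝ} (hp : ∀ i, |p i| ≤ 1 / 2) (S : Finset I) (z : I → Bool) {i : I}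
    (hi : i ∈ S) :
    wt p (flipb z i) * ∏ j ∈ S, xi p (flipb z i) j = - (wt p z * ∏ j ∈ S, xi p z j) := by
  rw [wt_eq p i z, wt_eq p i (flipb z i), wt'_flipb, ← Finset.mul_prod_erase S _ hi,
    ← Finset.mul_prod_erase S _ hi]
  have h1 : ∏ j ∈ S.erase i, xi p (flipb z i) j = ∏ j ∈ S.erase i, xi p z j := by
    refine Finset.prod_congr rfl fun j hj => ?_
    unfold xi
    rw [flipb_ne z (Finset.ne_of_mem_erase hj)]
  rw [h1]
  have h2 : (1 + (sg (flipb z i i) : ℝ) * p i) / 2 * xi p (flipb z i) i =
      - ((1 + (sg (z i) : ℝ) * p i) / 2 * xi p z i) := by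
    unfold xi
    have n1 := one_add_ne hp z i
    have n2 := one_add_ne hp (flipb z i) i
    have h3 : (sg (flipb z i i) : ℝ) = - (sg (z i) : ℝ) := by
      rw [flipb_same]
      cases z i <;> simp [sg]
    have e1 : (1 + (sg (flipb z i i) : ℝ) * p i) / 2 *
        ((sg (flipb z i i) : ℝ) / (1 + (sg (flipb z i i) : ℝ) * p i)) = (sg (flipb z i i) : ℝ) / 2 := by
      field_simp
    have e2 : (1 + (sg (z i) : ℝ) * p i) / 2 *
        ((sg (z i) : ℝ) / (1 + (sg (z i) : ℝ) * p i)) = (sg (z i) : ℝ) / 2 := by
      field_simp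
    rw [e1, e2, h3]
    ring
  calc (1 + (sg (flipb z i i) : ℝ) * p i) / 2 * wt' p i z *
        (xi p (flipb z i) i * ∏ j ∈ S.erase i, xi p z j)
      = ((1 + (sg (flipb z i i) : ℝ) * p i) / 2 * xi p (flipb z i) i) *
          (wt' p i z * ∏ j ∈ S.erase i, xi p z j) := by ring
    _ = _ := by rw [h2]; ring

end GrowthAaux

/-- derivatives of a function computed by a tree of depth `≤ T` -/
theorem dcoef_tree (t : RTree I Bool) {T : ℕ} (hT : t.depth ≤ T) (p : I → ℝ)
    (hp : ∀ i, |p i| ≤ 1 / 2) (S : Finset I) :
    dcoef (fun z => if t.eval z then 1 else 0) p S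
      = ∑ z, wt p z * ((if t.eval z then 1 else 0) *
          (if S ⊆ Qs z t T then ∏ i ∈ S, xi p z i else 0)) := by
  classical
  have h1 : dcoef (fun z => if t.eval z then 1 else 0) p S =
      ∑ z, wt p z * ((if t.eval z then 1 else 0) * ∏ i ∈ S, xi p z i) := by
    unfold dcoef
    refine Finset.sum_congr rfl fun z _ => ?_
    rw [prod_eq hp]
    ring
  rw [h1, ← sub_eq_zero, ← Finset.sum_sub_distrib]
  have h2 : ∀ z : I → Bool, wt p z * ((if t.eval z then 1 else 0) * ∏ i ∈ S, xi p z i) -
      wt p z * ((if t.eval z then 1 else 0) *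
          (if S ⊆ Qs z t T then ∏ i ∈ S, xi p z i else 0)) =
      if ¬ S ⊆ Qs z t T then
        (if t.eval z then 1 else 0) * (wt p z * ∏ i ∈ S, xi p z i) else 0 := by
    intro z
    by_cases hS : S ⊆ Qs z t T
    · simp [hS]
    · simp only [hS, if_false, not_false_eq_true, if_true]
      ring
  simp only [h2]
  rw [← Finset.sum_filter]
  -- a choice of an element
  let c : Finset I → I → I := fun A d => if h : A.Nonempty then h.choose else d
  by_cases hne : Nonempty I
  swap
  · have hS : S = ∅ := by
      ext i; exact absurd ⟨i⟩ hne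
    simp [hS]
  obtain ⟨d⟩ := hne
  have hc : ∀ z : I → Bool, ¬ S ⊆ Qs z t T → c (S \ Qs z t T) d ∈ S \ Qs z t T := by
    intro z hz
    have hn : (S \ Qs z t T).Nonempty := by
      rw [Finset.nonempty_iff_ne_empty]
      intro h
      exact hz (Finset.sdiff_eq_empty_iff_subset.1 h)
    have : c (S \ Qs z t T) d = hn.choose := by
      simp only [c, hn, dif_pos]
    rw [this]
    exact hn.choose_spec
  have hQ : ∀ z : I → Bool, ¬ S ⊆ Qs z t T →
      Qs (flipb z (c (S \ Qs z t T) d)) t T = Qs z t T := by
    intro z hz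
    refine (Qs_congr (z := z) (z' := flipb z (c (S \ Qs z t T) d)) (t := t) (s := T) ?_).1
    intro j hj
    rw [flipb_ne]
    intro h
    rw [h] at hj
    exact (Finset.mem_sdiff.1 (hc z hz)).2 hj
  refine Finset.sum_involution (fun z _ => flipb z (c (S \ Qs z t T) d)) ?_ ?_ ?_ ?_
  · intro z hz
    have hz' : ¬ S ⊆ Qs z t T := (Finset.mem_filter.1 hz).2
    have hcz := Finset.mem_sdiff.1 (hc z hz')
    have he : t.eval (flipb z (c (S \ Qs z t T) d)) = t.eval z := by
      apply eval_congr_Qs hT
      intro j hj
      rw [flipb_ne]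
      intro h
      rw [h] at hj
      exact hcz.2 hj
    rw [he, flip_term hp S z hcz.1]
    ring
  · intro z hz _
    exact flipb_ne_self z _
  · intro z hz
    have hz' : ¬ S ⊆ Qs z t T := (Finset.mem_filter.1 hz).2
    simp only [Finset.mem_filter, Finset.mem_univ, true_and]
    rw [hQ z hz']
    exact hz'
  · intro z hz
    have hz' : ¬ S ⊆ Qs z t T := (Finset.mem_filter.1 hz).2
    rw [hQ z hz']
    exact flipb_flipb z _

end Crest.Agent.R350
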