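import Crest.Agent.R350.Mle

/-!
# Row 350: the exploration process of a decision tree (definitions for the growth theorem)

`qs z t s` is the index read at time `s` (none if the tree has stopped); `Qs z t s` the set of indices read before time `s`;
`fresh z t s` is the index read at time `s` if it is new.  `xi p z i = s_i / (1 + s_i p_i)` (mean zero under `wt p`).
`W p ε K z Q = ∑_{S ⊆ Q, |S| = K} ε S ∏_{i ∈ S} xi_i`.
-/

set_option autoImplicit false

namespace Crest.Agent.R350

variable {I : Type} [Fintype I] [DecidableEq I]

/-- index read at time `s` -/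
def qs {Ω : Type} (z : I → Bool) : RTree I Ω → ℕ → Option I
  | RTree.leaf _, _ => none
  | RTree.node i _ _, 0 => some i
  | RTree.node i t₀ t₁, s + 1 => if z i then qs z t₁ s else qs z t₀ s

/-- set of the indices read before time `s` -/
def Qs {Ω : Type} (z : I → Bool) (t : RTree I Ω) (s : ℕ) : Finset I :=
  Finset.univ.filter (fun i => ∃ s' < s, qs z t s' = some i)

/-- the index read at time `s` if it is new -/
def fresh {Ω : Type} (z : I → Bool) (t : RTree I Ω) (s : ℕ) : Option I :=
  match qs z t s with
  | none => none
  | some i => if i ∈ Qs z t s then none else some i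

/-- centred variable -/
noncomputable def xi (p : I → ℝ) (z : I → Bool) (i : I) : ℝ := (sg (z i) : ℝ) / (1 + (sg (z i) : ℝ) * p i)

/-- the signed sum of monomials -/
noncomputable def W (p : I → ℝ) (ε : Finset I → ℝ) (K : ℕ) (z : I → Bool) (Q : Finset I) : ℝ :=
  ∑ S ∈ Q.powersetCard K, ε S * ∏ i ∈ S, xi p z i

end Crest.Agent.R350
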