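import Crest.Agent.R350.FDef

/-!
# Row 350, piece Hybrid: product distributions, hybrid argument, Chebyshev

PROOF of `hybrid`.  `Q' a` for `a ≤ |ι|`: replace the components one after the other (induction on `Finset ι` or `Fintype.induction`...):
for `A : Finset ι` let `H_A = ∑_y (∏_{i∈A} P i (y i)) (∏_{i∉A} Q i (y i)) 1[t y]`; `|H_{insert a A} - H_A| ≤ ε`: fix the components `≠ a`,
the tree `t` with these bits substituted is a tree on the component `a` of depth `≤ T` (`RTree.restr`), so the inner difference is `≤ ε`,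
and average with weights summing to `1`.

PROOF of `good_prob`.  For fixed `l`: `S y = sg (r l) * ∑_i Psi (y (l,i,·))` is a sum of `M` independent variables with mean `≥ m₁` and
`|·| ≤ a`; so variance `≤ M a²` and mean `≥ M m₁`; `P(S < M m₁/2) ≤ M a² / (M m₁ / 2)² = 4 a² / (M m₁²)`; union bound over `l`.
Stated abstractly: `ι = Fin L × Fin M`, `X = Inst K n`.
-/

set_option autoImplicit false

namespace Crest.Agent.R350

/-- product weight -/
noncomputable def prodw {ι X : Type} [Fintype ι] (P : ι → X → ℝ) (y : ι → X) : ℝ := ∏ i, P i (y i)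

theorem sum_prodw {ι X : Type} [Fintype ι] [DecidableEq ι] [Fintype X] (P : ι → X → ℝ)
    (hP : ∀ i, ∑ x, P i x = 1) : ∑ y : ι → X, prodw P y = 1 := by
  unfold prodw
  have h := Finset.prod_univ_sum (fun _ : ι => (Finset.univ : Finset X)) P
  rw [Fintype.piFinset_univ] at h
  rw [← h]
  exact Finset.prod_eq_one fun i _ => hP i

namespace HybridAux

variable {ι J : Type}

/-- substitute the bits of all the components but `a` -/
def subst [DecidableEq ι] (a : ι) (g : ι → J → Bool) : RTree (ι × J) Bool → RTree J Bool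
  | .leaf ω => .leaf ω
  | .node w t₀ t₁ => if w.1 = a then .node w.2 (subst a g t₀) (subst a g t₁)
      else (if g w.1 w.2 then subst a g t₁ else subst a g t₀)

theorem depth_subst [DecidableEq ι] (a : ι) (g : ι → J → Bool) (t : RTree (ι × J) Bool) :
    (subst a g t).depth ≤ t.depth := by
  induction t with
  | leaf ω => exact le_rfl
  | node w t₀ t₁ h0 h1 =>
    unfold subst
    split_ifs
    · simp only [RTree.depth]; omega
    · simp only [RTree.depth]; omega
    · simp only [RTree.depth]; omega

theorem eval_subst [DecidableEq ι] (a : ι) (g : ι → J → Bool) (t : RTree (ι × J) Bool)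
    (z : J → Bool) : (subst a g t).eval z = t.eval (fun w => Function.update g a z w.1 w.2) := by
  induction t with
  | leaf ω => rfl
  | node w t₀ t₁ h0 h1 =>
    unfold subst
    by_cases h : w.1 = a
    · rw [if_pos h]
      simp only [RTree.eval, h0, h1, h, Function.update_self]
    · rw [if_neg h]
      simp only [RTree.eval, Function.update_of_ne h]
      split_ifs
      · exact h1
      · exact h0

theorem sum_split {X : Type} [Fintype ι] [DecidableEq ι] [Fintype X] (a : ι) (W : ι → X → ℝ)
    (Φ : (ι → X) → ℝ) :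
    ∑ y, prodw W y * Φ y = ∑ r : ({j // j ≠ a} → X), prodw (fun j => W j.1) r *
      ∑ x, W a x * Φ ((Equiv.funSplitAt a X).symm (x, r)) := by
  rw [← (Equiv.funSplitAt a X).symm.sum_comp, Fintype.sum_prod_type, Finset.sum_comm]
  refine Finset.sum_congr rfl fun r _ => ?_
  rw [Finset.mul_sum]
  refine Finset.sum_congr rfl fun x _ => ?_
  have h : prodw W ((Equiv.funSplitAt a X).symm (x, r)) = W a x * prodw (fun j => W j.1) r := by
    unfold prodw
    rw [Fintype.prod_eq_mul_prod_subtype_ne _ a]
    congr 1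
    · simp [Equiv.funSplitAt, Equiv.piSplitAt]
    · refine Finset.prod_congr rfl fun j _ => ?_
      have := j.2
      simp [Equiv.funSplitAt, Equiv.piSplitAt, this]
  rw [h]; ring

end HybridAux

/-- hybrid argument: a tree of depth `≤ T` reading bits of `y : ι → J → Bool` -/
theorem hybrid {ι J : Type} [Fintype ι] [DecidableEq ι] [Fintype J] [DecidableEq J]
    (P Q : ι → (J → Bool) → ℝ) (hP0 : ∀ i z, 0 ≤ P i z) (hP1 : ∀ i, ∑ z, P i z = 1)
    (hQ0 : ∀ i z, 0 ≤ Q i z) (hQ1 : ∀ i, ∑ z, Q i z = 1) (T : ℕ) (ε : ℝ)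
    (h : ∀ i (t : RTree J Bool), t.depth ≤ T →
      |∑ z, P i z * (if t.eval z then 1 else 0) - ∑ z, Q i z * (if t.eval z then 1 else 0)| ≤ ε)
    (t : RTree (ι × J) Bool) (ht : t.depth ≤ T) :
    |∑ y : ι → J → Bool, prodw P y * (if t.eval (fun w => y w.1 w.2) then 1 else 0)
      - ∑ y : ι → J → Bool, prodw Q y * (if t.eval (fun w => y w.1 w.2) then 1 else 0)|
      ≤ Fintype.card ι * ε := by
  classical
  let W : Finset ι → ι → (J → Bool) → ℝ := fun A i => if i ∈ A then P i else Q i
  let F : (ι → J → Bool) → ℝ := fun y => if t.eval (fun w => y w.1 w.2) then 1 else 0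
  have hW0 : ∀ A i z, 0 ≤ W A i z := by
    intro A i z
    simp only [W]
    split_ifs
    · exact hP0 i z
    · exact hQ0 i z
  have hW1 : ∀ A i, ∑ z, W A i z = 1 := by
    intro A i
    simp only [W]
    split_ifs
    · exact hP1 i
    · exact hQ1 i
  have step : ∀ (A : Finset ι) (a : ι), a ∉ A →
      |∑ y, prodw (W (insert a A)) y * F y - ∑ y, prodw (W A) y * F y| ≤ ε := by
    intro A a ha
    rw [HybridAux.sum_split a (W (insert a A)) F, HybridAux.sum_split a (W A) F]
    have e1 : (fun j : {j // j ≠ a} => W (insert a A) j.1) = fun j => W A j.1 := by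
      funext j
      simp only [W, Finset.mem_insert, j.2, false_or]
    have e2 : W (insert a A) a = P a := by simp [W]
    have e3 : W A a = Q a := by simp [W, ha]
    rw [e1, e2, e3, ← Finset.sum_sub_distrib]
    have hr : ∀ r : {j // j ≠ a} → (J → Bool),
        |∑ x, P a x * F ((Equiv.funSplitAt a (J → Bool)).symm (x, r)) -
          ∑ x, Q a x * F ((Equiv.funSplitAt a (J → Bool)).symm (x, r))| ≤ ε := by
      intro r
      let g : ι → J → Bool := (Equiv.funSplitAt a (J → Bool)).symm (fun _ => false, r)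
      have hg : ∀ z, (Equiv.funSplitAt a (J → Bool)).symm (z, r) = Function.update g a z := by
        intro z
        funext j
        by_cases hj : j = a
        · subst hj
          simp [Equiv.funSplitAt, Equiv.piSplitAt]
        · rw [Function.update_of_ne hj]
          simp [g, Equiv.funSplitAt, Equiv.piSplitAt, hj]
      have hF : ∀ z, F ((Equiv.funSplitAt a (J → Bool)).symm (z, r)) =
          if (HybridAux.subst a g t).eval z then 1 else 0 := by
        intro z
        simp only [F, hg, HybridAux.eval_subst]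
      simp only [hF]
      exact h a _ ((HybridAux.depth_subst a g t).trans ht)
    calc _ = |∑ r : {j // j ≠ a} → (J → Bool), prodw (fun j => W A j.1) r *
        (∑ x, P a x * F ((Equiv.funSplitAt a (J → Bool)).symm (x, r)) -
          ∑ x, Q a x * F ((Equiv.funSplitAt a (J → Bool)).symm (x, r)))| := by
          congr 1
          refine Finset.sum_congr rfl fun r _ => ?_
          ring
      _ ≤ ∑ r : {j // j ≠ a} → (J → Bool), prodw (fun j => W A j.1) r * ε := by
          refine (Finset.abs_sum_le_sum_abs _ _).trans (Finset.sum_le_sum fun r _ => ?_)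
          have h0 : 0 ≤ prodw (fun j : {j // j ≠ a} => W A j.1) r :=
            Finset.prod_nonneg fun i _ => hW0 A i.1 _
          rw [abs_mul, abs_of_nonneg h0]
          exact mul_le_mul_of_nonneg_left (hr r) h0
      _ = ε := by
          rw [← Finset.sum_mul, sum_prodw (fun j : {j // j ≠ a} => W A j.1) fun i => hW1 A i.1,
            one_mul]
  have main : ∀ A : Finset ι, |∑ y, prodw (W A) y * F y - ∑ y, prodw (W ∅) y * F y| ≤ A.card * ε := by
    intro A
    induction A using Finset.induction_on with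
    | empty => simp
    | insert a A ha ih =>
      rw [Finset.card_insert_of_notMem ha]
      have h1 := step A a ha
      calc _ ≤ |∑ y, prodw (W (insert a A)) y * F y - ∑ y, prodw (W A) y * F y| +
            |∑ y, prodw (W A) y * F y - ∑ y, prodw (W ∅) y * F y| := abs_sub_le _ _ _
        _ ≤ ε + A.card * ε := add_le_add h1 ih
        _ = _ := by push_cast; ring
  have := main Finset.univ
  have e1 : W Finset.univ = P := by funext i; simp [W]
  have e2 : W ∅ = Q := by funext i; simp [W]
  rw [e1, e2, Finset.card_univ] at this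
  exact this

namespace HybridBAux

variable {ι X : Type} [Fintype ι] [DecidableEq ι] [Fintype X]

/-- expectation of a product of functions of the single components -/
theorem expect_prod (P φ : ι → X → ℝ) :
    ∑ y : ι → X, prodw P y * ∏ k, φ k (y k) = ∏ k, ∑ x, P k x * φ k x := by
  rw [Fintype.prod_sum (fun k x => P k x * φ k x)]
  refine Finset.sum_congr rfl fun y _ => ?_
  rw [Finset.prod_mul_distrib]
  rfl

theorem mean_one (P : ι → X → ℝ) (hP1 : ∀ i, ∑ x, P i x = 1) (i : ι) (f : X → ℝ) :
    ∑ y : ι → X, prodw P y * f (y i) = ∑ x, P i x * f x := by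
  have h := expect_prod P (fun k x => if k = i then f x else 1)
  have e1 : ∀ y : ι → X, (∏ k, if k = i then f (y k) else 1) = f (y i) := by
    intro y; simp
  have e2 : ∀ k, ∑ x, P k x * (if k = i then f x else 1) =
      if k = i then ∑ x, P i x * f x else 1 := by
    intro k
    by_cases hk : k = i
    · subst hk; simp
    · simp [hk, hP1]
  simp only [e1, e2] at h
  simpa using h

theorem mean_two (P : ι → X → ℝ) (hP1 : ∀ i, ∑ x, P i x = 1) (i j : ι) (hij : i ≠ j)
    (f g : X → ℝ) :
    ∑ y : ι → X, prodw P y * (f (y i) * g (y j)) =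
      (∑ x, P i x * f x) * ∑ x, P j x * g x := by
  have h := expect_prod P (fun k x => (if k = i then f x else 1) * (if k = j then g x else 1))
  have e1 : ∀ y : ι → X, (∏ k, (if k = i then f (y k) else 1) * (if k = j then g (y k) else 1)) =
      f (y i) * g (y j) := by
    intro y; rw [Finset.prod_mul_distrib]; simp
  have e2 : ∀ k, ∑ x, P k x * ((if k = i then f x else 1) * (if k = j then g x else 1)) =
      (if k = i then ∑ x, P i x * f x else 1) * (if k = j then ∑ x, P j x * g x else 1) := by
    intro k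
    by_cases hk : k = i
    · subst hk; simp [hij]
    · by_cases hj : k = j
      · subst hj; simp [hk]
      · simp [hk, hj, hP1]
  simp only [e1, e2] at h
  rw [h, Finset.prod_mul_distrib]
  simp

theorem second_moment (P : ι → X → ℝ) (hP1 : ∀ i, ∑ x, P i x = 1) (f : ι → X → ℝ)
    (hf : ∀ i, ∑ x, P i x * f i x = 0) (A : Finset ι) :
    ∑ y : ι → X, prodw P y * (∑ i ∈ A, f i (y i)) ^ 2 = ∑ i ∈ A, ∑ x, P i x * f i x ^ 2 := by
  have e : ∀ y : ι → X, prodw P y * (∑ i ∈ A, f i (y i)) ^ 2 =
      ∑ i ∈ A, ∑ j ∈ A, prodw P y * (f i (y i) * f j (y j)) := by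
    intro y
    rw [sq, Finset.sum_mul_sum, Finset.mul_sum]
    exact Finset.sum_congr rfl fun i _ => Finset.mul_sum _ _ _
  simp only [e]
  rw [Finset.sum_comm]
  refine Finset.sum_congr rfl fun i hi => ?_
  rw [Finset.sum_comm]
  rw [Finset.sum_eq_single_of_mem i hi]
  · have h := mean_one P hP1 i (fun x => f i x ^ 2)
    rw [← h]
    exact Finset.sum_congr rfl fun y _ => by ring
  · intro j _ hj
    rw [mean_two P hP1 i j (Ne.symm hj), hf, zero_mul]

end HybridBAux

/-- Chebyshev: `g i` has mean `≥ m₁` under `P i`, `|g| ≤ a` -/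
theorem chebyshev {ι X : Type} [Fintype ι] [DecidableEq ι] [Fintype X] (P : ι → X → ℝ)
    (hP0 : ∀ i x, 0 ≤ P i x) (hP1 : ∀ i, ∑ x, P i x = 1) (g : X → ℝ) (s : ι → ℝ)
    (hs : ∀ i, |s i| ≤ 1) (a m₁ : ℝ) (hm : 0 < m₁) (hg : ∀ x, |g x| ≤ a)
    (h : ∀ i, m₁ ≤ s i * ∑ x, P i x * g x) (A : Finset ι) (hA : A.Nonempty) :
    ∑ y : ι → X, (open Classical in
      if ∑ i ∈ A, s i * g (y i) < A.card * m₁ / 2 then prodw P y else 0)
        ≤ 4 * a ^ 2 / (A.card * m₁ ^ 2) := by
  classical
  have hcard : (0 : ℝ) < A.card := by exact_mod_cast hA.card_pos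
  have hprod : ∀ y, 0 ≤ prodw P y := fun y => Finset.prod_nonneg fun i _ => hP0 _ _
  let m : ι → ℝ := fun i => s i * ∑ x, P i x * g x
  let f : ι → X → ℝ := fun i x => s i * g x - m i
  have hf : ∀ i, ∑ x, P i x * f i x = 0 := by
    intro i
    have e : ∀ x, P i x * f i x = s i * (P i x * g x) - P i x * m i := fun x => by
      simp only [f]; ring
    simp only [e, Finset.sum_sub_distrib, ← Finset.mul_sum, ← Finset.sum_mul, hP1, one_mul]
    simp only [m, sub_self]
  have hvar : ∀ i, ∑ x, P i x * f i x ^ 2 ≤ a ^ 2 := by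
    intro i
    have e : ∀ x, P i x * f i x ^ 2 = P i x * (s i * g x) ^ 2 - 2 * m i * (P i x * f i x) -
        P i x * m i ^ 2 := fun x => by
      simp only [f]; ring
    simp only [e, Finset.sum_sub_distrib, ← Finset.mul_sum, hf, ← Finset.sum_mul, hP1]
    have h1 : ∑ x, P i x * (s i * g x) ^ 2 ≤ ∑ x, P i x * a ^ 2 := by
      refine Finset.sum_le_sum fun x _ => mul_le_mul_of_nonneg_left ?_ (hP0 i x)
      rw [← sq_abs (s i * g x), abs_mul]
      refine pow_le_pow_left₀ (by positivity) ?_ 2
      calc |s i| * |g x| ≤ 1 * a :=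
            mul_le_mul (hs i) (hg x) (abs_nonneg _) zero_le_one
        _ = a := one_mul a
    rw [← Finset.sum_mul, hP1, one_mul] at h1
    nlinarith [sq_nonneg (m i)]
  have hkey : ∀ y : ι → X, (A.card * m₁ / 2) ^ 2 *
      (if ∑ i ∈ A, s i * g (y i) < A.card * m₁ / 2 then prodw P y else 0) ≤
        prodw P y * (∑ i ∈ A, f i (y i)) ^ 2 := by
    intro y
    split_ifs with hy
    · rw [mul_comm]
      refine mul_le_mul_of_nonneg_left ?_ (hprod y)
      have h1 : ∑ i ∈ A, f i (y i) = ∑ i ∈ A, s i * g (y i) - ∑ i ∈ A, m i := by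
        rw [← Finset.sum_sub_distrib]
      have h2 : A.card * m₁ ≤ ∑ i ∈ A, m i := by
        rw [← nsmul_eq_mul]
        exact Finset.card_nsmul_le_sum A m m₁ fun i _ => h i
      have h3 : A.card * m₁ / 2 ≤ -(∑ i ∈ A, f i (y i)) := by
        rw [h1]; linarith
      rw [← neg_sq (∑ i ∈ A, f i (y i))]
      exact pow_le_pow_left₀ (by positivity) h3 2
    · rw [mul_zero]
      exact mul_nonneg (hprod y) (sq_nonneg _)
  have hsum : (A.card * m₁ / 2) ^ 2 * (∑ y : ι → X,
      (if ∑ i ∈ A, s i * g (y i) < A.card * m₁ / 2 then prodw P y else 0)) ≤ A.card * a ^ 2 := by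
    rw [Finset.mul_sum]
    refine (Finset.sum_le_sum fun y _ => hkey y).trans ?_
    rw [HybridBAux.second_moment P hP1 f hf A]
    calc ∑ i ∈ A, ∑ x, P i x * f i x ^ 2 ≤ ∑ _i ∈ A, a ^ 2 := Finset.sum_le_sum fun i _ => hvar i
      _ = A.card * a ^ 2 := by rw [Finset.sum_const, nsmul_eq_mul]
  rw [le_div_iff₀ (by positivity)]
  set Z := ∑ y : ι → X,
      (if ∑ i ∈ A, s i * g (y i) < A.card * m₁ / 2 then prodw P y else 0) with hZ
  have h4 : (A.card * m₁ / 2) ^ 2 * Z = (A.card : ℝ) * (Z * (A.card * m₁ ^ 2) / 4) := by ring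
  rw [h4] at hsum
  have h5 := le_of_mul_le_mul_left hsum hcard
  linarith

end Crest.Agent.R350
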