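import Crest.Agent.R350.TBasic

/-!
# Row 350, piece Mle: product measures on the cube and discrete derivatives of multilinear extensions

`wt p z = ∏ (1 + s_i p_i)/2` is the product weight with means `p`; `dcoef f p S = ∂_S f̃(p)` where `f̃(p) = ∑_z f z wt p z`.

PROOFS.  `sum_wt`: `Finset.prod_univ_sum`/`Fintype.piFinset` (or `Finset.prod_add`).  `hasDerivAt_dcoef`: product rule for the factors
`(1 + s_i p_i)/2`, `i ∉ S`.  `dcoef_flip`: change variables `z ↦` flip of the coordinates in `A`.
-/

set_option autoImplicit false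

namespace Crest.Agent.R350

variable {I : Type} [Fintype I] [DecidableEq I]

/-- product weight with means `p` -/
noncomputable def wt (p : I → ℝ) (z : I → Bool) : ℝ := ∏ i, (1 + (sg (z i) : ℝ) * p i) / 2

/-- the partial derivative `∂_S` of the multilinear extension of `f` at `p` -/
noncomputable def dcoef (f : (I → Bool) → ℝ) (p : I → ℝ) (S : Finset I) : ℝ :=
  ∑ z : I → Bool, f z * ∏ i, (if i ∈ S then (sg (z i) : ℝ) / 2 else (1 + (sg (z i) : ℝ) * p i) / 2)

theorem dcoef_empty (f : (I → Bool) → ℝ) (p : I → ℝ) : dcoef f p ∅ = ∑ z, f z * wt p z := by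
  simp [dcoef, wt]

theorem wt_nonneg {p : I → ℝ} (hp : ∀ i, |p i| ≤ 1) (z : I → Bool) : 0 ≤ wt p z := by
  unfold wt
  refine Finset.prod_nonneg (fun i _ => ?_)
  have h := abs_le.1 (hp i)
  unfold sg
  split_ifs <;> push_cast <;> linarith [h.1, h.2]

theorem sum_wt (p : I → ℝ) : ∑ z, wt p z = 1 := by
  unfold wt
  have h := Finset.prod_univ_sum (fun _ : I => (Finset.univ : Finset Bool))
    (fun i b => (1 + (sg b : ℝ) * p i) / 2)
  rw [Fintype.piFinset_univ] at h
  rw [← h]
  refine Finset.prod_eq_one (fun i _ => ?_)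
  simp [sg]
  ring

/-- `dcoef f p S` does not depend on `p` on `S` -/
theorem dcoef_congr (f : (I → Bool) → ℝ) {p q : I → ℝ} {S : Finset I} (h : ∀ i, i ∉ S → p i = q i) :
    dcoef f p S = dcoef f q S := by
  unfold dcoef
  refine Finset.sum_congr rfl (fun z _ => ?_)
  congr 1
  refine Finset.prod_congr rfl (fun i _ => ?_)
  split_ifs with hi
  · rfl
  · rw [h i hi]

theorem continuous_dcoef (f : (I → Bool) → ℝ) (S : Finset I) : Continuous (fun p => dcoef f p S) := by
  unfold dcoef
  refine continuous_finset_sum _ (fun z _ => ?_)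
  refine continuous_const.mul (continuous_finset_prod _ (fun i _ => ?_))
  split_ifs with hi
  · exact continuous_const
  · exact (continuous_const.add (continuous_const.mul (continuous_apply i))).div_const _

/-- chain rule -/
theorem hasDerivAt_dcoef (f : (I → Bool) → ℝ) (S : Finset I) (p : ℝ → I → ℝ) (p' : I → ℝ) (v : ℝ)
    (hp : ∀ i, i ∉ S → HasDerivAt (fun v => p v i) (p' i) v) :
    HasDerivAt (fun v => dcoef f (p v) S) (∑ i ∈ Sᶜ, p' i * dcoef f (p v) (insert i S)) v := by
  unfold dcoef
  have h1 : ∀ (z : I → Bool), HasDerivAt (fun v => ∏ i, (if i ∈ S then (sg (z i) : ℝ) / 2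
      else (1 + (sg (z i) : ℝ) * p v i) / 2))
      (∑ i ∈ Sᶜ, p' i * ∏ j, (if j ∈ insert i S then (sg (z j) : ℝ) / 2
        else (1 + (sg (z j) : ℝ) * p v j) / 2)) v := by
    intro z
    have h2 : ∀ i ∈ (Finset.univ : Finset I), HasDerivAt (fun v => (if i ∈ S then (sg (z i) : ℝ) / 2
      else (1 + (sg (z i) : ℝ) * p v i) / 2)) (if i ∈ S then 0 else (sg (z i) : ℝ) * p' i / 2) v := by
      intro i _
      split_ifs with hi
      · exact hasDerivAt_const _ _
      · have h3 := (((hp i hi).const_mul (sg (z i) : ℝ)).const_add 1).div_const 2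
        exact h3
    have h4 := HasDerivAt.fun_finset_prod h2
    refine h4.congr_deriv ?_
    rw [← Finset.sum_subset (Finset.subset_univ Sᶜ)]
    · refine Finset.sum_congr rfl (fun i hi => ?_)
      rw [Finset.mem_compl] at hi
      rw [if_neg hi, smul_eq_mul, ← Finset.mul_prod_erase Finset.univ (fun j => (if j ∈ insert i S
        then (sg (z j) : ℝ) / 2 else (1 + (sg (z j) : ℝ) * p v j) / 2)) (Finset.mem_univ i)]
      rw [if_pos (Finset.mem_insert_self i S)]
      have h5 : ∏ j ∈ Finset.univ.erase i, (if j ∈ S then (sg (z j) : ℝ) / 2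
            else (1 + (sg (z j) : ℝ) * p v j) / 2)
          = ∏ j ∈ Finset.univ.erase i, (if j ∈ insert i S
        then (sg (z j) : ℝ) / 2 else (1 + (sg (z j) : ℝ) * p v j) / 2) := by
        refine Finset.prod_congr rfl (fun j hj => ?_)
        have hne : j ≠ i := Finset.ne_of_mem_erase hj
        simp [Finset.mem_insert, hne]
      rw [h5]
      ring
    · intro i _ hi
      rw [Finset.mem_compl, not_not] at hi
      rw [if_pos hi, smul_zero]
  have h6 := HasDerivAt.fun_sum (u := (Finset.univ : Finset (I → Bool)))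
    (fun z _ => (h1 z).const_mul (f z))
  refine h6.congr_deriv ?_
  simp only [Finset.mul_sum]
  rw [Finset.sum_comm]
  refine Finset.sum_congr rfl (fun i _ => Finset.sum_congr rfl (fun z _ => ?_))
  ring

/-- the flip of the coordinates in `A` as an equivalence -/
def Mle_flipEquiv (A : Finset I) : (I → Bool) ≃ (I → Bool) where
  toFun z := fun i => if i ∈ A then !(z i) else z i
  invFun z := fun i => if i ∈ A then !(z i) else z i
  left_inv z := by
    funext i
    by_cases h : i ∈ A <;> simp [h]
  right_inv z := by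
    funext i
    by_cases h : i ∈ A <;> simp [h]

theorem Mle_sg_not (b : Bool) : sg (!b) = - sg b := by
  cases b <;> simp [sg]

/-- flipping the coordinates in `A` -/
theorem abs_dcoef_flip (f : (I → Bool) → ℝ) (p : I → ℝ) (A S : Finset I) :
    |dcoef (fun z => f (fun i => if i ∈ A then !(z i) else z i)) p S|
      = |dcoef f (fun i => if i ∈ A then - p i else p i) S| := by
  have h1 : dcoef (fun z => f (fun i => if i ∈ A then !(z i) else z i)) p S
      = (∏ i, (if i ∈ S ∧ i ∈ A then (-1 : ℝ) else 1))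
        * dcoef f (fun i => if i ∈ A then - p i else p i) S := by
    unfold dcoef
    rw [Finset.mul_sum, ← Equiv.sum_comp (Mle_flipEquiv A)]
    refine Finset.sum_congr rfl (fun z _ => ?_)
    have h2 : (fun i => if i ∈ A then !((Mle_flipEquiv A) z i) else (Mle_flipEquiv A) z i) = z := by
      funext i
      by_cases h : i ∈ A <;> simp [Mle_flipEquiv, h]
    simp only [h2]
    rw [mul_left_comm, ← Finset.prod_mul_distrib]
    congr 1
    refine Finset.prod_congr rfl (fun i _ => ?_)
    by_cases hA : i ∈ A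
    · by_cases hS : i ∈ S
      · simp [Mle_flipEquiv, hA, hS, Mle_sg_not]
        ring
      · simp [Mle_flipEquiv, hA, hS, Mle_sg_not]
    · by_cases hS : i ∈ S
      · simp [Mle_flipEquiv, hA, hS]
      · simp [Mle_flipEquiv, hA, hS]
  rw [h1, abs_mul]
  have h3 : |∏ i, (if i ∈ S ∧ i ∈ A then (-1 : ℝ) else 1)| = 1 := by
    rw [Finset.abs_prod]
    refine Finset.prod_eq_one (fun i _ => ?_)
    split_ifs <;> simp
  rw [h3, one_mul]

theorem wt_flip (p : I → ℝ) (A : Finset I) (hA : ∀ i ∈ A, p i = 0) (z : I → Bool) :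
    wt p (fun i => if i ∈ A then !(z i) else z i) = wt p z := by
  unfold wt
  refine Finset.prod_congr rfl (fun i _ => ?_)
  by_cases h : i ∈ A
  · simp [h, hA i h]
  · simp [h]

end Crest.Agent.R350
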