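import Crest.Agent.R350.Chain
import Crest.Agent.R350.FTab

/-!
# Row 350, piece Moment: the hidden distribution has large K-fold Forrelation

PROOF.  `moment_one`: `stein1` with `G u = sin (Had u y)`, derivative `cos (Had u y) * chi y x / 2^j`; as `chi² = 1` the left side is
`2^{-j} E[(1-u_x²)/2 cos(Had u y)]` and `cos c ≥ 1 - c²/2`:
`E[(1-u_x²)/2 cos] ≥ E[(1-u_x²)/2] - E[(1-u_x²)/2 * (Had u y)²/2] ≥ 1/3 - (1/4) E[(Had u y)²] = 1/3 - 1/12 = 1/4`
(`E (Had u y)² = 2^{-2j} ∑_x chi² / 3 = 1/3` by `integral_mul_gam1`, `(1-u²)/2 ≤ 1/2` a.e.).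
`moment_Psi`: `∑_z Psi z wt p z = ∑_x ∏_t chi (x_{t+1}) (x_t) * ∏_t p (t, x_t)` (`Psi_expand`, and `∑_z wt p z ∏_t sg (z (t,x_t)) = ∏_t p (t, x_t)`
as the pairs `(t, x_t)` are distinct); for `p = pm 1 ω` the product is `(1/2)^(Kp+1) ∏_{t<Kp} (ω_t(x_t) sin (Had (ω t) x_{t+1}))`;
integrate with `integral_prod_gam` and `moment_one`: every `x` contributes at least `(1/2)^(Kp+1) (1/(4 * 2^j))^Kp`, and there are
`2^(2j(Kp+1))` many `x`.
-/

set_option autoImplicit false

namespace Crest.Agent.R350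

open MeasureTheory

theorem moment_chi_mul_self {n : ℕ} (x y : V n) : (chi x y : ℝ) * (chi x y : ℝ) = 1 := by
  have h : chi x y * chi x y = 1 := by
    unfold chi
    rw [← Finset.prod_mul_distrib]
    apply Finset.prod_eq_one
    intro i _
    split_ifs <;> norm_num
  exact_mod_cast h

theorem moment_continuous_Had {j : ℕ} (y : V (2 * j)) :
    Continuous (fun u : V (2 * j) → ℝ => Had u y) := by
  unfold Had
  fun_prop

theorem moment_hasDerivAt_Had {j : ℕ} (x y : V (2 * j)) (u : V (2 * j) → ℝ) (v : ℝ) :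
    HasDerivAt (fun v => Had (Function.update u x v) y) ((chi y x : ℝ) / 2 ^ j) v := by
  unfold Had
  apply HasDerivAt.div_const
  have h : ∀ x' ∈ (Finset.univ : Finset (V (2 * j))),
      HasDerivAt (fun v : ℝ => (chi y x' : ℝ) * Function.update u x v x')
        (if x' = x then (chi y x' : ℝ) else 0) v := by
    intro x' _
    by_cases hx : x' = x
    · subst hx
      simp only [Function.update_self, if_true]
      simpa using (hasDerivAt_id v).const_mul (chi y x' : ℝ)
    · simp only [Function.update_of_ne hx, if_neg hx]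
      exact hasDerivAt_const _ _
  have h2 := HasDerivAt.fun_sum h
  simpa using h2

theorem moment_Had_sq {j : ℕ} (y : V (2 * j)) :
    ∫ u, (Had u y) ^ 2 ∂(gam1 (2 * j)) = 1 / 3 := by
  have hexp : ∀ u : V (2 * j) → ℝ, (Had u y) ^ 2
      = ∑ x, ∑ x', ((chi y x : ℝ) * (chi y x' : ℝ) / (2 ^ j) ^ 2) * (u x * u x') := by
    intro u
    unfold Had
    rw [div_pow, sq (∑ x, _), Finset.sum_mul_sum, Finset.sum_div]
    apply Finset.sum_congr rfl
    intro x _
    rw [Finset.sum_div]
    apply Finset.sum_congr rfl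
    intro x' _
    ring
  simp_rw [hexp]
  rw [integral_finsetSum]
  · have : ∀ x : V (2 * j), ∫ u, ∑ x', ((chi y x : ℝ) * (chi y x' : ℝ) / (2 ^ j) ^ 2) * (u x * u x')
        ∂(gam1 (2 * j)) = 1 / (2 ^ j) ^ 2 * (1 / 3) := by
      intro x
      rw [integral_finsetSum]
      · simp_rw [integral_const_mul, integral_mul_gam1]
        rw [Finset.sum_eq_single x]
        · rw [moment_chi_mul_self]; simp
        · intro b _ hb
          rw [if_neg (Ne.symm hb)]; simp
        · intro h; exact absurd (Finset.mem_univ x) h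
      · intro i _
        apply integrable_gam1
        fun_prop
    simp_rw [this]
    simp only [Finset.sum_const, Finset.card_univ, nsmul_eq_mul]
    have hc : (Fintype.card (V (2 * j)) : ℝ) = (2 ^ j) ^ 2 := by
      simp only [V, Fintype.card_fun, Fintype.card_fin, Fintype.card_bool]
      push_cast
      rw [← pow_mul]
      congr 1; ring
    rw [hc]
    field_simp
  · intro i _
    apply integrable_gam1
    fun_prop

theorem moment_one {j : ℕ} (x y : V (2 * j)) :
    1 / (4 * 2 ^ j) ≤ (chi y x : ℝ) * ∫ u, u x * Real.sin (Had u y) ∂(gam1 (2 * j)) := by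
  have hcH := moment_continuous_Had (j := j) y
  have hst := stein1 (n := 2 * j) x (fun u => Real.sin (Had u y))
    (fun u => Real.cos (Had u y) * ((chi y x : ℝ) / 2 ^ j)) (by fun_prop) (by fun_prop)
    (by
      intro u v
      have h := moment_hasDerivAt_Had x y u v
      exact h.sin)
  rw [hst]
  have hlow : (1 : ℝ) / 4 ≤ ∫ u, (1 - (u x) ^ 2) / 2 * Real.cos (Had u y) ∂(gam1 (2 * j)) := by
    have h1 : ∫ u, ((1 - (u x) ^ 2) / 2 - 1 / 4 * (Had u y) ^ 2) ∂(gam1 (2 * j)) = 1 / 4 := by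
      rw [integral_sub]
      · have hxx : ∫ u, (u x) ^ 2 ∂(gam1 (2 * j)) = 1 / 3 := by
          have := integral_mul_gam1 (n := 2 * j) x x
          simp only [if_true] at this
          simpa [sq] using this
        rw [integral_const_mul, moment_Had_sq]
        have h3 : ∫ u : V (2 * j) → ℝ, (1 - (u x) ^ 2) / 2 ∂(gam1 (2 * j)) = 1 / 3 := by
          rw [integral_div, integral_sub, hxx]
          · simp; norm_num
          · exact integrable_const _
          · apply integrable_gam1; fun_prop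
        rw [h3]; norm_num
      · apply integrable_gam1; fun_prop
      · apply integrable_gam1; fun_prop
    rw [← h1]
    apply integral_mono_ae
    · apply integrable_gam1; fun_prop
    · apply integrable_gam1; fun_prop
    · filter_upwards [gam1_ae (2 * j)] with u hu
      have hux := hu x
      have hsq : (u x) ^ 2 ≤ 1 := by
        rw [sq_le_one_iff_abs_le_one]; exact hux
      have hcos := Real.one_sub_sq_div_two_le_cos (x := Had u y)
      have hH : 0 ≤ (Had u y) ^ 2 := sq_nonneg _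
      have hu0 : 0 ≤ (u x) ^ 2 := sq_nonneg _
      nlinarith [mul_nonneg hu0 hH, mul_nonneg (by linarith : (0:ℝ) ≤ (1 - (u x) ^ 2) / 2) (by linarith : (0:ℝ) ≤ Real.cos (Had u y) - (1 - (Had u y) ^ 2 / 2))]
  have hre : (chi y x : ℝ) * ∫ u, (1 - (u x) ^ 2) / 2 * (Real.cos (Had u y) * ((chi y x : ℝ) / 2 ^ j))
      ∂(gam1 (2 * j)) = (1 / 2 ^ j) * ∫ u, (1 - (u x) ^ 2) / 2 * Real.cos (Had u y) ∂(gam1 (2 * j)) := by
    rw [← integral_const_mul, ← integral_const_mul]
    apply integral_congr_ae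
    apply Filter.Eventually.of_forall
    intro u
    have hc := moment_chi_mul_self y x
    simp only
    calc (chi y x : ℝ) * ((1 - (u x) ^ 2) / 2 * (Real.cos (Had u y) * ((chi y x : ℝ) / 2 ^ j)))
        = ((chi y x : ℝ) * (chi y x : ℝ)) * ((1 - (u x) ^ 2) / 2 * (Real.cos (Had u y) / 2 ^ j)) := by ring
      _ = _ := by rw [hc]; ring
  rw [hre]
  have h2 : (0 : ℝ) < 2 ^ j := by positivity
  calc (1 : ℝ) / (4 * 2 ^ j) = (1 / 2 ^ j) * (1 / 4) := by field_simp
    _ ≤ _ := by
      apply mul_le_mul_of_nonneg_left hlow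
      positivity

theorem sum_Psi_wt {Kp n : ℕ} (p : Fin (Kp + 1) × V n → ℝ) :
    ∑ z : Inst (Kp + 1) n, (Psi z : ℝ) * wt p z
      = ∑ x : Fin (Kp + 1) → V n,
        (∏ t : Fin Kp, (chi (x t.succ) (x t.castSucc) : ℝ)) * ∏ t, p (t, x t) := by
  have hexp : ∀ z : Inst (Kp + 1) n, (Psi z : ℝ) * wt p z
      = ∑ x : Fin (Kp + 1) → V n, (∏ t : Fin Kp, (chi (x t.succ) (x t.castSucc) : ℝ)) *
        ((∏ t, (sg (z (t, x t)) : ℝ)) * wt p z) := by
    intro z
    rw [Psi_expand]
    push_cast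
    rw [Finset.sum_mul]
    apply Finset.sum_congr rfl
    intro x _
    ring
  simp_rw [hexp]
  rw [Finset.sum_comm]
  apply Finset.sum_congr rfl
  intro x _
  rw [← Finset.mul_sum]
  congr 1
  have hz : ∀ z : Inst (Kp + 1) n, (∏ t, (sg (z (t, x t)) : ℝ)) * wt p z
      = ∏ i : Fin (Kp + 1) × V n, ((if i.2 = x i.1 then (sg (z i) : ℝ) else 1) *
        ((1 + (sg (z i) : ℝ) * p i) / 2)) := by
    intro z
    rw [Finset.prod_mul_distrib]
    unfold wt
    congr 1
    rw [Fintype.prod_prod_type]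
    apply Finset.prod_congr rfl
    intro t _
    rw [Finset.prod_eq_single (x t)]
    · simp
    · intro b _ hb
      simp [hb]
    · intro h; exact absurd (Finset.mem_univ _) h
  simp_rw [hz]
  have hps := Finset.prod_univ_sum (ι := Fin (Kp + 1) × V n) (fun _ => (Finset.univ : Finset Bool))
    (fun i b => ((if i.2 = x i.1 then (sg b : ℝ) else 1) * ((1 + (sg b : ℝ) * p i) / 2)))
  rw [Fintype.piFinset_univ] at hps
  rw [← hps, Fintype.prod_prod_type]
  apply Finset.prod_congr rfl
  intro t _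
  rw [Finset.prod_eq_single (x t)]
  · simp [sg]; ring
  · intro b _ hb
    simp [sg, hb]; ring
  · intro h; exact absurd (Finset.mem_univ _) h

theorem moment_Psi {j Kp : ℕ} :
    (1 / 8 : ℝ) ^ (Kp + 1) * 2 ^ (j * (Kp + 2)) ≤
      ∫ ω, ∑ z : Inst (Kp + 1) (2 * j), (Psi z : ℝ) * wt (pm 1 ω) z ∂(gam Kp (2 * j)) := by
  have hprod : ∀ (ω : Om Kp (2 * j)) (x : Fin (Kp + 1) → V (2 * j)),
      ∏ t, pm 1 ω (t, x t) = (1 / 2) ^ (Kp + 1) *
        ∏ t : Fin Kp, (ω t (x t.castSucc) * Real.sin (Had (ω t) (x t.succ))) := by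
    intro ω x
    unfold pm
    simp only
    rw [Finset.prod_mul_distrib, Finset.prod_mul_distrib, Finset.prod_const, Finset.card_univ,
      Fintype.card_fin, Finset.prod_mul_distrib]
    have hL : ∏ t, Lf 1 ω t (x t) = ∏ t : Fin Kp, Real.sin (Had (ω t) (x t.succ)) := by
      rw [Fin.prod_univ_succ]
      simp [Lf]
    have hR : ∏ t, Rf ω t (x t) = ∏ t : Fin Kp, ω t (x t.castSucc) := by
      rw [Fin.prod_univ_castSucc]
      simp [Rf]
    rw [hL, hR]
    ring
  have hint : ∀ x : Fin (Kp + 1) → V (2 * j),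
      (1 / 2) ^ (Kp + 1) * (1 / (4 * 2 ^ j)) ^ Kp ≤
      ∫ ω, (∏ t : Fin Kp, (chi (x t.succ) (x t.castSucc) : ℝ)) * ∏ t, pm 1 ω (t, x t)
        ∂(gam Kp (2 * j)) := by
    intro x
    simp_rw [hprod]
    rw [integral_const_mul, integral_const_mul]
    have := integral_prod_gam (Kp := Kp) (n := 2 * j)
      (fun t u => u (x t.castSucc) * Real.sin (Had u (x t.succ)))
    rw [this]
    calc (1 / 2 : ℝ) ^ (Kp + 1) * (1 / (4 * 2 ^ j)) ^ Kp
        = (1 / 2) ^ (Kp + 1) * ∏ _t : Fin Kp, (1 / (4 * 2 ^ j)) := by simp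
      _ ≤ (1 / 2) ^ (Kp + 1) * ∏ t : Fin Kp, ((chi (x t.succ) (x t.castSucc) : ℝ) *
            ∫ u, u (x t.castSucc) * Real.sin (Had u (x t.succ)) ∂(gam1 (2 * j))) := by
          apply mul_le_mul_of_nonneg_left _ (by positivity)
          apply Finset.prod_le_prod
          · intro i _; positivity
          · intro i _; exact moment_one _ _
      _ = _ := by
          rw [Finset.prod_mul_distrib]; ring
  simp_rw [sum_Psi_wt]
  rw [integral_finsetSum]
  · calc (1 / 8 : ℝ) ^ (Kp + 1) * 2 ^ (j * (Kp + 2))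
        ≤ ∑ _x : Fin (Kp + 1) → V (2 * j), (1 / 2 : ℝ) ^ (Kp + 1) * (1 / (4 * 2 ^ j)) ^ Kp := by
          rw [Finset.sum_const, Finset.card_univ, nsmul_eq_mul]
          have hc : (Fintype.card (Fin (Kp + 1) → V (2 * j)) : ℝ) = (2 ^ j) ^ (2 * (Kp + 1)) := by
            simp only [V, Fintype.card_fun, Fintype.card_fin, Fintype.card_bool]
            push_cast
            rw [← pow_mul, ← pow_mul]
            congr 1; ring
          rw [hc]
          have h2 : (2 : ℝ) ^ (j * (Kp + 2)) = (2 ^ j) ^ (Kp + 2) := by rw [← pow_mul]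
          rw [h2]
          have h8 : (1 / 8 : ℝ) ^ (Kp + 1) = (1 / 2) ^ (Kp + 1) * ((1 / 4) ^ Kp * (1 / 4)) := by
            rw [← pow_succ, ← mul_pow]; norm_num
          rw [h8]
          have h4 : (1 / (4 * 2 ^ j) : ℝ) ^ Kp * (2 ^ j) ^ (2 * (Kp + 1)) = (1 / 4) ^ Kp * (2 ^ j) ^ (Kp + 2) := by
            have hpos : (0 : ℝ) < 2 ^ j := by positivity
            have : (1 / (4 * 2 ^ j) : ℝ) ^ Kp = (1 / 4) ^ Kp / (2 ^ j) ^ Kp := by
              rw [← div_pow]; congr 1; field_simp
            rw [this, div_mul_eq_mul_div, div_eq_iff (by positivity)]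
            ring
          have h5 : (0 : ℝ) ≤ (1 / 2) ^ (Kp + 1) * ((1 / 4) ^ Kp * (2 ^ j) ^ (Kp + 2)) := by positivity
          calc _ = (1 / 4) * ((1 / 2 : ℝ) ^ (Kp + 1) * ((1 / 4) ^ Kp * (2 ^ j) ^ (Kp + 2))) := by ring
            _ ≤ (1 / 2 : ℝ) ^ (Kp + 1) * ((1 / 4) ^ Kp * (2 ^ j) ^ (Kp + 2)) := by linarith
            _ = _ := by rw [← h4]; ring
      _ ≤ _ := Finset.sum_le_sum (fun x _ => hint x)
  · intro x _
    apply integrable_gam
    simp_rw [hprod]
    apply Continuous.mul continuous_const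
    apply Continuous.mul continuous_const
    apply continuous_finsetProd
    intro t _
    apply Continuous.mul
    · fun_prop
    · apply Real.continuous_sin.comp
      exact (moment_continuous_Had (x t.succ)).comp (continuous_apply t)

end Crest.Agent.R350
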