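import Crest.Agent.R350.QBasic

/-!
# Row 350, piece QAmp: amplitude amplification with exactly `j` Grover iterations

PROOF.  Let `Samp I T P` be given by `V, e₀, out`, `QU I E T V`.  Put `ψ x = V x *ᵥ e_{e₀}` (column `e₀` of `V x`),
`p x = ∑_{good ω} P x ω = ‖Π_g ψ‖²` with `Π_g` the projection on the basis states `e` with `good (out e)`.
Let `R₀ = diagonal (e = e₀ ? 1 : -1)`, `S = diagonal (good (out e) ? -1 : 1)` (both unitary), and
`G x = V x * R₀ * (V x)ᴴ * S = (2 |ψ⟩⟨ψ| - 1) * S`.  Then the column `e₀` of `G^j V` is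
`e ↦ (if good (out e) then α_j else β_j) * ψ e` with `α_0 = β_0 = 1`, `α_{j+1} = (1-2p) α_j + 2(1-p) β_j`,
`β_{j+1} = -2p α_j + (1-2p) β_j`.
-/

set_option autoImplicit false

namespace Crest.Agent.R350

open Matrix

variable {I : Type}

/-- the amplitudes after `j` Grover iterations -/
noncomputable def grover (p : ℝ) : ℕ → ℝ × ℝ
  | 0 => (1, 1)
  | j + 1 => ((1 - 2 * p) * (grover p j).1 + 2 * (1 - p) * (grover p j).2,
      -2 * p * (grover p j).1 + (1 - 2 * p) * (grover p j).2)

theorem grover_sin (θ : ℝ) (j : ℕ) :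
    (grover (Real.sin θ ^ 2) j).1 * Real.sin θ = Real.sin ((2 * j + 1) * θ) ∧
    (grover (Real.sin θ ^ 2) j).2 * Real.cos θ = Real.cos ((2 * j + 1) * θ) := by
  induction j with
  | zero => simp [grover]
  | succ j ih =>
    obtain ⟨h1, h2⟩ := ih
    have e : (2 * ((j + 1 : ℕ) : ℝ) + 1) * θ = (2 * j + 1) * θ + 2 * θ := by push_cast; ring
    have hc : 1 - Real.sin θ ^ 2 = Real.cos θ ^ 2 := by
      have := Real.sin_sq_add_cos_sq θ; linarith
    constructor
    · rw [e, Real.sin_add, ← h1, ← h2, Real.cos_two_mul, Real.sin_two_mul, grover]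
      simp only
      rw [hc]
      have := Real.sin_sq_add_cos_sq θ
      linear_combination (2 * (grover (Real.sin θ ^ 2) j).1 * Real.sin θ) * (-this)
    · rw [e, Real.cos_add, ← h1, ← h2, Real.cos_two_mul, Real.sin_two_mul, grover]
      simp only
      have := Real.sin_sq_add_cos_sq θ
      linear_combination (2 * (grover (Real.sin θ ^ 2) j).2 * Real.cos θ) * (-this)

section step

variable {E : Type} [Fintype E] [DecidableEq E]

theorem diag_sign_unitary (s : E → ℂ) (hs : ∀ e, s e = 1 ∨ s e = -1) :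
    Matrix.diagonal s ∈ Matrix.unitaryGroup E ℂ := by
  rw [Matrix.mem_unitaryGroup_iff, Matrix.star_eq_conjTranspose, Matrix.diagonal_conjTranspose,
    Matrix.diagonal_mul_diagonal, ← Matrix.diagonal_one]
  congr 1
  funext e
  rw [Pi.star_apply]
  rcases hs e with h | h <;> rw [h] <;> simp

/-- one Grover step on the column `e₀` -/
theorem grover_step (V : Matrix E E ℂ) (hV : V ∈ Matrix.unitaryGroup E ℂ) (e₀ : E)
    (g : E → Prop) [DecidablePred g] (p α β : ℝ)
    (hp : p = ∑ e, if g e then ‖V e e₀‖ ^ 2 else 0) (W : Matrix E E ℂ)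
    (hW : ∀ e, W e e₀ = ((if g e then α else β : ℝ) : ℂ) * V e e₀) (e : E) :
    (V * Matrix.diagonal (fun e => if e = e₀ then (1 : ℂ) else -1) * Vᴴ *
      Matrix.diagonal (fun e => if g e then (-1 : ℂ) else 1) * W) e e₀ =
      ((if g e then (1 - 2 * p) * α + 2 * (1 - p) * β else -2 * p * α + (1 - 2 * p) * β : ℝ) : ℂ)
        * V e e₀ := by
  have hVV : V * Vᴴ = 1 := Matrix.mem_unitaryGroup_iff.1 hV
  have hVV' : Vᴴ * V = 1 := Matrix.mem_unitaryGroup_iff'.1 hV
  have hR : V * Matrix.diagonal (fun e => if e = e₀ then (1 : ℂ) else -1) * Vᴴ =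
      Matrix.of fun a b => 2 * (V a e₀ * star (V b e₀)) - (1 : Matrix E E ℂ) a b := by
    have e1 : Matrix.diagonal (fun e => if e = e₀ then (1 : ℂ) else -1) =
        (2 : ℂ) • Matrix.single e₀ e₀ (1 : ℂ) - 1 := by
      ext a b
      by_cases hab : a = b
      · subst hab
        rw [Matrix.diagonal_apply_eq, Matrix.sub_apply, Matrix.smul_apply, Matrix.one_apply_eq,
          Matrix.single_apply]
        by_cases ha : a = e₀
        · subst ha; simp; norm_num
        · have : ¬ (e₀ = a ∧ e₀ = a) := fun h => ha h.1.symm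
          rw [if_neg ha, if_neg this]; simp
      · rw [Matrix.diagonal_apply_ne _ hab, Matrix.sub_apply, Matrix.smul_apply,
          Matrix.one_apply_ne hab, Matrix.single_apply]
        have : ¬ (e₀ = a ∧ e₀ = b) := fun h => hab (h.1.symm.trans h.2)
        rw [if_neg this]; simp
    rw [e1, Matrix.mul_sub, Matrix.sub_mul, Matrix.mul_one, hVV]
    ext a b
    rw [Matrix.sub_apply, Matrix.of_apply, Matrix.mul_smul, Matrix.smul_mul, Matrix.smul_apply]
    congr 1
    rw [smul_eq_mul]
    congr 1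
    rw [Matrix.mul_apply, Finset.sum_eq_single e₀, Matrix.mul_apply, Finset.sum_eq_single e₀]
    · simp
    · intro c _ hc
      rw [Matrix.single_apply, if_neg (fun h => hc h.1.symm), mul_zero]
    · intro h; exact absurd (Finset.mem_univ _) h
    · intro c _ hc
      rw [Matrix.mul_apply, Finset.sum_eq_zero, zero_mul]
      intro d _
      rw [Matrix.single_apply, if_neg (fun h => hc h.2.symm), mul_zero]
    · intro h; exact absurd (Finset.mem_univ _) h
  have hsum : ∑ b, ((if g b then (-1 : ℂ) else 1) * ((if g b then α else β : ℝ) : ℂ)) *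
      (star (V b e₀) * V b e₀) = ((-α * p + β * (1 - p) : ℝ) : ℂ) := by
    have hn : ∀ b, star (V b e₀) * V b e₀ = ((‖V b e₀‖ ^ 2 : ℝ) : ℂ) := by
      intro b
      rw [Complex.star_def, ← Complex.normSq_eq_conj_mul_self, Complex.normSq_eq_norm_sq]
    have htot : ∑ b, ‖V b e₀‖ ^ 2 = 1 := by
      have h1 := congrFun (congrFun hVV' e₀) e₀
      rw [Matrix.mul_apply, Matrix.one_apply_eq] at h1
      simp_rw [Matrix.conjTranspose_apply, hn] at h1
      exact_mod_cast h1
    have hbad : 1 - p = ∑ b, if g b then 0 else ‖V b e₀‖ ^ 2 := by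
      rw [hp, ← htot, ← Finset.sum_sub_distrib]
      refine Finset.sum_congr rfl fun b _ => ?_
      split_ifs <;> simp
    rw [hbad, hp, Finset.mul_sum, Finset.mul_sum, ← Finset.sum_add_distrib, Complex.ofReal_sum]
    refine Finset.sum_congr rfl fun b _ => ?_
    rw [hn]
    split_ifs <;> push_cast <;> ring
  rw [hR, Matrix.mul_apply]
  have hterm : ∀ b, (Matrix.of (fun a b => 2 * (V a e₀ * star (V b e₀)) - (1 : Matrix E E ℂ) a b) *
      Matrix.diagonal (fun e => if g e then (-1 : ℂ) else 1)) e b * W b e₀ =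
      2 * V e e₀ * (((if g b then (-1 : ℂ) else 1) * ((if g b then α else β : ℝ) : ℂ)) *
        (star (V b e₀) * V b e₀)) -
      (if e = b then (if g b then (-1 : ℂ) else 1) * ((if g b then α else β : ℝ) : ℂ) * V b e₀
        else 0) := by
    intro b
    rw [Matrix.mul_diagonal, Matrix.of_apply, hW b]
    by_cases hb : e = b
    · subst hb
      rw [Matrix.one_apply_eq, if_pos rfl]
      ring
    · rw [Matrix.one_apply_ne hb, if_neg hb]
      ring
  simp_rw [hterm]
  rw [Finset.sum_sub_distrib, ← Finset.mul_sum, hsum, Finset.sum_ite_eq]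
  simp only [Finset.mem_univ, if_true]
  split_ifs
  · push_cast; ring
  · push_cast; ring

end step

theorem Samp.amp {T : ℕ} {Ω : Type} [Fintype Ω] {P : (I → Bool) → Ω → ℝ} (h : Samp I T P)
    (good : Ω → Prop) (j : ℕ) :
    ∃ P' : (I → Bool) → Ω → ℝ, Samp I ((2 * j + 1) * T) P' ∧
      ∀ x, ∃ κ : ℝ, 0 ≤ κ ∧ (∀ ω, good ω → P' x ω = κ * P x ω) ∧
        ∀ θ : ℝ, Real.sin θ ^ 2 = ∑ ω : Ω, (open Classical in if good ω then P x ω else 0) →
          κ * Real.sin θ ^ 2 = Real.sin ((2 * j + 1) * θ) ^ 2 := by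
  classical
  obtain ⟨E, hE, hD, V, e₀, out, hV, hP⟩ := h
  set R₀ : Matrix E E ℂ := Matrix.diagonal (fun e => if e = e₀ then (1 : ℂ) else -1) with hR
  set S : Matrix E E ℂ := Matrix.diagonal (fun e => if good (out e) then (-1 : ℂ) else 1) with hS
  have hRu : R₀ ∈ Matrix.unitaryGroup E ℂ := diag_sign_unitary _ fun e => by
    by_cases he : e = e₀ <;> simp [he]
  have hSu : S ∈ Matrix.unitaryGroup E ℂ := diag_sign_unitary _ fun e => by
    by_cases he : good (out e) <;> simp [he]
  set p : (I → Bool) → ℝ := fun x => ∑ e, if good (out e) then ‖V x e e₀‖ ^ 2 else 0 with hp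
  have hpP : ∀ x, p x = ∑ ω : Ω, if good ω then P x ω else 0 := by
    intro x
    rw [hp]
    simp only
    simp_rw [hP]
    have h1 : ∀ ω : Ω, (if good ω then ∑ e : E, (if out e = ω then ‖V x e e₀‖ ^ 2 else 0) else 0) =
        ∑ e : E, (if ω = out e then (if good (out e) then ‖V x e e₀‖ ^ 2 else 0) else 0) := by
      intro ω
      split_ifs with hω
      · refine Finset.sum_congr rfl fun e _ => ?_
        by_cases he : out e = ω
        · subst he; simp [hω]
        · rw [if_neg he, if_neg (fun h => he h.symm)]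
      · symm
        refine Finset.sum_eq_zero fun e _ => ?_
        by_cases he : ω = out e
        · subst he; simp [hω]
        · rw [if_neg he]
    simp_rw [h1]
    rw [Finset.sum_comm]
    refine Finset.sum_congr rfl fun e _ => ?_
    rw [Finset.sum_ite_eq']
    simp
  -- the iterates
  have hW : ∃ W : (I → Bool) → Matrix E E ℂ, QU I E ((2 * j + 1) * T) W ∧
      ∀ x e, W x e e₀ = ((if good (out e) then (grover (p x) j).1 else (grover (p x) j).2 : ℝ) : ℂ)
        * V x e e₀ := by
    induction j with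
    | zero => exact ⟨V, by simpa using hV, fun x e => by simp [grover]⟩
    | succ j ih =>
      obtain ⟨W, hW1, hW2⟩ := ih
      refine ⟨fun x => V x * R₀ * (V x)ᴴ * S * W x, ?_, ?_⟩
      · have h1 := (((hV.mul (QU.const R₀ hRu)).mul hV.conjTranspose).mul (QU.const S hSu)).mul hW1
        have e : T + 0 + T + 0 + (2 * j + 1) * T = (2 * (j + 1) + 1) * T := by ring
        rw [e] at h1
        exact h1
      · intro x e
        rw [grover]
        exact grover_step (V x) (hV.unitary x) e₀ (fun e => good (out e)) (p x) _ _ rfl (W x)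
          (hW2 x) e
  obtain ⟨W, hW1, hW2⟩ := hW
  refine ⟨fun x ω => ∑ e : E, (open Classical in if out e = ω then ‖W x e e₀‖ ^ 2 else 0),
    ⟨E, hE, hD, W, e₀, out, hW1, fun x ω => rfl⟩, fun x => ⟨(grover (p x) j).1 ^ 2, by positivity,
      ?_, ?_⟩⟩
  · intro ω hω
    simp only
    rw [hP, Finset.mul_sum]
    refine Finset.sum_congr rfl fun e _ => ?_
    by_cases he : out e = ω
    · rw [if_pos he, if_pos he, hW2, if_pos (by rw [he]; exact hω), norm_mul, mul_pow,
        Complex.norm_real, Real.norm_eq_abs, sq_abs]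
    · rw [if_neg he, if_neg he, mul_zero]
  · intro θ hθ
    have hθ' : p x = Real.sin θ ^ 2 := by rw [hpP, hθ]
    rw [hθ', ← (grover_sin θ j).1]
    ring

end Crest.Agent.R350
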