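import Crest.Agent.R350.QDefs

/-!
# Row 350, piece QBasic: elementary closure properties of `QU` and `Samp`

PROOFS.
* `QU.unitary`: induction; `diagonal (±1)` is unitary.
* `QU.mono`: add steps with `q = fun _ => none`, `U = 1` (`diagonal 1 = 1`).
* `QU.mul`: induction on `h`; in the `const` case look at `h'` (`const` or `step`), multiply the last unitary.
* `QU.conjTranspose`: `(U * D * V)ᴴ = Vᴴ * (1 * D * Uᴴ)` with `D` real diagonal; use `QU.mul`.
* `Samp.sum_eq_one`: exchange the sums, `∑_e ‖V x e e₀‖² = 1` (column of a unitary matrix).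
* `Samp.map`: `out' = g ∘ out`.
* `Samp.pure`: `E = Ω`, `Ω` nonempty as `∑ p = 1`; choose any `e₀`; take a unitary whose column `e₀` is `√p`, e.g. the real
  Householder reflection `1 - 2 v vᵀ / (vᵀ v)`, `v = e_{e₀} - √p` (identity if `v = 0`), or extend to an orthonormal basis.
* `Samp.read`: `E = Bool`, `e₀ = false`, `V x = H * diagonal (b ↦ ph x (if b then some i else none)) * H`,
  `H = (1/√2) [[1,1],[1,-1]]`.
-/

set_option autoImplicit false
set_option linter.unusedSectionVars false

namespace Crest.Agent.R350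

open Matrix

variable {I : Type}

namespace QBasicAux

theorem ph_sq (x : I → Bool) (o : Option I) : ph x o * ph x o = 1 := by
  cases o with
  | none => simp [ph]
  | some i => simp only [ph]; split_ifs <;> norm_num

theorem star_ph (x : I → Bool) (o : Option I) : star (ph x o) = ph x o := by
  cases o with
  | none => simp [ph]
  | some i => simp only [ph]; split_ifs <;> simp

variable {E : Type} [Fintype E] [DecidableEq E]

theorem diag_star (x : I → Bool) (q : E → Option I) :
    (Matrix.diagonal (fun e => ph x (q e)))ᴴ = Matrix.diagonal (fun e => ph x (q e)) := by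
  rw [Matrix.diagonal_conjTranspose]
  congr 1
  funext e
  exact star_ph x (q e)

theorem diag_unitary (x : I → Bool) (q : E → Option I) :
    Matrix.diagonal (fun e => ph x (q e)) ∈ Matrix.unitaryGroup E ℂ := by
  rw [Matrix.mem_unitaryGroup_iff, Matrix.star_eq_conjTranspose, diag_star,
    Matrix.diagonal_mul_diagonal]
  simp only [ph_sq]
  exact Matrix.diagonal_one

theorem lmul {T : ℕ} {V : (I → Bool) → Matrix E E ℂ} (h : QU I E T V) (U : Matrix E E ℂ)
    (hU : U ∈ Matrix.unitaryGroup E ℂ) : QU I E T (fun x => U * V x) := by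
  cases h with
  | const U' hU' => exact QU.const (U * U') (mul_mem hU hU')
  | step h q U' hU' =>
    have := QU.step h q (U * U') (mul_mem hU hU')
    simpa only [Matrix.mul_assoc] using this

theorem col_norm (V : Matrix E E ℂ) (hV : V ∈ Matrix.unitaryGroup E ℂ) (e₀ : E) :
    ∑ e, ‖V e e₀‖ ^ 2 = 1 := by
  rw [Matrix.mem_unitaryGroup_iff'] at hV
  have h1 := congrFun (congrFun hV e₀) e₀
  rw [Matrix.mul_apply, Matrix.one_apply_eq] at h1
  have h2 : ((∑ e, ‖V e e₀‖ ^ 2 : ℝ) : ℂ) = 1 := by
    rw [← h1, Complex.ofReal_sum]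
    refine Finset.sum_congr rfl fun e _ => ?_
    rw [Matrix.star_apply]
    rw [RCLike.star_def, Complex.conj_mul']
    push_cast
    rfl
  exact_mod_cast h2

/-- a (Householder) unitary matrix with given real nonnegative unit column -/
theorem exists_col (e₀ : E) (s : E → ℝ) (hs : ∑ e, s e ^ 2 = 1) :
    ∃ U : Matrix E E ℂ, U ∈ Matrix.unitaryGroup E ℂ ∧ ∀ e, U e e₀ = (s e : ℂ) := by
  by_cases h1 : s e₀ = 1
  · refine ⟨1, one_mem _, fun e => ?_⟩
    by_cases he : e = e₀
    · subst he; rw [h1]; simp
    · have h2 : s e ^ 2 + s e₀ ^ 2 ≤ ∑ e, s e ^ 2 := by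
        rw [← Finset.sum_pair (f := fun e => s e ^ 2) he]
        exact Finset.sum_le_sum_of_subset_of_nonneg (Finset.subset_univ _)
          (fun _ _ _ => sq_nonneg _)
      rw [hs, h1] at h2
      have h3 : s e = 0 := by nlinarith [sq_nonneg (s e)]
      rw [Matrix.one_apply_ne he, h3]
      simp
  · let v : E → ℝ := fun e => (if e = e₀ then 1 else 0) - s e
    have hv : ∑ e, v e * v e = 2 * (1 - s e₀) := by
      have h2 : ∀ e, v e * v e = (if e = e₀ then 1 - 2 * s e₀ else 0) + s e ^ 2 := by
        intro e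
        simp only [v]
        by_cases he : e = e₀
        · subst he; simp; ring
        · simp [he]; ring
      simp only [h2, Finset.sum_add_distrib, hs, Finset.sum_ite_eq', Finset.mem_univ, if_true]
      ring
    have h1' : 1 - s e₀ ≠ 0 := fun h => h1 (by linarith)
    let W : Matrix E E ℂ := Matrix.of fun e f =>
      (if e = f then 1 else 0) - ((1 - s e₀ : ℝ) : ℂ)⁻¹ * ((v e : ℂ) * (v f : ℂ))
    have hWs : Wᴴ = W := by
      ext e f
      rw [Matrix.conjTranspose_apply]
      simp only [W, Matrix.of_apply, star_sub, star_mul', RCLike.star_def, Complex.conj_ofReal,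
        map_inv₀, mul_comm (v f : ℂ)]
      congr 1
      by_cases hef : e = f
      · subst hef; simp
      · rw [if_neg hef, if_neg (Ne.symm hef)]; simp
    have hvC : ∑ e, (v e : ℂ) * (v e : ℂ) = 2 * ((1 - s e₀ : ℝ) : ℂ) := by
      have := congrArg (fun t : ℝ => (t : ℂ)) hv
      simpa using this
    have hcC : ((1 - s e₀ : ℝ) : ℂ) ≠ 0 := by exact_mod_cast h1'
    refine ⟨W, ?_, ?_⟩
    · rw [Matrix.mem_unitaryGroup_iff, Matrix.star_eq_conjTranspose, hWs]
      ext e f
      rw [Matrix.mul_apply]
      have h3 : ∀ g, W e g * W g f = (if e = g then (if g = f then (1 : ℂ) else 0) else 0)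
          - (if e = g then ((1 - s e₀ : ℝ) : ℂ)⁻¹ * ((v g : ℂ) * (v f : ℂ)) else 0)
          - (if g = f then ((1 - s e₀ : ℝ) : ℂ)⁻¹ * ((v e : ℂ) * (v g : ℂ)) else 0)
          + ((1 - s e₀ : ℝ) : ℂ)⁻¹ * ((1 - s e₀ : ℝ) : ℂ)⁻¹ * ((v e : ℂ) * (v f : ℂ)) *
            ((v g : ℂ) * (v g : ℂ)) := by
        intro g
        simp only [W, Matrix.of_apply]
        by_cases hg : e = g
        · subst hg
          by_cases hg' : e = f
          · subst hg'; simp; ring
          · simp [hg']; ring
        · by_cases hg' : g = f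
          · subst hg'; simp [hg]; ring
          · simp [hg, hg']; ring
      simp only [h3, Finset.sum_add_distrib, Finset.sum_sub_distrib, ← Finset.mul_sum, hvC,
        Finset.sum_ite_eq, Finset.sum_ite_eq', Finset.mem_univ, if_true]
      rw [Matrix.one_apply]
      field_simp
      ring
    · intro e
      simp only [W, Matrix.of_apply]
      have h4 : ((v e₀ : ℝ) : ℂ) = ((1 - s e₀ : ℝ) : ℂ) := by
        simp [v]
      rw [h4, mul_comm (v e : ℂ), ← mul_assoc, inv_mul_cancel₀ hcC, one_mul]
      simp only [v]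
      push_cast
      split_ifs <;> simp

end QBasicAux

open QBasicAux

/-- every `V x` is unitary -/
theorem QU.unitary {E : Type} [Fintype E] [DecidableEq E] {T : ℕ} {V : (I → Bool) → Matrix E E ℂ}
    (h : QU I E T V) (x : I → Bool) : V x ∈ Matrix.unitaryGroup E ℂ := by
  induction h with
  | const U hU => exact hU
  | step h q U hU ih => exact mul_mem (mul_mem hU (diag_unitary x q)) ih

/-- padding -/
theorem QU.mono {E : Type} [Fintype E] [DecidableEq E] {T T' : ℕ} {V : (I → Bool) → Matrix E E ℂ}
    (h : QU I E T V) (hT : T ≤ T') : QU I E T' V := by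
  induction hT with
  | refl => exact h
  | step _ ih =>
    have := QU.step ih (fun _ => none) 1 (one_mem _)
    have h2 : ∀ x : I → Bool, Matrix.diagonal (fun _ : E => ph x (none : Option I)) = 1 := by
      intro x
      simp only [ph]
      exact Matrix.diagonal_one
    simpa only [h2, Matrix.one_mul] using this

/-- composition -/
theorem QU.mul {E : Type} [Fintype E] [DecidableEq E] {T T' : ℕ} {V V' : (I → Bool) → Matrix E E ℂ}
    (h : QU I E T V) (h' : QU I E T' V') : QU I E (T + T') (fun x => V x * V' x) := by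
  induction h with
  | const U hU =>
    rw [Nat.zero_add]
    exact lmul h' U hU
  | step h q U hU ih =>
    have := QU.step ih q U hU
    rw [show ∀ n : ℕ, n + 1 + T' = n + T' + 1 by intro n; omega]
    simpa only [Matrix.mul_assoc] using this

/-- inverse -/
theorem QU.conjTranspose {E : Type} [Fintype E] [DecidableEq E] {T : ℕ}
    {V : (I → Bool) → Matrix E E ℂ} (h : QU I E T V) : QU I E T (fun x => (V x)ᴴ) := by
  induction h with
  | const U hU =>
    refine QU.const _ ?_
    rw [← Matrix.star_eq_conjTranspose]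
    exact Unitary.star_mem hU
  | step h q U hU ih =>
    have hU' : Uᴴ ∈ Matrix.unitaryGroup E ℂ := by
      rw [← Matrix.star_eq_conjTranspose]
      exact Unitary.star_mem hU
    have := QU.mul ih (QU.step (QU.const Uᴴ hU') q 1 (one_mem _))
    simpa only [Matrix.conjTranspose_mul, diag_star, Matrix.one_mul, Matrix.mul_assoc,
      Nat.zero_add] using this

/-- a sampler gives probability vectors -/
theorem Samp.nonneg {T : ℕ} {Ω : Type} {P : (I → Bool) → Ω → ℝ} (h : Samp I T P)
    (x : I → Bool) (ω : Ω) : 0 ≤ P x ω := by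
  obtain ⟨E, _, _, V, e₀, out, -, hP⟩ := h
  rw [hP]
  refine Finset.sum_nonneg fun e _ => ?_
  split_ifs
  · positivity
  · exact le_rfl

theorem Samp.sum_eq_one {T : ℕ} {Ω : Type} [Fintype Ω] {P : (I → Bool) → Ω → ℝ} (h : Samp I T P)
    (x : I → Bool) : ∑ ω, P x ω = 1 := by
  classical
  obtain ⟨E, _, _, V, e₀, out, hQ, hP⟩ := h
  simp only [hP]
  rw [Finset.sum_comm]
  rw [← col_norm (V x) (hQ.unitary x) e₀]
  refine Finset.sum_congr rfl fun e _ => ?_
  rw [Finset.sum_eq_single (out e)]
  · rw [if_pos rfl]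
  · intro ω _ hω
    rw [if_neg (Ne.symm hω)]
  · intro h; exact absurd (Finset.mem_univ _) h

theorem Samp.mono {T T' : ℕ} {Ω : Type} {P : (I → Bool) → Ω → ℝ} (h : Samp I T P) (hT : T ≤ T') :
    Samp I T' P := by
  obtain ⟨E, i1, i2, V, e₀, out, hQ, hP⟩ := h
  exact ⟨E, i1, i2, V, e₀, out, hQ.mono hT, hP⟩

/-- post-processing of the outcome -/
theorem Samp.map {T : ℕ} {Ω Ω' : Type} [Fintype Ω] {P : (I → Bool) → Ω → ℝ} (h : Samp I T P)
    (g : Ω → Ω') :
    Samp I T (fun x ω' => ∑ ω : Ω, (open Classical in if g ω = ω' then P x ω else 0)) := by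
  classical
  obtain ⟨E, i1, i2, V, e₀, out, hQ, hP⟩ := h
  refine ⟨E, i1, i2, V, e₀, fun e => g (out e), hQ, fun x ω' => ?_⟩
  have h1 : ∀ ω : Ω, (if g ω = ω' then P x ω else 0) =
      ∑ e : E, if out e = ω then (if g (out e) = ω' then ‖V x e e₀‖ ^ 2 else 0) else 0 := by
    intro ω
    rw [hP]
    by_cases h : g ω = ω'
    · rw [if_pos h]
      refine Finset.sum_congr rfl fun e _ => ?_
      by_cases he : out e = ω
      · rw [if_pos he, if_pos he, he, if_pos h]
      · rw [if_neg he, if_neg he]
    · rw [if_neg h, Finset.sum_eq_zero]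
      intro e _
      by_cases he : out e = ω
      · rw [if_pos he, he, if_neg h]
      · rw [if_neg he]
  have h2 : (∑ ω : Ω, if g ω = ω' then P x ω else 0) =
      ∑ ω : Ω, ∑ e : E, if out e = ω then (if g (out e) = ω' then ‖V x e e₀‖ ^ 2 else 0) else 0 :=
    Finset.sum_congr rfl fun ω _ => h1 ω
  have h3 : (∑ ω : Ω, if g ω = ω' then P x ω else 0) =
      ∑ e : E, (if g (out e) = ω' then ‖V x e e₀‖ ^ 2 else 0) := by
    rw [h2, Finset.sum_comm]
    refine Finset.sum_congr rfl fun e _ => ?_
    rw [Finset.sum_eq_single (out e)]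
    · rw [if_pos rfl]
    · intro ω _ hω
      rw [if_neg (Ne.symm hω)]
    · intro h; exact absurd (Finset.mem_univ _) h
  convert h3 using 1

/-- any fixed finite probability distribution can be sampled without queries
(extend the unit vector `√p` to an orthonormal basis) -/
theorem Samp.pure {Ω : Type} [Fintype Ω] (p : Ω → ℝ) (hp : ∀ ω, 0 ≤ p ω) (hs : ∑ ω, p ω = 1) :
    Samp I 0 (fun _ => p) := by
  classical
  have hne : Nonempty Ω := by
    by_contra h
    rw [not_nonempty_iff] at h
    simp at hs
  obtain ⟨e₀⟩ := hne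
  obtain ⟨U, hU, hUe⟩ := exists_col e₀ (fun e => Real.sqrt (p e)) (by
    rw [← hs]
    exact Finset.sum_congr rfl fun e _ => Real.sq_sqrt (hp e))
  refine ⟨Ω, inferInstance, inferInstance, fun _ => U, e₀, id, QU.const U hU, fun x ω => ?_⟩
  beta_reduce
  rw [Finset.sum_eq_single ω]
  · rw [if_pos (by rfl), hUe, Complex.norm_real, Real.norm_eq_abs, sq_abs, Real.sq_sqrt (hp ω)]
  · intro e _ he
    exact if_neg he
  · intro h; exact absurd (Finset.mem_univ _) h

/-- reading one input bit -/
theorem Samp.read (i : I) :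
    Samp I 1 (fun x b => if x i = b then (1 : ℝ) else 0) := by
  classical
  let H : Matrix Bool Bool ℂ := Matrix.of fun a b =>
    ((Real.sqrt 2 : ℝ) : ℂ)⁻¹ * if a && b then -1 else 1
  have h2 : ((Real.sqrt 2 : ℝ) : ℂ)⁻¹ * ((Real.sqrt 2 : ℝ) : ℂ)⁻¹ = 1 / 2 := by
    rw [← mul_inv, ← Complex.ofReal_mul, Real.mul_self_sqrt (by norm_num)]
    norm_num
  have hHs : star H = H := by
    ext a b
    rw [Matrix.star_apply]
    simp only [H, Matrix.of_apply, star_mul', RCLike.star_def, map_inv₀, Complex.conj_ofReal]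
    cases a <;> cases b <;> simp
  have hH : H ∈ Matrix.unitaryGroup Bool ℂ := by
    rw [Matrix.mem_unitaryGroup_iff, hHs]
    ext a b
    rw [Matrix.mul_apply, Fintype.sum_bool]
    simp only [H, Matrix.of_apply]
    cases a <;> cases b <;> simp <;> linear_combination (2 : ℂ) * h2
  let q : Bool → Option I := fun b => if b then some i else none
  refine ⟨Bool, inferInstance, inferInstance,
    fun x => H * Matrix.diagonal (fun e => ph x (q e)) * H, false, id,
    QU.step (QU.const H hH) q H hH, fun x b => ?_⟩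
  have hV : ∀ b, (H * Matrix.diagonal (fun e => ph x (q e)) * H) b false =
      if x i = b then 1 else 0 := by
    intro b
    rw [Matrix.mul_apply, Fintype.sum_bool, Matrix.mul_diagonal, Matrix.mul_diagonal]
    simp only [H, Matrix.of_apply, q, ph, if_true]
    cases hx : x i <;> cases b <;> simp <;> linear_combination (2 : ℂ) * h2
  beta_reduce
  rw [Finset.sum_eq_single b]
  · rw [hV, if_pos (show id b = b from rfl)]
    split_ifs <;> simp
  · intro e _ he
    exact if_neg he
  · intro h; exact absurd (Finset.mem_univ _) h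

end Crest.Agent.R350
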