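import Crest.Agent.R350.QBasic

/-!
# Row 350, piece QBind: sequential composition of samplers

PROOF of `Samp.bind`.  Let `h` be given by `E₁, V, e₀, out` and `hQ ω` by `F ω, W ω, f₀ ω, out' ω`.
State space `Σ e : E₁, F (out e)`, start `⟨e₀, f₀ (out e₀)⟩`.  First run `V` on the copy `e ↦ ⟨e, f₀ (out e)⟩` of `E₁`
(identity on the orthogonal complement, `QU.emb`), then the block diagonal family `e ↦ W (out e)` (`QU.blockDiag`).
Final amplitude at `⟨e, f⟩` is `W (out e) x f (f₀ (out e)) * V x e e₀`.
-/

set_option autoImplicit false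
set_option linter.unusedSectionVars false

namespace Crest.Agent.R350

open Matrix

variable {I : Type}

namespace QBindAux

section emb
variable {E G : Type} [Fintype E] [DecidableEq E] [Fintype G] [DecidableEq G]

/-- the isometry of an injection -/
def J (j : E → G) : Matrix G E ℂ := Matrix.of fun g e => if g = j e then 1 else 0

lemma J_star_mul (j : E → G) (hj : Function.Injective j) : (J j)ᴴ * J j = 1 := by
  ext e e'
  simp only [J, Matrix.mul_apply, Matrix.conjTranspose_apply, Matrix.of_apply, Matrix.one_apply]
  rw [Finset.sum_eq_single (j e)]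
  · by_cases h : e = e'
    · simp [h]
    · have : j e ≠ j e' := fun h' => h (hj h')
      simp [h, this]
  · intro b _ hb
    simp [hb]
  · simp

/-- act by `M` on the range of the injection, identity on the complement -/
noncomputable def emb (j : E → G) (M : Matrix E E ℂ) : Matrix G G ℂ :=
  J j * M * (J j)ᴴ + (1 - J j * (J j)ᴴ)

lemma emb_mul (j : E → G) (hj : Function.Injective j) (M N : Matrix E E ℂ) :
    emb j (M * N) = emb j M * emb j N := by
  have h := J_star_mul j hj
  have h1 : ∀ (X : Matrix E G ℂ), (J j)ᴴ * (J j * X) = X := by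
    intro X
    rw [← Matrix.mul_assoc, h, Matrix.one_mul]
  simp only [emb, Matrix.add_mul, Matrix.mul_add, Matrix.sub_mul, Matrix.mul_sub, Matrix.mul_assoc,
    h1, Matrix.one_mul, Matrix.mul_one]
  abel

lemma emb_one (j : E → G) : emb j (1 : Matrix E E ℂ) = 1 := by
  simp [emb]

lemma emb_star (j : E → G) (M : Matrix E E ℂ) : (emb j M)ᴴ = emb j Mᴴ := by
  simp [emb, Matrix.conjTranspose_mul, Matrix.mul_assoc]

lemma emb_unitary (j : E → G) (hj : Function.Injective j) {M : Matrix E E ℂ}
    (hM : M ∈ Matrix.unitaryGroup E ℂ) : emb j M ∈ Matrix.unitaryGroup G ℂ := by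
  rw [Matrix.mem_unitaryGroup_iff] at hM ⊢
  rw [Matrix.star_eq_conjTranspose] at hM ⊢
  rw [emb_star, ← emb_mul j hj, hM, emb_one]

open Classical in
lemma emb_diagonal (j : E → G) (hj : Function.Injective j) (q : E → Option I) :
    ∃ q' : G → Option I, ∀ x : I → Bool,
      emb j (Matrix.diagonal (fun e => ph x (q e))) = Matrix.diagonal (fun g => ph x (q' g)) := by
  refine ⟨fun g => if h : ∃ e, g = j e then q h.choose else none, fun x => ?_⟩
  ext g g'
  have key : ∀ (g g' : G) (d : E → ℂ), (J j * Matrix.diagonal d * (J j)ᴴ) g g'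
      = if g = g' then ∑ e, (if g = j e then d e else 0) else 0 := by
    intro g g' d
    rw [Matrix.mul_apply]
    simp only [Matrix.mul_diagonal, J, Matrix.conjTranspose_apply, Matrix.of_apply]
    by_cases hg : g = g'
    · subst hg
      simp only [if_true]
      apply Finset.sum_congr rfl
      intro e _
      by_cases h : g = j e <;> simp [h]
    · rw [if_neg hg]
      apply Finset.sum_eq_zero
      intro e _
      by_cases h : g = j e
      · have h' : ¬ (g' = j e) := fun h' => hg (h.trans h'.symm)
        simp [h']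
      · simp [h]
  have key1 : (J j * (J j)ᴴ) g g' = if g = g' then ∑ e, (if g = j e then 1 else 0) else 0 := by
    have := key g g' (fun _ => 1)
    rwa [show (Matrix.diagonal fun _ : E => (1 : ℂ)) = 1 from Matrix.diagonal_one,
      Matrix.mul_one] at this
  simp only [emb, Matrix.add_apply, Matrix.sub_apply, key, key1, Matrix.one_apply,
    Matrix.diagonal_apply]
  by_cases hg : g = g'
  · subst hg
    simp only [if_true]
    by_cases h : ∃ e, g = j e
    · rw [dif_pos h]
      generalize hc : h.choose = e₁
      have he₁ : g = j e₁ := hc ▸ h.choose_spec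
      have hu : ∀ e, (g = j e) ↔ e = e₁ := by
        intro e
        constructor
        · intro he
          exact hj (he.symm.trans he₁)
        · intro he
          rw [he]; exact he₁
      simp only [hu, Finset.sum_ite_eq', Finset.mem_univ, if_true]
      ring
    · rw [dif_neg h]
      have hu : ∀ e, ¬ (g = j e) := fun e he => h ⟨e, he⟩
      simp [hu, ph]
  · simp [hg]

lemma QU_emb (j : E → G) (hj : Function.Injective j) {T : ℕ} {V : (I → Bool) → Matrix E E ℂ}
    (h : QU I E T V) : QU I G T (fun x => emb j (V x)) := by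
  induction h with
  | const U hU => exact QU.const _ (emb_unitary j hj hU)
  | @step T V h q U hU ih =>
    obtain ⟨q', hq'⟩ := emb_diagonal (I := I) j hj q
    have := QU.step ih q' _ (emb_unitary j hj hU)
    convert this using 2 with x
    rw [emb_mul j hj, emb_mul j hj, hq']

lemma emb_col (j : E → G) (hj : Function.Injective j) (M : Matrix E E ℂ) :
    emb j M * J j = J j * M := by
  have h := J_star_mul j hj
  rw [emb, Matrix.add_mul, Matrix.sub_mul, Matrix.mul_assoc, h, Matrix.mul_assoc (J j) (J j)ᴴ, h]
  simp

lemma emb_col_apply (j : E → G) (hj : Function.Injective j) (M : Matrix E E ℂ) (g : G) (e₀ : E) :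
    emb j M g (j e₀) = ∑ e, (if g = j e then M e e₀ else 0) := by
  have h := congrFun (congrFun (emb_col j hj M) g) e₀
  rw [Matrix.mul_apply, Matrix.mul_apply] at h
  simp only [J, Matrix.of_apply, mul_ite, mul_one, mul_zero, ite_mul, one_mul, zero_mul] at h
  rw [← h]
  simp

end emb

section block
variable {ι : Type} [Fintype ι] [DecidableEq ι] {F : ι → Type} [∀ i, Fintype (F i)]
  [∀ i, DecidableEq (F i)]

lemma blockDiagonal'_unitary {U : ∀ i, Matrix (F i) (F i) ℂ}
    (hU : ∀ i, U i ∈ Matrix.unitaryGroup (F i) ℂ) :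
    Matrix.blockDiagonal' U ∈ Matrix.unitaryGroup (Σ i, F i) ℂ := by
  rw [Matrix.mem_unitaryGroup_iff, Matrix.star_eq_conjTranspose,
    Matrix.blockDiagonal'_conjTranspose, ← Matrix.blockDiagonal'_mul]
  have : (fun k => U k * (U k)ᴴ) = fun k => 1 := by
    funext k
    have := hU k
    rwa [Matrix.mem_unitaryGroup_iff, Matrix.star_eq_conjTranspose] at this
  rw [this]
  exact Matrix.blockDiagonal'_one

lemma QU_zero {E : Type} [Fintype E] [DecidableEq E] {V : (I → Bool) → Matrix E E ℂ}
    (h : QU I E 0 V) : ∃ U ∈ Matrix.unitaryGroup E ℂ, V = fun _ => U := by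
  cases h with
  | const U hU => exact ⟨U, hU, rfl⟩

lemma QU_succ {E : Type} [Fintype E] [DecidableEq E] {T : ℕ} {V : (I → Bool) → Matrix E E ℂ}
    (h : QU I E (T + 1) V) : ∃ (V' : (I → Bool) → Matrix E E ℂ) (q : E → Option I)
      (U : Matrix E E ℂ), QU I E T V' ∧ U ∈ Matrix.unitaryGroup E ℂ ∧
        V = fun x => U * Matrix.diagonal (fun e => ph x (q e)) * V' x := by
  cases h with
  | step h q U hU => exact ⟨_, q, U, h, hU, rfl⟩

lemma QU_blockDiag {T : ℕ} {V : ∀ i, (I → Bool) → Matrix (F i) (F i) ℂ}
    (h : ∀ i, QU I (F i) T (V i)) :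
    QU I (Σ i, F i) T (fun x => Matrix.blockDiagonal' (fun i => V i x)) := by
  induction T generalizing V with
  | zero =>
    choose U hU hV using fun i => QU_zero (h i)
    have : (fun x => Matrix.blockDiagonal' (fun i => V i x)) =
        fun _ : I → Bool => Matrix.blockDiagonal' U := by
      funext x
      congr 1
      funext i
      rw [hV i]
    rw [this]
    exact QU.const _ (blockDiagonal'_unitary hU)
  | succ T ih =>
    choose V' q U hV' hU hV using fun i => QU_succ (h i)
    have h1 := QU.step (ih hV') (fun ik : Σ i, F i => q ik.1 ik.2) _ (blockDiagonal'_unitary hU)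
    convert h1 using 2 with x
    rw [← Matrix.blockDiagonal'_diagonal (fun i e => ph x (q i e)), ← Matrix.blockDiagonal'_mul,
      ← Matrix.blockDiagonal'_mul]
    congr 1
    funext i
    rw [hV i]

end block

end QBindAux

open QBindAux

/-- run `P`, then, depending on the outcome `ω`, run `Q ω`; announce both outcomes. -/
theorem Samp.bind {T T' : ℕ} {Ω Ω' : Type} [Fintype Ω] {P : (I → Bool) → Ω → ℝ} (h : Samp I T P)
    {Q : Ω → (I → Bool) → Ω' → ℝ} (hQ : ∀ ω, Samp I T' (Q ω)) :
    Samp I (T + T') (fun x (w : Ω × Ω') => P x w.1 * Q w.1 x w.2) := by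
  classical
  obtain ⟨E, _, _, V, e₀, out, hV, hP⟩ := h
  choose F hF dF W f₀ out' hW hWP using hQ
  let j : E → (Σ e : E, F (out e)) := fun e => ⟨e, f₀ (out e)⟩
  have hj : Function.Injective j := by
    intro e e' h
    exact congrArg Sigma.fst h
  have h1 : QU I (Σ e : E, F (out e)) T (fun x => emb j (V x)) := QU_emb j hj hV
  have h2 : QU I (Σ e : E, F (out e)) T'
      (fun x => Matrix.blockDiagonal' (fun e => W (out e) x)) :=
    QU_blockDiag (fun e => hW (out e))
  have h3 := QU.mul h2 h1
  rw [Nat.add_comm] at h3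
  refine ⟨Σ e : E, F (out e), inferInstance, inferInstance, _, j e₀,
    fun g => (out g.1, out' (out g.1) g.2), h3, ?_⟩
  intro x w
  obtain ⟨ω, ω'⟩ := w
  have hamp : ∀ (e : E) (f : F (out e)),
      (Matrix.blockDiagonal' (fun e => W (out e) x) * emb j (V x)) ⟨e, f⟩ (j e₀)
        = W (out e) x f (f₀ (out e)) * V x e e₀ := by
    intro e f
    rw [Matrix.mul_apply, Fintype.sum_sigma]
    rw [Finset.sum_eq_single e]
    · rw [Finset.sum_eq_single (f₀ (out e))]
      · rw [Matrix.blockDiagonal'_apply_eq, emb_col_apply j hj]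
        rw [Finset.sum_eq_single e]
        · simp [j]
        · intro b _ hb
          rw [if_neg]
          intro h
          exact hb (congrArg Sigma.fst h).symm
        · simp
      · intro b _ hb
        rw [emb_col_apply j hj]
        have : ∑ e' : E, (if (⟨e, b⟩ : Σ e : E, F (out e)) = j e' then V x e' e₀ else 0) = 0 := by
          apply Finset.sum_eq_zero
          intro e' _
          rw [if_neg]
          intro h
          have h' : e = e' := congrArg Sigma.fst h
          subst h'
          simp only [j, Sigma.mk.injEq, heq_eq_eq, true_and] at h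
          exact hb h
        rw [this, mul_zero]
      · simp
    · intro b _ hb
      apply Finset.sum_eq_zero
      intro f' _
      rw [Matrix.blockDiagonal'_apply_ne _ _ _ hb.symm, zero_mul]
    · simp
  rw [Fintype.sum_sigma]
  simp only [hamp]
  rw [hP x ω, Finset.sum_mul]
  apply Finset.sum_congr rfl
  intro e _
  by_cases he : out e = ω
  · subst he
    rw [if_pos rfl, hWP (out e) x ω', Finset.mul_sum]
    apply Finset.sum_congr rfl
    intro f _
    by_cases hf : out' (out e) f = ω'
    · rw [if_pos hf, if_pos (by rw [hf]), norm_mul]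
      ring
    · rw [if_neg hf, if_neg, mul_zero]
      intro h
      exact hf (Prod.ext_iff.mp h).2
  · rw [if_neg he, zero_mul]
    symm
    apply Finset.sum_eq_zero
    intro f _
    rw [if_neg]
    intro h
    exact he (Prod.ext_iff.mp h).1

/-- a decision tree of depth `≤ d` is a sampler with `d` queries (from `read`, `bind`, `map`, `mono`) -/
theorem Samp.tree {Ω : Type} [Fintype Ω] (t : RTree I Ω) {d : ℕ} (hd : t.depth ≤ d) :
    Samp I d (fun x ω => (open Classical in if t.eval x = ω then (1 : ℝ) else 0)) := by
  classical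
  induction t generalizing d with
  | leaf ω =>
    have := Samp.pure (I := I) (fun ω' : Ω => if ω = ω' then (1 : ℝ) else 0)
      (fun ω' => by split_ifs <;> norm_num) (by simp)
    exact this.mono (Nat.zero_le d)
  | node i t₀ t₁ ih₀ ih₁ =>
    rw [RTree.depth] at hd
    obtain ⟨d', rfl⟩ : ∃ d', d = d' + 1 := ⟨d - 1, by omega⟩
    have h0 := ih₀ (d := d') (by omega)
    have h1 := ih₁ (d := d') (by omega)
    have hb := Samp.bind (Samp.read (I := I) i)
      (Q := fun b x ω => if (if b then t₁ else t₀).eval x = ω then (1 : ℝ) else 0)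
      (T' := d') (by
        intro b
        cases b
        · simpa using h0
        · simpa using h1)
    have hm := Samp.map hb (fun w => w.2)
    rw [Nat.add_comm] at hm
    convert hm using 3 with x ω
    rw [Fintype.sum_prod_type, Fintype.sum_bool]
    simp only [RTree.eval]
    rw [Finset.sum_ite_eq', Finset.sum_ite_eq']
    by_cases hx : x i = true
    · simp [hx]
    · simp [hx]

/-- independent samples (auxiliary copy of `Samp.pi`) -/
theorem QBindAux.pi_aux {T : ℕ} {Ω : Type} [Fintype Ω] (s : ℕ) {P : Fin s → (I → Bool) → Ω → ℝ}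
    (h : ∀ a, Samp I T (P a)) :
    Samp I (s * T) (fun x (w : Fin s → Ω) => ∏ a, P a x (w a)) := by
  classical
  induction s with
  | zero =>
    have := Samp.pure (I := I) (fun _ : Fin 0 → Ω => (1 : ℝ)) (fun _ => zero_le_one) (by simp)
    simpa using this
  | succ s ih =>
    have h1 := ih (P := fun a => P a.succ) (fun a => h a.succ)
    have hb := Samp.bind (h 0) (Q := fun _ x (w : Fin s → Ω) => ∏ a, P a.succ x (w a))
      (fun _ => h1)
    have hm := Samp.map hb (fun w => (Fin.cons w.1 w.2 : Fin (s + 1) → Ω))
    have hT : T + s * T = (s + 1) * T := by ring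
    rw [hT] at hm
    convert hm using 3 with x w
    rw [Finset.sum_eq_single (w 0, Fin.tail w)]
    · rw [if_pos (by simp), Fin.prod_univ_succ]
      rfl
    · intro b _ hb'
      rw [if_neg]
      intro h'
      apply hb'
      rw [← h']
      simp
    · simp

/-- independent repetitions -/
theorem Samp.repeat {T : ℕ} {Ω : Type} [Fintype Ω] {P : (I → Bool) → Ω → ℝ} (h : Samp I T P)
    (s : ℕ) : Samp I (s * T) (fun x (w : Fin s → Ω) => ∏ a, P x (w a)) :=
  QBindAux.pi_aux s (P := fun _ => P) (fun _ => h)

/-- independent samples of finitely many different samplers -/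
theorem Samp.pi {T : ℕ} {Ω : Type} [Fintype Ω] (s : ℕ) {P : Fin s → (I → Bool) → Ω → ℝ}
    (h : ∀ a, Samp I T (P a)) :
    Samp I (s * T) (fun x (w : Fin s → Ω) => ∏ a, P a x (w a)) :=
  QBindAux.pi_aux s h

end Crest.Agent.R350
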