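import Mathlib
import Crest.Prelude.Def_QueryComplexity

/-!
# Row 350 (S0554): quantum samplers

Basic definitions of the quantum library for row 350 (helper95).

* `ph x o`     : the phase `(-1)^{x_i}` of an optional input bit;
* `QU I E T V` : the family `V x` of unitaries on `ℂ^E` is implementable with `T` phase queries;
* `Samp I T P` : there is a quantum procedure with `T` queries whose measured outcome has law `P x`
  on input `x : I → Bool`.

The closure theorems of the library (proved in the files `QBasic`, `QBind`, `QAmp`, `QSearch`, `QHad`,
`QReal`) are all in terms of `Samp`, so that the algorithm itself is pure finite probability.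
-/

set_option autoImplicit false

namespace Crest.Agent.R350

open Matrix

/-- the phase `(-1)^{x_i}` of an optional input bit -/
def ph {I : Type} (x : I → Bool) : Option I → ℂ
  | none => 1
  | some i => if x i then -1 else 1

/-- `QU T V`: the family `V x`, `x : I → Bool`, of unitary matrices on `ℂ^E` is a product of input-independent
unitaries and exactly `T` diagonal phase oracles `|e⟩ ↦ (-1)^{x_{q e}} |e⟩`. -/
inductive QU (I : Type) (E : Type) [Fintype E] [DecidableEq E] :
    ℕ → ((I → Bool) → Matrix E E ℂ) → Prop
  | const (U : Matrix E E ℂ) (hU : U ∈ Matrix.unitaryGroup E ℂ) : QU I E 0 (fun _ => U)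
  | step {T : ℕ} {V : (I → Bool) → Matrix E E ℂ} (h : QU I E T V) (q : E → Option I)
      (U : Matrix E E ℂ) (hU : U ∈ Matrix.unitaryGroup E ℂ) :
      QU I E (T + 1) (fun x => U * Matrix.diagonal (fun e => ph x (q e)) * V x)

/-- `Samp I T P`: some quantum procedure with exactly `T` phase queries, on some finite state space `E`,
started in a basis state `e₀` and measured at the end in the computational basis, announces
`ω : Ω` with probability `P x ω` on input `x`. -/
def Samp (I : Type) (T : ℕ) {Ω : Type} (P : (I → Bool) → Ω → ℝ) : Prop :=
  ∃ (E : Type) (_ : Fintype E) (_ : DecidableEq E) (V : (I → Bool) → Matrix E E ℂ)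
    (e₀ : E) (out : E → Ω), QU I E T V ∧
    ∀ x ω, P x ω = ∑ e : E, (open Classical in if out e = ω then ‖V x e e₀‖ ^ 2 else 0)

/-- Decision trees over an arbitrary index type with leaves in `Ω`. -/
inductive RTree (I : Type) (Ω : Type) : Type where
  | leaf (ω : Ω) : RTree I Ω
  | node (i : I) (t₀ t₁ : RTree I Ω) : RTree I Ω

namespace RTree
variable {I Ω : Type}

/-- the value of a tree on an input -/
def eval (x : I → Bool) : RTree I Ω → Ω
  | leaf ω => ω
  | node i t₀ t₁ => if x i then t₁.eval x else t₀.eval x

/-- the depth of a tree -/
def depth : RTree I Ω → ℕ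
  | leaf _ => 0
  | node _ t₀ t₁ => max t₀.depth t₁.depth + 1

end RTree

end Crest.Agent.R350
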