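import Crest.Agent.R350.QBind
import Crest.Agent.R350.QAmp

/-!
# Row 350, piece QSearch: amplitude amplification with an unknown success probability (BBHT)

PROOF.  Base sampler: `Samp.bind` of `h` with an independent coin `Bool` of law `(true ↦ 1/4, false ↦ 3/4)`
(`Samp.pure`), good' `(ω, b) := good ω ∧ b = true`; its success probability is `p' = p/4 ≤ 1/4`.
Draw `j : Fin J` uniformly (`Samp.pure`), run `Samp.amp _ good' j` (cost `(2j+1) T ≤ 2 J T`, pad with `Samp.mono`),
announce `some ω` if the outcome is `(ω, true)` with `good ω`, else `none` (`Samp.map`).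
Then `P' x (some ω) = (1/J) ∑_j κ_j * P x ω / 4` for good `ω`: `κ = (∑_j κ_j) / (4 J)`.
`κ * p = (1/J) ∑_j κ_j p' = (1/J) ∑_{j<J} sin²((2j+1)θ)`, `θ = arcsin √p'`,
`= 1/2 - (1/2J) ∑_j cos((4j+2)θ) = 1/2 - sin(4Jθ) / (4 J sin 2θ)`  (telescoping:
`2 sin 2θ cos((4j+2)θ) = sin((4j+4)θ) - sin(4jθ)`).
If `4 ≤ J² p` then `p > 0`, `sin 2θ = 2 √p' √(1-p') ≥ √3 √p' = √(3p/4)`, so `J sin 2θ ≥ √3 ≥ 1` and
`κ p ≥ 1/2 - 1/4 = 1/4`.
-/

set_option autoImplicit false

namespace Crest.Agent.R350

variable {I : Type}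

namespace QSearchAux

theorem sum_cos (θ : ℝ) (J : ℕ) :
    2 * Real.sin (2 * θ) * ∑ j ∈ Finset.range J, Real.cos ((4 * j + 2) * θ) =
      Real.sin (4 * J * θ) := by
  induction J with
  | zero => simp
  | succ J ih =>
    rw [Finset.sum_range_succ, mul_add, ih]
    have h1 : Real.sin (4 * ((J + 1 : ℕ) : ℝ) * θ) - Real.sin (4 * J * θ) =
        2 * Real.sin (2 * θ) * Real.cos ((4 * J + 2) * θ) := by
      rw [Real.sin_sub_sin]
      congr 2
      · push_cast; ring_nf
      · push_cast; ring
    linarith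

theorem sum_sin_sq (θ : ℝ) (J : ℕ) (hJ : 1 ≤ J) (hs : 1 ≤ J * Real.sin (2 * θ)) :
    (J : ℝ) / 4 ≤ ∑ j ∈ Finset.range J, Real.sin ((2 * j + 1) * θ) ^ 2 := by
  have hJ' : (0 : ℝ) < J := by exact_mod_cast hJ
  have h1 : ∀ j : ℕ, Real.sin ((2 * j + 1) * θ) ^ 2 = 1 / 2 - Real.cos ((4 * j + 2) * θ) / 2 := by
    intro j
    have h2 := Real.cos_sq ((2 * j + 1) * θ)
    have h3 := Real.sin_sq_add_cos_sq ((2 * (j : ℝ) + 1) * θ)
    have h4 : 2 * ((2 * (j : ℝ) + 1) * θ) = (4 * j + 2) * θ := by ring
    rw [h4] at h2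
    linarith
  have hspos : 0 < Real.sin (2 * θ) := by
    by_contra h
    push Not at h
    nlinarith
  have h2 : ∑ j ∈ Finset.range J, Real.sin ((2 * j + 1) * θ) ^ 2 =
      J / 2 - (∑ j ∈ Finset.range J, Real.cos ((4 * j + 2) * θ)) / 2 := by
    simp only [h1, Finset.sum_sub_distrib, Finset.sum_const, Finset.card_range, nsmul_eq_mul,
      ← Finset.sum_div]
    ring
  have h3 : ∑ j ∈ Finset.range J, Real.cos ((4 * j + 2) * θ) ≤ J / 2 := by
    have h4 := sum_cos θ J
    have h5 := Real.sin_le_one (4 * J * θ)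
    by_contra h
    push Not at h
    have h6 : 2 * Real.sin (2 * θ) * ((J : ℝ) / 2) < 2 * Real.sin (2 * θ) *
        ∑ j ∈ Finset.range J, Real.cos ((4 * j + 2) * θ) :=
      mul_lt_mul_of_pos_left h (by positivity)
    nlinarith
  rw [h2]
  linarith

/-- the coin -/
noncomputable def coin : Bool → ℝ := fun b => if b then 1 / 4 else 3 / 4

end QSearchAux

open QSearchAux

theorem Samp.search {T : ℕ} {Ω : Type} [Fintype Ω] {P : (I → Bool) → Ω → ℝ} (h : Samp I T P)
    (good : Ω → Prop) (J : ℕ) (hJ : 1 ≤ J) :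
    ∃ P' : (I → Bool) → Option Ω → ℝ, Samp I (2 * J * T) P' ∧
      ∀ x, ∃ κ : ℝ, 0 ≤ κ ∧
        (∀ ω, P' x (some ω) = (open Classical in if good ω then κ * P x ω else 0)) ∧
        (4 ≤ (J : ℝ) ^ 2 * ∑ ω : Ω, (open Classical in if good ω then P x ω else 0) →
          1 / 4 ≤ κ * ∑ ω : Ω, (open Classical in if good ω then P x ω else 0)) := by
  classical
  have hJ' : (0 : ℝ) < J := by exact_mod_cast hJ
  have hcoin : Samp I 0 (fun _ => coin) := Samp.pure coin
    (by intro b; unfold coin; split_ifs <;> norm_num)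
    (by rw [Fintype.sum_bool]; unfold coin; norm_num)
  have hB := Samp.bind h (Q := fun _ _ => coin) (fun _ => hcoin)
  choose P1 hP1 hP1' using fun j : ℕ => Samp.amp hB (fun w => good w.1 ∧ w.2 = true) j
  choose κ hκ0 hκ1 hκ2 using hP1'
  have hunif : Samp I 0 (fun _ (_ : Fin J) => (1 : ℝ) / J) := Samp.pure _
    (fun _ => by positivity)
    (by simp only [Finset.sum_const, Finset.card_univ, Fintype.card_fin, nsmul_eq_mul]
        field_simp)
  have hC := Samp.bind hunif (Q := fun j x => P1 j x) (T' := 2 * J * T) (fun j =>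
    (hP1 j).mono (by
      have : 2 * (j : ℕ) + 1 ≤ 2 * J := by have := j.2; omega
      rw [Nat.add_zero]
      exact Nat.mul_le_mul_right T this))
  rw [Nat.zero_add] at hC
  have hD := Samp.map hC (fun w => if good w.2.1 ∧ w.2.2 = true then some w.2.1 else none)
  refine ⟨_, hD, fun x => ⟨(∑ j ∈ Finset.range J, κ j x) / (4 * J), ?_, ?_, ?_⟩⟩
  · exact div_nonneg (Finset.sum_nonneg fun j _ => hκ0 j x) (by positivity)
  · intro ω
    have e1 : ∀ w : Fin J × (Ω × Bool),
        (if (if good w.2.1 ∧ w.2.2 = true then some w.2.1 else none) = some ω then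
          (1 : ℝ) / J * P1 w.1 x w.2 else 0) =
        if w.2 = (ω, true) then (if good ω then (1 : ℝ) / J * (κ w.1 x * (P x ω * (1 / 4)))
          else 0) else 0 := by
      intro w
      obtain ⟨j, ω', b⟩ := w
      by_cases hw : (ω', b) = (ω, true)
      · have hw1 : ω' = ω := (Prod.ext_iff.1 hw).1
        have hw2 : b = true := (Prod.ext_iff.1 hw).2
        subst hw1
        subst hw2
        simp only [and_true, if_true]
        by_cases hg : good ω'
        · rw [if_pos hg, if_pos rfl, if_pos hg, hκ1 j x (ω', true) ⟨hg, rfl⟩]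
          simp [coin]
        · rw [if_neg hg, if_neg hg, if_neg (by simp)]
      · rw [if_neg hw, if_neg]
        intro h'
        apply hw
        by_cases hc : good ω' ∧ b = true
        · simp only at h'
          rw [if_pos hc] at h'
          rw [Option.some.inj h', hc.2]
        · simp only at h'
          rw [if_neg hc] at h'
          exact absurd h' (by simp)
    have e2 : (∑ w : Fin J × (Ω × Bool),
        (if (if good w.2.1 ∧ w.2.2 = true then some w.2.1 else none) = some ω then
          (1 : ℝ) / J * P1 w.1 x w.2 else 0)) =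
        if good ω then (∑ j ∈ Finset.range J, κ j x) / (4 * J) * P x ω else 0 := by
      simp only [e1]
      rw [Fintype.sum_prod_type]
      simp only [Finset.sum_ite_eq', Finset.mem_univ, if_true]
      by_cases hg : good ω
      · simp only [hg, if_true]
        rw [Fin.sum_univ_eq_sum_range (fun j => (1 : ℝ) / J * (κ j x * (P x ω * (1 / 4)))) J,
          Finset.sum_div, Finset.sum_mul]
        refine Finset.sum_congr rfl fun j _ => ?_
        field_simp
      · simp [hg]
    refine (Finset.sum_congr rfl fun w _ => ?_).trans (e2.trans ?_)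
    · congr
    · congr
  · intro h4
    set p : ℝ := ∑ ω : Ω, if good ω then P x ω else 0 with hp
    have hp0 : 0 ≤ p := Finset.sum_nonneg fun ω _ => by
      split_ifs
      · exact h.nonneg x ω
      · exact le_rfl
    have hp1 : p ≤ 1 := by
      rw [← h.sum_eq_one x]
      refine Finset.sum_le_sum fun ω _ => ?_
      split_ifs
      · exact le_rfl
      · exact h.nonneg x ω
    set θ : ℝ := Real.arcsin (Real.sqrt (p / 4)) with hθ
    have hq1 : Real.sqrt (p / 4) ≤ 1 := Real.sqrt_le_one.2 (by linarith)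
    have hsin : Real.sin θ = Real.sqrt (p / 4) :=
      Real.sin_arcsin (by linarith [Real.sqrt_nonneg (p / 4)]) hq1
    have hsin2 : Real.sin θ ^ 2 = p / 4 := by
      rw [hsin, Real.sq_sqrt (by positivity)]
    have hcos : Real.cos θ = Real.sqrt (1 - p / 4) := by
      rw [hθ, Real.cos_arcsin, Real.sq_sqrt (by positivity)]
    have hsum : Real.sin θ ^ 2 = ∑ w : Ω × Bool,
        (if good w.1 ∧ w.2 = true then P x w.1 * coin w.2 else 0) := by
      rw [hsin2, Fintype.sum_prod_type, hp, Finset.sum_div]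
      refine Finset.sum_congr rfl fun ω _ => ?_
      rw [Fintype.sum_bool]
      by_cases hg : good ω
      · simp [hg, coin]; ring
      · simp [hg]
    have hk : ∀ j, κ j x * Real.sin θ ^ 2 = Real.sin ((2 * j + 1) * θ) ^ 2 := fun j =>
      hκ2 j x θ (by rw [hsum]; refine Finset.sum_congr rfl fun w _ => ?_; congr)
    have hs1 : 1 ≤ J * Real.sin (2 * θ) := by
      have h5 : Real.sin (2 * θ) ^ 2 = 4 * (p / 4) * (1 - p / 4) := by
        rw [Real.sin_two_mul, mul_pow, mul_pow, hsin2, hcos, Real.sq_sqrt (by linarith)]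
        ring
      have h6 : 0 ≤ Real.sin (2 * θ) := by
        rw [Real.sin_two_mul, hsin, hcos]
        positivity
      have h7 : 1 ≤ (J * Real.sin (2 * θ)) ^ 2 := by
        rw [mul_pow, h5]
        nlinarith [mul_nonneg (sq_nonneg (J : ℝ)) hp0]
      have h8 : 0 ≤ J * Real.sin (2 * θ) := by positivity
      nlinarith
    have h9 := sum_sin_sq θ J hJ hs1
    have h10 : (∑ j ∈ Finset.range J, κ j x) / (4 * J) * p =
        (∑ j ∈ Finset.range J, Real.sin ((2 * j + 1) * θ) ^ 2) / J := by
      rw [← Finset.sum_congr rfl (fun j _ => hk j), ← Finset.sum_mul, hsin2]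
      field_simp
    have h11 : 1 / 4 ≤ (∑ j ∈ Finset.range J, κ j x) / (4 * J) * p := by
      rw [h10, le_div_iff₀ hJ']
      linarith
    exact h11

end Crest.Agent.R350
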