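import Crest.Agent.R350.Defs

/-!
# Row 350, piece TBasic: elementary constructions with decision trees

* `RTree.path x t` : the set of indices read by `t` on input `x`;
* `RTree.bind`     : sequential composition;
* `RTree.exists_of_depends` : a function depending only on the bits in a finite set `S` is computed by a tree of depth `≤ |S|`.
All proofs are easy inductions on the tree (on `S` for the last one).
-/

set_option autoImplicit false

namespace Crest.Agent.R350

namespace RTree
variable {I Ω Ω' : Type}

/-- the indices read on input `x` -/
def path [DecidableEq I] (x : I → Bool) : RTree I Ω → Finset I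
  | leaf _ => ∅
  | node i t₀ t₁ => insert i (if x i then t₁.path x else t₀.path x)

/-- sequential composition: run the tree, then the tree chosen by its answer -/
def bind (f : Ω → RTree I Ω') : RTree I Ω → RTree I Ω'
  | leaf ω => f ω
  | node i t₀ t₁ => node i (t₀.bind f) (t₁.bind f)

theorem eval_bind (x : I → Bool) (f : Ω → RTree I Ω') (t : RTree I Ω) :
    (t.bind f).eval x = (f (t.eval x)).eval x := by
  induction t with
  | leaf ω => rfl
  | node i t₀ t₁ h₀ h₁ =>
    simp only [bind, eval]
    split
    · exact h₁
    · exact h₀

theorem depth_bind (f : Ω → RTree I Ω') (t : RTree I Ω) {d : ℕ} (hf : ∀ ω, (f ω).depth ≤ d) :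
    (t.bind f).depth ≤ t.depth + d := by
  induction t with
  | leaf ω => simpa [bind, depth] using hf ω
  | node i t₀ t₁ h₀ h₁ =>
    simp only [bind, depth]
    omega

theorem exists_of_depends (S : Finset I) (P : (I → Bool) → Ω)
    (hP : ∀ x y : I → Bool, (∀ i ∈ S, x i = y i) → P x = P y) :
    ∃ t : RTree I Ω, t.depth ≤ S.card ∧ ∀ x, t.eval x = P x := by
  classical
  induction S using Finset.induction_on generalizing P with
  | empty =>
    refine ⟨leaf (P fun _ => false), by simp [depth], fun x => ?_⟩
    simp only [eval]
    exact hP _ _ (by simp)
  | insert a S ha ih =>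
    obtain ⟨t₀, hd₀, he₀⟩ := ih (fun x => P (Function.update x a false)) (by
      intro x y hxy
      apply hP
      intro i hi
      by_cases hia : i = a
      · subst hia; simp
      · rw [Function.update_of_ne hia, Function.update_of_ne hia]
        exact hxy i ((Finset.mem_insert.1 hi).resolve_left hia))
    obtain ⟨t₁, hd₁, he₁⟩ := ih (fun x => P (Function.update x a true)) (by
      intro x y hxy
      apply hP
      intro i hi
      by_cases hia : i = a
      · subst hia; simp
      · rw [Function.update_of_ne hia, Function.update_of_ne hia]
        exact hxy i ((Finset.mem_insert.1 hi).resolve_left hia))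
    refine ⟨node a t₀ t₁, ?_, fun x => ?_⟩
    · simp only [depth]
      rw [Finset.card_insert_of_notMem ha]
      omega
    · simp only [eval]
      cases hx : x a with
      | true =>
        simp only [if_true, he₁]
        rw [← hx, Function.update_eq_self]
      | false =>
        simp only [Bool.false_eq_true, if_false, he₀]
        rw [← hx, Function.update_eq_self]

variable [DecidableEq I]

theorem card_path_le (x : I → Bool) (t : RTree I Ω) : (t.path x).card ≤ t.depth := by
  induction t with
  | leaf ω => simp [path, depth]
  | node i t₀ t₁ h₀ h₁ =>
    simp only [path, depth]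
    refine (Finset.card_insert_le _ _).trans ?_
    split <;> omega

/-- inputs that agree on the path have the same path and the same value -/
theorem path_congr {x y : I → Bool} (t : RTree I Ω) (h : ∀ i ∈ t.path x, x i = y i) :
    t.path y = t.path x ∧ t.eval y = t.eval x := by
  induction t with
  | leaf ω => exact ⟨rfl, rfl⟩
  | node i t₀ t₁ h₀ h₁ =>
    simp only [path, eval] at h ⊢
    have hi : x i = y i := h i (Finset.mem_insert_self _ _)
    rw [← hi]
    cases hx : x i with
    | true =>
      simp only [hx, if_true] at h ⊢
      obtain ⟨a, b⟩ := h₁ (fun j hj => h j (Finset.mem_insert_of_mem hj))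
      exact ⟨by rw [a], b⟩
    | false =>
      simp only [hx, Bool.false_eq_true, if_false] at h ⊢
      obtain ⟨a, b⟩ := h₀ (fun j hj => h j (Finset.mem_insert_of_mem hj))
      exact ⟨by rw [a], b⟩

/-- if `x` and `y` agree outside `S` and the path of `x` avoids `S`, so does the path of `y` -/
theorem path_disjoint_congr {x y : I → Bool} {S : Finset I} (t : RTree I Ω)
    (h : ∀ i, i ∉ S → x i = y i) (hd : Disjoint (t.path x) S) :
    Disjoint (t.path y) S := by
  have := (t.path_congr (x := x) (y := y) (fun i hi => h i (Finset.disjoint_left.1 hd hi))).1
  rw [this]
  exact hd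

end RTree

end Crest.Agent.R350
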