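import Crest.Agent.R350.FCheck
import Crest.Agent.R350.ELoop
import Crest.Agent.R350.EVerify
import Crest.Agent.R350.EAddr

/-!
# Row 350, piece Upper: the quantum algorithm for `FF`

PROOF.  `n = 2 j`, columns `C = V n` (`card = 2^n = 4^j`, so `a = j` in `Samp.eliminate`), addresses `R = Fin L → Bool`,
`addr c` from `Samp.address` (`idx l i p = iData c (l, i, p)`, cost `L (t₀ K)`), `kill r c` from `exists_kill` (depth `≤ 2j+1`),
verification `Samp.verify` with the checks of `exists_checks` and `J = 2^j * B`, `B = 3 + L M + L M K (2j+1) + L`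
(`card_Chk`: `≤ 2^(2j) B ≤ J²`), `d = 2 (2j) + 1 + (M+3) β`.  Combine with `Samp.findVerify` for `valid r x := Valid dec τ x r`:
if `Valid dec τ x r` put `b = col x r`: `addr b x r ≥ 9/10` by `Valid.good`; for `c ≠ b` `kill r c` is `true` (third clause of `Valid`);
`kill r' b` is `false` (second clause).
-/

set_option autoImplicit false

namespace Crest.Agent.R350

theorem upper_FF : ∃ C₀ : ℕ, ∀ (j K L M β t₀ : ℕ), 1 ≤ K → 1 ≤ L → 1 ≤ M →
    ∀ (dec : (Fin β → Bool) → ℤ) (θ : ℝ), 0 < θ → 10 * (L : ℝ) / θ ^ 2 ≤ t₀ →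
    ∃ P : (Idx (2 * j) K L M β → Bool) → Bool → ℝ,
      Samp (Idx (2 * j) K L M β)
        (100 * (C₀ * 2 ^ j * (j + 1) ^ 6 * (L * (t₀ * K) + (2 * j + 1) + 1)
          + 160 * (2 ^ j * (3 + L * M + L * M * (K * (2 * j + 1)) + L))
            * (2 * (2 * j) + 1 + (M + 3) * β))) P ∧
      ∀ x, 2 / 3 ≤ P x (FF dec (θ * (M * 2 ^ (j * (K + 1)))) x) := by
  classical
  obtain ⟨C₀, hC₀⟩ := Samp.eliminate
  refine ⟨C₀, ?_⟩
  intro j K L M β t₀ hK hL hM dec θ hθ ht₀
  set τ : ℝ := θ * (M * 2 ^ (j * (K + 1))) with hτ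
  have haddr : ∀ c : V (2 * j), ∃ P : (Idx (2 * j) K L M β → Bool) → (Fin L → Bool) → ℝ,
      Samp (Idx (2 * j) K L M β) (L * (t₀ * K)) P ∧
      ∀ x (r : Fin L → Bool),
        (∀ l, τ ≤ (sg (r l) : ℝ) * ∑ i : Fin M, (Psi (dat x c l i) : ℝ)) → 9 / 10 ≤ P x r := by
    intro c
    obtain ⟨P, hP1, hP2⟩ := Samp.address (I := Idx (2 * j) K L M β) (j := j) hM hK hL θ hθ t₀ ht₀
      (fun l i p => iData c (l, i, p))
    exact ⟨P, hP1, fun x r h => hP2 x r h⟩
  choose addr haddr1 haddr2 using haddr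
  have hkill := fun (r : Fin L → Bool) (c : V (2 * j)) =>
    exists_kill (n := 2 * j) (K := K) (L := L) (M := M) (β := β) r c
  choose kill hkill1 hkill2 using hkill
  have hchk := fun (r : Fin L → Bool) =>
    exists_checks (n := 2 * j) (K := K) (L := L) (M := M) (β := β) dec τ r
  choose check hchk1 hchk2 using hchk
  have hcardV : Fintype.card (V (2 * j)) = 4 ^ j := by
    simp only [V, Fintype.card_fun, Fintype.card_bool, Fintype.card_fin]
    rw [pow_mul]
    norm_num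
  obtain ⟨P, hP1, hP2⟩ := hC₀ j hcardV addr haddr1 kill hkill1
  set B : ℕ := 3 + L * M + L * M * (K * (2 * j + 1)) + L with hB
  have hB1 : 1 ≤ B := by omega
  have hJ1 : 1 ≤ 2 ^ j * B := Nat.mul_pos (by positivity) hB1
  have hJ : Fintype.card (Chk (2 * j) K L M) ≤ (2 ^ j * B) ^ 2 := by
    refine (card_Chk (2 * j) K L M).trans ?_
    rw [← hB, mul_pow, ← pow_mul, mul_comm j 2]
    refine Nat.mul_le_mul_left _ ?_
    nlinarith
  have hver := fun r => Samp.verify (I := Idx (2 * j) K L M β) (2 ^ j * B)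
    (2 * (2 * j) + 1 + (M + 3) * β) hJ hJ1 (check r) (hchk1 r)
  choose Q hQ1 hQ2 hQ3 using hver
  refine Samp.findVerify (R := Fin L → Bool) (FF dec τ) (fun r x => Valid dec τ x r) ?_ hP1 hQ1 ?_ ?_ ?_
  · intro x
    unfold FF
    rw [decide_eq_true_iff]
  · intro x hx
    unfold FF at hx
    rw [decide_eq_true_iff] at hx
    obtain ⟨r, hr⟩ := hx
    refine ⟨r, hr, hP2 x (col x r) r ?_ ?_ ?_⟩
    · exact haddr2 (col x r) x r (fun l => hr.good l)
    · intro c hc
      rw [hkill2 r c x, hr.2.2.1 c hc]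
      rfl
    · intro r'
      rw [hkill2 r' (col x r) x, hr.2.1]
      rfl
  · intro r x h
    exact hQ2 r x ((hchk2 r x).1 h)
  · intro r x h
    exact hQ3 r x (fun h' => h ((hchk2 r x).2 h'))

end Crest.Agent.R350
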